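import Vale.Agent.P095.Defs

/-!
# P095: equivariant uniform McDuffness
-/

open scoped ComplexOrder

namespace Vale.Agent.P095

/-- Equivariant uniform McDuffness: for every finite set of `A` and of `G` almost invariant almost
central approximate `2 × 2` matrix units with unit `1`, all estimates in the 2-norms of all tracial
states. -/
def HasEquivariantUniformMcDuff {G A : Type*} [Group G] [CStarAlgebra A] (α : G → A ≃⋆ₐ[ℂ] A) :
    Prop :=
  ∀ (C : Finset A) (K : Finset G) (ε : ℝ), 0 < ε → ∃ e : Fin 2 → Fin 2 → A,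
    (∀ i j, ‖e i j‖ ≤ 1) ∧
    (∀ i j k l, SmallTwoNorm (e i j * e k l - if j = k then e i l else 0) ε) ∧
    (∀ i j, SmallTwoNorm (star (e i j) - e j i) ε) ∧
    SmallTwoNorm (e 0 0 + e 1 1 - 1) ε ∧
    (∀ c ∈ C, ∀ i j, SmallTwoNorm (c * e i j - e i j * c) ε) ∧
    ∀ k ∈ K, ∀ i j, SmallTwoNorm (α k (e i j) - e i j) ε

end Vale.Agent.P095
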