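import Vale.Agent.P095.Upgrade.Defs
import Vale.Agent.P095.Shift

/-!
# P095: one copy from samples and a partition

The samples are glued along an almost invariant central partition of unity, and the 2-norm bounds
are turned into bounds in the tracial 1-norm.
-/

open scoped ComplexOrder
open Complex Finset

namespace Vale.Agent.P095

namespace Copy

variable {B : Type*} [CStarAlgebra B] [PartialOrder B] [StarOrderedRing B] (ω : Tr B)

variable {ω}

theorem l1_mono {x : B} {L L' : ℝ} (h : ω.L1 x L) (hL : L ≤ L') : ω.L1 x L' :=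
  fun s => (h s).trans (mul_le_mul_of_nonneg_left hL (norm_nonneg s))

theorem l1_add {x y : B} {L L' : ℝ} (h : ω.L1 x L) (h' : ω.L1 y L') : ω.L1 (x + y) (L + L') :=
  fun s => by
    rw [mul_add, map_add, mul_add]
    exact (norm_add_le _ _).trans (add_le_add (h s) (h' s))

theorem l1_sub {x y : B} {L L' : ℝ} (h : ω.L1 x L) (h' : ω.L1 y L') : ω.L1 (x - y) (L + L') :=
  fun s => by
    rw [mul_sub, map_sub, mul_add]
    exact (norm_sub_le _ _).trans (add_le_add (h s) (h' s))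

theorem l1_mul (x y : B) {L L' : ℝ} (h : ω.nrm x ≤ L) (h' : ω.nrm y ≤ L') :
    ω.L1 (x * y) (L * L') := fun s => by
  have h0 := ω.norm_apply_star_mul_le (star (s * x)) y
  rw [star_star, ω.nrm_star, mul_assoc] at h0
  have hL : 0 ≤ L := (ω.nrm_nonneg x).trans h
  refine h0.trans ((mul_le_mul ((ω.nrm_mul_left s x).trans
    (mul_le_mul_of_nonneg_left h (norm_nonneg s))) h' (ω.nrm_nonneg y) (by positivity)).trans_eq ?_)
  ring

theorem l1_nonneg {x : B} {L : ℝ} (hx : 0 ≤ x) (h : (ω.f x).re ≤ L) : ω.L1 x L := fun s =>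
  (ω.norm_apply_mul_nonneg s hx).trans (mul_le_mul_of_nonneg_left h (norm_nonneg s))

theorem l1_mul_right {x : B} {L : ℝ} (h : ω.L1 x L) (hL : 0 ≤ L) {b : B} {D : ℝ} (hb : ‖b‖ ≤ D) :
    ω.L1 (x * b) (D * L) := fun s => by
  rw [← mul_assoc, ω.tracial, ← mul_assoc]
  refine (h (b * s)).trans ?_
  calc ‖b * s‖ * L ≤ ‖b‖ * ‖s‖ * L := mul_le_mul_of_nonneg_right (norm_mul_le _ _) hL
    _ ≤ D * ‖s‖ * L := by gcongr
    _ = _ := by ring

/-- A difference of almost projections is small in 1-norm if it is small in 2-norm. -/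
theorem l1_diff {P Q : B} {N d e : ℝ} (hP : ω.nrm P ≤ N) (hQ : ω.nrm Q ≤ N)
    (hd : ω.nrm (P - Q) ≤ d) (eP : ω.L1 (P - P * P) e) (eQ : ω.L1 (Q - Q * Q) e) :
    ω.L1 (P - Q) (2 * N * d + 2 * e) := by
  have h := l1_add (l1_add (l1_mul P (P - Q) hP hd) (l1_mul (P - Q) Q hd hQ)) (l1_sub eP eQ)
  rw [show P * (P - Q) + (P - Q) * Q + (P - P * P - (Q - Q * Q)) = P - Q by noncomm_ring] at h
  exact l1_mono h (le_of_eq (by ring))

/-- An almost orthogonal product of almost projections is small in 1-norm. -/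
theorem l1_prod {P Q : B} {N d e : ℝ} (hP : ω.nrm P ≤ N) (hd : ω.nrm (P * Q) ≤ d)
    (eP : ω.L1 (P - P * P) e) (he : 0 ≤ e) (hQ : ‖Q‖ ≤ 1) : ω.L1 (P * Q) (N * d + e) := by
  have h := l1_add (l1_mul P (P * Q) hP hd) (l1_mul_right eP he hQ)
  rw [show P * (P * Q) + (P - P * P) * Q = P * Q by noncomm_ring, one_mul] at h
  exact h

/-- Four positive contractions with small 2-norm defects have small 1-norm defects. -/
theorem model_l1 {R : Fin 4 → B} {t u : ℝ} (ht : 0 ≤ t) (_hu : 0 ≤ u)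
    (hR : ∀ a, 0 ≤ R a - R a * R a) (h0 : ∀ a, 0 ≤ R a) (h1 : ∀ a, ‖R a‖ ≤ 1)
    (hn : ∀ a, ω.nrm (R a) ≤ 3 * u) (hi : ∀ a, (ω.f (R a - R a * R a)).re ≤ 3 * (t * u ^ 2))
    (hd : ∀ j, ω.nrm (defect R j) ≤ 3 * (t * u)) :
    (∀ a, ω.L1 (R a - R a * R a) (600 * (t * u ^ 2))) ∧
      ∀ j, ω.L1 (defect R j) (600 * (t * u ^ 2)) := by
  have w0 : 0 ≤ t * u ^ 2 := by positivity
  have e : ∀ a, ω.L1 (R a - R a * R a) (3 * (t * u ^ 2)) := fun a => l1_nonneg (hR a) (hi a)
  have pr : ∀ a b, ω.nrm (R a * R b) ≤ 3 * (t * u) →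
      ω.L1 (R a * R b) (12 * (t * u ^ 2)) ∧ ω.L1 (R b * R a) (12 * (t * u ^ 2)) := by
    intro a b h
    have h' : ω.nrm (R b * R a) ≤ 3 * (t * u) := by
      rw [← ω.nrm_star, star_mul, (h0 a).isSelfAdjoint.star_eq, (h0 b).isSelfAdjoint.star_eq]
      exact h
    exact ⟨l1_mono (l1_prod (hn a) h (e a) (by positivity) (h1 b)) (le_of_eq (by ring)),
      l1_mono (l1_prod (hn b) h' (e b) (by positivity) (h1 a)) (le_of_eq (by ring))⟩
  obtain ⟨q01, q10⟩ := pr 0 1 (hd 0)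
  obtain ⟨q23, q32⟩ := pr 2 3 (hd 1)
  have idem : ∀ a b, ω.L1 (R a * R b) (12 * (t * u ^ 2)) → ω.L1 (R b * R a) (12 * (t * u ^ 2)) →
      ω.L1 (R a + R b - (R a + R b) * (R a + R b)) (30 * (t * u ^ 2)) ∧
      ω.L1 (R a - R b - (R a + R b) * (R a - R b)) (30 * (t * u ^ 2)) := by
    intro a b x y
    have i1 := l1_sub (l1_sub (l1_add (e a) (e b)) x) y
    have i2 := l1_sub (l1_add (l1_sub (e a) (e b)) x) y
    rw [show R a - R a * R a + (R b - R b * R b) - R a * R b - R b * R a =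
      R a + R b - (R a + R b) * (R a + R b) by noncomm_ring] at i1
    rw [show R a - R a * R a - (R b - R b * R b) + R a * R b - R b * R a =
      R a - R b - (R a + R b) * (R a - R b) by noncomm_ring] at i2
    exact ⟨l1_mono i1 (le_of_eq (by ring)), l1_mono i2 (le_of_eq (by ring))⟩
  obtain ⟨iD, iS⟩ := idem 0 1 q01 q10
  obtain ⟨iD', iT⟩ := idem 2 3 q23 q32
  have nD : ∀ a b, ω.nrm (R a + R b) ≤ 6 * u := fun a b =>
    (ω.nrm_add _ _).trans (by linarith [hn a, hn b])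
  have d2 : ω.nrm (R 0 + R 1 - (R 2 + R 3)) ≤ 3 * (t * u) := by
    rw [← sub_sub]; exact hd 2
  have q2 : ω.L1 (R 0 + R 1 - (R 2 + R 3)) (96 * (t * u ^ 2)) :=
    l1_mono (l1_diff (nD 0 1) (nD 2 3) d2 iD iD') (le_of_eq (by ring))
  have q2' : ω.L1 (R 2 + R 3 - (R 0 + R 1)) (96 * (t * u ^ 2)) := fun s => by
    rw [← neg_sub, mul_neg, map_neg, norm_neg]; exact q2 s
  have s2 : ∀ a b, ‖R a - R b‖ ≤ 2 := fun a b =>
    (norm_sub_le _ _).trans (by linarith [h1 a, h1 b])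
  refine ⟨fun a => l1_mono (e a) (by linarith), fun j => ?_⟩
  fin_cases j
  · exact l1_mono q01 (by linarith)
  · exact l1_mono q23 (by linarith)
  · change ω.L1 (R 0 + R 1 - R 2 - R 3) _
    rw [sub_sub (R 0 + R 1)]; exact l1_mono q2 (by linarith)
  · have a1 := l1_mul (R 0 + R 1) (defect R 3) (nD 0 1) (hd 3)
    have a2 := l1_mul_right iS (by positivity) (s2 2 3)
    have a3 := l1_mul_right iT (by positivity) (s2 0 1)
    have a4 := l1_mul_right q2' (by positivity)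
      ((norm_mul_le _ _).trans (mul_le_mul (s2 2 3) (s2 0 1) (norm_nonneg _) zero_le_two))
    have h := l1_add (l1_add a1 a2) (l1_add a3 a4)
    refine l1_mono ?_ (show 6 * u * (3 * (t * u)) + 2 * (30 * (t * u ^ 2)) +
      (2 * (30 * (t * u ^ 2)) + 2 * 2 * (96 * (t * u ^ 2))) ≤ 600 * (t * u ^ 2) by nlinarith)
    convert h using 1
    change (R 0 - R 1) * (R 2 - R 3) + (R 2 - R 3) * (R 0 - R 1) = (R 0 + R 1) *
      ((R 0 - R 1) * (R 2 - R 3) + (R 2 - R 3) * (R 0 - R 1)) + _ + _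
    noncomm_ring

/-- Sums weighted by a partition. -/
noncomputable def mix {M : ℕ} (p d : Fin M → B) : B := ∑ i, p i * d i

variable {M : ℕ} {p : Fin M → B} {κ : ℝ}

omit [PartialOrder B] [StarOrderedRing B] in
theorem mix_sub (p d e : Fin M → B) : mix p (fun i => d i - e i) = mix p d - mix p e := by
  simp [mix, mul_sub, sum_sub_distrib]

omit [PartialOrder B] [StarOrderedRing B] in
theorem mix_add (p d e : Fin M → B) : mix p (fun i => d i + e i) = mix p d + mix p e := by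
  simp [mix, mul_add, sum_add_distrib]

theorem mix_mul (hsum : ∑ i, p i = 1) (hκ0 : 0 ≤ κ)
    (hκ : ∀ i j, i ≠ j → ω.nrm (p i * p j) ≤ κ) {d e : Fin M → B} {D : ℝ} (hd : ∀ i, ‖d i‖ ≤ D)
    (he : ∀ i, ‖e i‖ ≤ D) (hc : ∀ i j, Commute (ω.rep (p j)) (ω.rep (d i))) :
    ω.nrm (mix p d * mix p e - mix p (fun i => d i * e i)) ≤ 2 * (M : ℝ) ^ 2 * D ^ 2 * κ := by
  have e1 : ω.rep (mix p d * mix p e) = ω.rep (∑ i, ∑ j, p i * p j * (d i * e j)) := by
    simp only [mix, map_mul, map_sum, sum_mul, mul_sum]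
    rw [sum_comm]
    refine sum_congr rfl fun i _ => sum_congr rfl fun j _ => ?_
    rw [mul_assoc, ← mul_assoc (ω.rep (d i)), ← (hc i j).eq]; simp only [mul_assoc]
  have e2 : mix p (fun i => d i * e i) = ∑ i, ∑ j, p i * p j * (d j * e j) := by
    conv_lhs => rw [← one_mul (mix p _), ← hsum]
    simp only [mix, sum_mul, mul_sum, mul_assoc]
    exact sum_comm
  rw [ω.nrm_congr (y := ∑ i, ∑ j, p i * p j * ((d i - d j) * e j)) (by
    rw [map_sub, e1, e2, ← map_sub, ← sum_sub_distrib]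
    simp only [← sum_sub_distrib, ← mul_sub, sub_mul])]
  refine (ω.nrm_sum _ _).trans ((sum_le_sum (g := fun _ => ∑ _j : Fin M, κ * (2 * D * D))
    fun i _ => (ω.nrm_sum _ _).trans (sum_le_sum fun j _ => ?_)).trans_eq ?_)
  · have hD : 0 ≤ D := (norm_nonneg _).trans (hd i)
    rcases eq_or_ne i j with rfl | hij
    · simp only [sub_self, zero_mul, mul_zero, ω.nrm_zero]; positivity
    · refine (ω.nrm_mul_right _ _).trans (mul_le_mul (hκ i j hij) ?_ (norm_nonneg _) hκ0)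
      refine (norm_mul_le _ _).trans (mul_le_mul ?_ (he j) (norm_nonneg _) (by linarith))
      exact (norm_sub_le _ _).trans (by linarith [hd i, hd j])
  · simp; ring

theorem mix_apply {d : Fin M → B}
    (h : ∀ i, ‖ω.f (d i * p i) - ((M : ℝ)⁻¹ : ℝ) * ω.f (d i)‖ ≤ κ) :
    ‖ω.f (mix p d) - ((M : ℝ)⁻¹ : ℝ) * ∑ i, ω.f (d i)‖ ≤ M * κ := by
  rw [mix, map_sum, mul_sum, ← sum_sub_distrib]
  refine (norm_sum_le _ _).trans
    ((sum_le_sum (g := fun _ => κ) fun i _ => ?_).trans_eq (by simp))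
  rw [ω.tracial]; exact h i

theorem mix_re_le {d : Fin M → B}
    (h : ∀ i, ‖ω.f (d i * p i) - ((M : ℝ)⁻¹ : ℝ) * ω.f (d i)‖ ≤ κ) :
    (ω.f (mix p d)).re ≤ (M : ℝ)⁻¹ * ∑ i, (ω.f (d i)).re + M * κ := by
  have := (Complex.re_le_norm _).trans (mix_apply h)
  rw [Complex.sub_re, Complex.re_ofReal_mul, Complex.re_sum] at this
  linarith

theorem mix_nrm_sq (hp : ∀ i, 0 ≤ p i) (hsum : ∑ i, p i = 1) (hκ0 : 0 ≤ κ)
    (hκ : ∀ i j, i ≠ j → ω.nrm (p i * p j) ≤ κ) {d : Fin M → B} {D : ℝ} (hd : ∀ i, ‖d i‖ ≤ D)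
    (hc : ∀ i j, Commute (ω.rep (p j)) (ω.rep (d i)))
    (h : ∀ i, ‖ω.f (star (d i) * d i * p i) - ((M : ℝ)⁻¹ : ℝ) * ω.f (star (d i) * d i)‖ ≤ κ) :
    ω.nrm (mix p d) ^ 2 ≤
      (M : ℝ)⁻¹ * ∑ i, ω.nrm (d i) ^ 2 + (M * κ + 2 * (M : ℝ) ^ 2 * D ^ 2 * κ) := by
  have hstar : ∀ i j, Commute (ω.rep (p j)) (ω.rep (star (d i))) := fun i j => by
    have := (hc i j).star_star
    rwa [← map_star, ← map_star, (hp j).isSelfAdjoint.star_eq] at this
  have e : ω.rep (star (mix p d)) = ω.rep (mix p fun i => star (d i)) := by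
    simp only [mix, star_sum, star_mul, map_sum, map_mul, fun i => (hp i).isSelfAdjoint.star_eq]
    exact sum_congr rfl fun i _ => (hstar i i).eq.symm
  have h2 := (Complex.re_le_norm _).trans ((ω.norm_apply_le _).trans
    (mix_mul hsum hκ0 hκ (fun i => (norm_star (d i)).trans_le (hd i)) hd hstar))
  have h3 := mix_re_le (d := fun i => star (d i) * d i) h
  rw [ω.nrm_sq_re, ω.apply_congr (y := (mix p fun i => star (d i)) * mix p d)
    (by rw [map_mul, e, map_mul])]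
  rw [map_sub, Complex.sub_re] at h2
  simp only [ω.nrm_sq_re]
  linarith

omit [PartialOrder B] [StarOrderedRing B] in
theorem norm_defect {r : Fin 4 → B} (h : ∀ a, ‖r a‖ ≤ 1) (j : Fin 4) : ‖defect r j‖ ≤ 8 := by
  have h2 : ∀ a b, ‖r a - r b‖ ≤ 2 := fun a b =>
    (norm_sub_le _ _).trans (by linarith [h a, h b])
  fin_cases j
  · exact (norm_mul_le _ _).trans ((mul_le_mul (h 0) (h 1) (norm_nonneg _) zero_le_one).trans
      (by norm_num))
  · exact (norm_mul_le _ _).trans ((mul_le_mul (h 2) (h 3) (norm_nonneg _) zero_le_one).trans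
      (by norm_num))
  · refine (norm_sub_le _ _).trans ?_
    linarith [norm_sub_le (r 0 + r 1) (r 2), norm_add_le (r 0) (r 1), h 0, h 1, h 2, h 3]
  · refine (norm_add_le _ _).trans ((add_le_add (norm_mul_le _ _) (norm_mul_le _ _)).trans ?_)
    have m : ∀ a b c d, ‖r a - r b‖ * ‖r c - r d‖ ≤ 2 * 2 := fun a b c d =>
      mul_le_mul (h2 a b) (h2 c d) (norm_nonneg _) zero_le_two
    linarith [m 0 1 2 3, m 2 3 0 1]

theorem defect_commute {x : B} {r : Fin 4 → B} (h : ∀ a, Commute (ω.rep x) (ω.rep (r a)))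
    (j : Fin 4) : Commute (ω.rep x) (ω.rep (defect r j)) := by
  fin_cases j
  · change Commute _ (ω.rep (r 0 * r 1)); rw [map_mul]; exact (h 0).mul_right (h 1)
  · change Commute _ (ω.rep (r 2 * r 3)); rw [map_mul]; exact (h 2).mul_right (h 3)
  · change Commute _ (ω.rep (r 0 + r 1 - r 2 - r 3))
    rw [map_sub, map_sub, map_add]
    exact (((h 0).add_right (h 1)).sub_right (h 2)).sub_right (h 3)
  · change Commute _ (ω.rep ((r 0 - r 1) * (r 2 - r 3) + (r 2 - r 3) * (r 0 - r 1)))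
    rw [map_add, map_mul, map_mul, map_sub, map_sub]
    exact (((h 0).sub_right (h 1)).mul_right ((h 2).sub_right (h 3))).add_right
      (((h 2).sub_right (h 3)).mul_right ((h 0).sub_right (h 1)))

theorem defect_congr {r r' : Fin 4 → B} (h : ∀ a, ω.rep (r a) = ω.rep (r' a)) (j : Fin 4) :
    ω.rep (defect r j) = ω.rep (defect r' j) := by
  fin_cases j <;> simp [defect, h]

theorem defect_mix (hsum : ∑ i, p i = 1) (hκ0 : 0 ≤ κ)
    (hκ : ∀ i j, i ≠ j → ω.nrm (p i * p j) ≤ κ) {r : Fin M → Fin 4 → B} (h : ∀ i a, ‖r i a‖ ≤ 1)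
    (hc : ∀ i a j, Commute (ω.rep (p j)) (ω.rep (r i a))) (j : Fin 4) :
    ω.nrm (defect (fun a => mix p fun i => r i a) j - mix p fun i => defect (r i) j) ≤
      16 * (M : ℝ) ^ 2 * κ := by
  have hpos : 0 ≤ (M : ℝ) ^ 2 * κ := by positivity
  have m := fun a b => mix_mul hsum hκ0 hκ (d := fun i => r i a) (e := fun i => r i b)
    (D := 1) (fun i => h i a) (fun i => h i b) (fun i j' => hc i a j')
  fin_cases j
  · exact (m 0 1).trans (by linarith)
  · exact (m 2 3).trans (by linarith)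
  · change ω.nrm ((mix p fun i => r i 0) + (mix p fun i => r i 1) - (mix p fun i => r i 2) -
      (mix p fun i => r i 3) - mix p fun i => r i 0 + r i 1 - r i 2 - r i 3) ≤ _
    rw [mix_sub, mix_sub, mix_add, sub_self, ω.nrm_zero]; linarith
  · have h2 : ∀ i a b, ‖r i a - r i b‖ ≤ 2 := fun i a b =>
      (norm_sub_le _ _).trans (by linarith [h i a, h i b])
    have m' := fun a b c d => mix_mul hsum hκ0 hκ (d := fun i => r i a - r i b)
      (e := fun i => r i c - r i d) (D := 2) (fun i => h2 i a b) (fun i => h2 i c d)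
      (fun i j' => by rw [map_sub]; exact (hc i a j').sub_right (hc i b j'))
    change ω.nrm (((mix p fun i => r i 0) - mix p fun i => r i 1) *
      ((mix p fun i => r i 2) - mix p fun i => r i 3) +
      ((mix p fun i => r i 2) - mix p fun i => r i 3) *
      ((mix p fun i => r i 0) - mix p fun i => r i 1) -
      mix p fun i => (r i 0 - r i 1) * (r i 2 - r i 3) + (r i 2 - r i 3) * (r i 0 - r i 1)) ≤ _
    simp only [← mix_sub]
    rw [mix_add, add_sub_add_comm]
    exact (ω.nrm_add _ _).trans ((add_le_add (m' 0 1 2 3) (m' 2 3 0 1)).trans (by linarith))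

end Copy

variable {G B : Type*} [Group G] [CStarAlgebra B] [PartialOrder B] [StarOrderedRing B]

open Copy in
/-- Samples and partitions give one copy. -/
theorem copy_goal (S : Sys G B) (hs : SampleGoal S) (hp : PartitionGoal S) : CopyGoal S := by
  classical
  intro K ε N₀ hε
  set t := min 1 (ε / 600) with ht
  have ht0 : 0 < t := lt_min one_pos (by positivity)
  have ht1 : t ≤ 1 := min_le_left _ _
  have htε : 600 * t ≤ ε := by have := min_le_right 1 (ε / 600); rw [← ht] at this; linarith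
  obtain ⟨n, M, hn, hnN, hM, hsamp⟩ := hs K (t ^ 2) N₀ (by positivity)
  refine ⟨n, hn, hnN, fun C => ?_⟩
  obtain ⟨r, hr, hω⟩ := hsamp C
  have hn0 : (0 : ℝ) < n := Nat.cast_pos.2 hn
  have hM0 : (0 : ℝ) < M := Nat.cast_pos.2 hM
  have hM1 : (1 : ℝ) ≤ M := Nat.one_le_cast.2 hM
  set δ := (1 + ∑ c ∈ C, ‖c‖⁻¹)⁻¹ with hδdef
  have hS0 : 0 ≤ ∑ c ∈ C, ‖c‖⁻¹ := sum_nonneg fun c _ => by positivity
  have hδ : 0 < δ := by positivity
  have hδ1 : δ ≤ 1 := inv_le_one_of_one_le₀ (by linarith)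
  have hδc : ∀ c ∈ C, c ≠ 0 → δ ≤ ‖c‖ := fun c hc h0 => by
    rw [← inv_inv ‖c‖]
    refine inv_anti₀ (inv_pos.2 (norm_pos_iff.2 h0)) ?_
    linarith [single_le_sum (f := fun c : B => ‖c‖⁻¹) (fun c _ => by positivity) hc]
  set κ := t ^ 2 * δ / (200 * n * (M : ℝ) ^ 2) with hκdef
  have hκ0 : 0 < κ := by positivity
  -- the partition
  set C' : Finset B := C ∪
    univ.image (fun q : Fin M × Fin 4 => r q.1 q.2) ∪
    univ.image (fun q : Fin M × Fin 4 => r q.1 q.2 - r q.1 q.2 * r q.1 q.2) ∪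
    univ.image (fun q : Fin M × Fin 4 => star (defect (r q.1) q.2) * defect (r q.1) q.2) ∪
    (K ×ˢ univ).image (fun q : G × Fin M × Fin 4 => S.α q.1 (r q.2.1 q.2.2)) ∪
    (K ×ˢ univ).image (fun q : G × Fin M × Fin 4 =>
      star (S.α q.1 (r q.2.1 q.2.2) - r q.2.1 q.2.2) *
        (S.α q.1 (r q.2.1 q.2.2) - r q.2.1 q.2.2)) ∪
    (C ×ˢ univ).image (fun q : B × Fin M × Fin 4 => r q.2.1 q.2.2 * q.1) with hC'
  obtain ⟨p, hp0, hsum, hpω⟩ := hp C' K M κ hM hκ0
  have mC : ∀ c ∈ C, c ∈ C' := fun c hc => by simp [hC', hc]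
  have mr : ∀ i a, r i a ∈ C' := fun i a => by
    simp only [hC', mem_union, mem_image, mem_univ, true_and]
    exact .inl (.inl (.inl (.inl (.inl (.inr ⟨(i, a), rfl⟩)))))
  have mi : ∀ i a, r i a - r i a * r i a ∈ C' := fun i a => by
    simp only [hC', mem_union, mem_image, mem_univ, true_and]
    exact .inl (.inl (.inl (.inl (.inr ⟨(i, a), rfl⟩))))
  have md : ∀ i j, star (defect (r i) j) * defect (r i) j ∈ C' := fun i j => by
    simp only [hC', mem_union, mem_image, mem_univ, true_and]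
    exact .inl (.inl (.inl (.inr ⟨(i, j), rfl⟩)))
  have ma : ∀ k ∈ K, ∀ i a, S.α k (r i a) ∈ C' := fun k hk i a => by
    simp only [hC', mem_union, mem_image, mem_product, mem_univ, and_true]
    exact .inl (.inl (.inr ⟨(k, i, a), hk, rfl⟩))
  have mad : ∀ k ∈ K, ∀ i a,
      star (S.α k (r i a) - r i a) * (S.α k (r i a) - r i a) ∈ C' := fun k hk i a => by
    simp only [hC', mem_union, mem_image, mem_product, mem_univ, and_true]
    exact .inl (.inr ⟨(k, i, a), hk, rfl⟩)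
  have mcr : ∀ c ∈ C, ∀ i a, r i a * c ∈ C' := fun c hc i a => by
    simp only [hC', mem_union, mem_image, mem_product, mem_univ, and_true]
    exact .inr ⟨(c, i, a), hc, rfl⟩
  -- the glued elements
  set s : Fin M → B := fun i => cfc Real.sqrt (p i) with hsdef
  have hs0 : ∀ i, 0 ≤ s i := fun i => cfc_nonneg fun x _ => Real.sqrt_nonneg x
  have hss : ∀ i, s i * s i = p i := fun i => by
    rw [hsdef, ← cfc_mul _ _ (p i) (by fun_prop) (by fun_prop)]
    conv_rhs => rw [← cfc_id' ℝ (p i) (hp0 i).isSelfAdjoint]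
    exact cfc_congr fun x hx => Real.mul_self_sqrt (spectrum_nonneg_of_nonneg (hp0 i) hx)
  have hr1 : ∀ i a, r i a ≤ 1 := fun i a =>
    (CStarAlgebra.norm_le_one_iff_of_nonneg _ (hr i a).1).1 (hr i a).2
  set R : Fin 4 → B := fun a => ∑ i, s i * r i a * s i with hRdef
  have hR0 : ∀ a, 0 ≤ R a := fun a =>
    sum_nonneg fun i _ => (hs0 i).isSelfAdjoint.conjugate_nonneg (hr i a).1
  have hR1 : ∀ a, R a ≤ 1 := fun a => by
    rw [hRdef, ← hsum]
    refine sum_le_sum fun i _ => ?_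
    have := (hs0 i).isSelfAdjoint.conjugate_le_conjugate (hr1 i a)
    rwa [mul_one, hss] at this
  have hRn : ∀ a, ‖R a‖ ≤ 1 := fun a =>
    (CStarAlgebra.norm_le_one_iff_of_nonneg _ (hR0 a)).2 (hR1 a)
  have hRR : ∀ a, 0 ≤ R a - R a * R a := fun a => by
    rw [sub_nonneg, ← sq]
    simpa using CStarAlgebra.pow_antitone (hR0 a) (hR1 a) one_le_two
  set Q : Fin 4 → B := fun a => mix p fun i => r i a with hQdef
  have hRQ : ∀ a, S.Eqv (R a) (Q a) := fun a ω' hω' => by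
    simp only [hRdef, hQdef, mix, map_sum, map_mul]
    refine sum_congr rfl fun i _ => ?_
    have hc := (hpω ω' hω').1 _ (mr i a) i
    have := commute_rep_cfc ω' (hp0 i).isSelfAdjoint (r i a) Real.sqrt Real.continuous_sqrt hc
    rw [← this.eq, mul_assoc, ← map_mul, ← map_mul, show cfc Real.sqrt (p i) *
      cfc Real.sqrt (p i) = p i from hss i, map_mul]
    exact hc.eq
  set u := Real.sqrt (n : ℝ)⁻¹ with hu
  have hu0 : 0 ≤ u := Real.sqrt_nonneg _
  have hu2 : u ^ 2 = (n : ℝ)⁻¹ := Real.sq_sqrt (by positivity)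
  have hu1 : u ≤ 1 := Real.sqrt_le_one.2 (inv_le_one_of_one_le₀ (Nat.one_le_cast.2 hn))
  have hκM : (M : ℝ) ^ 2 * κ = t ^ 2 * u ^ 2 * δ / 200 := by rw [hu2, hκdef]; field_simp
  have hκu : (M : ℝ) ^ 2 * κ ≤ t ^ 2 * u ^ 2 / 200 := by
    have := mul_le_of_le_one_right (by positivity : 0 ≤ t ^ 2 * u ^ 2) hδ1
    rw [hκM]; linarith
  have hMκ : (M : ℝ) * κ ≤ (M : ℝ) ^ 2 * κ := by
    gcongr; exact le_self_pow₀ hM1 two_ne_zero
  have htt : t ^ 2 ≤ t := pow_le_of_le_one ht0.le ht1 two_ne_zero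
  have htu0 : t ^ 2 * u ^ 2 ≤ t * u := by
    have h1 : t * u ≤ 1 := mul_le_one₀ ht1 hu0 hu1
    calc t ^ 2 * u ^ 2 = t * u * (t * u) := by ring
      _ ≤ t * u * 1 := mul_le_mul_of_nonneg_left h1 (by positivity)
      _ = t * u := mul_one _
  have htu1 : t ^ 2 * u ^ 2 ≤ t * u ^ 2 := mul_le_mul_of_nonneg_right htt (sq_nonneg u)
  have htu2 : t * u ^ 2 ≤ u ^ 2 := mul_le_of_le_one_left (sq_nonneg u) ht1
  have htu3 : 0 ≤ t * u ^ 2 := by positivity
  have htu4 : 0 ≤ t ^ 2 * u ^ 2 := by positivity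
  have htu5 : 0 ≤ t * u := by positivity
  have havg : ∀ {x c : ℝ}, x ≤ c * M / n → (M : ℝ)⁻¹ * x ≤ c * u ^ 2 := fun {x c} h => by
    refine (mul_le_mul_of_nonneg_left h (by positivity)).trans_eq ?_
    rw [hu2]; field_simp
  have hfacts : ∀ ω ∈ S.Ω, ∀ a, ω.nrm (R a) ≤ 3 * u ∧
      (ω.f (R a - R a * R a)).re ≤ 3 * (t * u ^ 2) := by
    intro ω hω' a
    obtain ⟨-, hrt, hri, -⟩ := hω ω hω'
    obtain ⟨hpC, hpo, hpw, -⟩ := hpω ω hω'
    constructor
    · refine abs_le_of_sq_le_sq' ?_ (by positivity) |>.2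
      rw [ω.nrm_sq_self (hR0 a).isSelfAdjoint]
      refine (ω.re_mono (sub_nonneg.1 (hRR a))).trans ?_
      rw [(hRQ a).apply hω']
      have h := mix_re_le (d := fun i => r i a) fun i => hpw _ (mr i a) i
      have := havg (hrt a)
      linarith [mul_pow (3 : ℝ) u 2, sq_nonneg u]
    · rw [map_sub, (hRQ a).apply hω', ((hRQ a).mul (hRQ a)).apply hω']
      have h2 := (Complex.abs_re_le_norm _).trans ((ω.norm_apply_le _).trans
        (mix_mul hsum hκ0.le hpo (fun i => (hr i a).2) (fun i => (hr i a).2)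
          fun i j => (hpC _ (mr i a) j).symm))
      have h3 := mix_re_le (d := fun i => r i a - r i a * r i a) fun i => hpw _ (mi i a) i
      have := havg (hri a)
      rw [mix_sub, map_sub, Complex.sub_re] at h3
      rw [abs_le, map_sub, Complex.sub_re] at h2
      rw [Complex.sub_re]
      linarith [h2.1]
  refine ⟨R, fun a => ⟨hR0 a, hRn a⟩, fun ω hω' => ?_⟩
  obtain ⟨hrC, -, -, hrd, hra, hrc⟩ := hω ω hω'
  obtain ⟨hpC, hpo, hpw, hpa⟩ := hpω ω hω'
  have hnR : ∀ a, ω.nrm (R a) ≤ 3 * u := fun a => (hfacts ω hω' a).1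
  have hiR : ∀ a, (ω.f (R a - R a * R a)).re ≤ 3 * (t * u ^ 2) := fun a => (hfacts ω hω' a).2
  have hcr : ∀ i a j, Commute (ω.rep (p j)) (ω.rep (r i a)) := fun i a j =>
    (hpC _ (mr i a) j).symm
  have hdR : ∀ j, ω.nrm (defect R j) ≤ 3 * (t * u) := fun j => by
    have e1 : ω.rep (defect R j) = ω.rep (defect Q j) :=
      defect_congr (fun a => hRQ a ω hω') j
    have e2 := defect_mix hsum hκ0.le hpo (fun i a => (hr i a).2) hcr j
    have e3 := mix_nrm_sq hp0 hsum hκ0.le hpo (d := fun i => defect (r i) j)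
      (fun i => norm_defect (fun a => (hr i a).2) j)
      (fun i j' => defect_commute (fun a => hcr i a j') j) fun i => hpw _ (md i j) i
    have := havg (hrd j)
    have e4 : ω.nrm (mix p fun i => defect (r i) j) ≤ 2 * (t * u) :=
      (abs_le_of_sq_le_sq' (by linarith [mul_pow t u 2, mul_pow (2 : ℝ) (t * u) 2])
        (by positivity)).2
    rw [ω.nrm_congr e1, ← sub_add_cancel (defect Q j) (mix p fun i => defect (r i) j)]
    exact (ω.nrm_add _ _).trans ((add_le_add e2 e4).trans (by linarith))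
  obtain ⟨hL, hL'⟩ := model_l1 ht0.le hu0 hRR hR0 hRn hnR hiR hdR
  have hfin : 600 * (t * u ^ 2) ≤ ε / n := by
    rw [hu2, ← mul_assoc, ← div_eq_mul_inv]; gcongr
  refine ⟨fun c hc a => ?_, fun a => l1_mono (hL a) hfin, fun j => l1_mono (hL' j) hfin,
    fun k hk a => ?_, fun c hc a ha => ?_⟩
  · rw [hRQ a ω hω']
    simp only [hQdef, mix, map_sum, map_mul]
    exact Commute.sum_right _ _ _ fun i _ => (hpC c (mC c hc) i).mul_right (hrC c hc i a)
  · -- almost invariance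
    obtain ⟨ω', hω'', he⟩ := S.invariant ω hω' k
    have n1 : ω.nrm (S.α k (R a) - R a) ≤ 3 * (t * u) := by
      rw [ω.nrm_congr (y := ∑ i, (S.α k (p i) - p i) * S.α k (r i a) +
        mix p fun i => S.α k (r i a) - r i a) (by
          rw [map_sub, (hRQ a).map k ω hω', hRQ a ω hω', ← map_sub]
          refine congrArg _ ?_
          simp only [hQdef, mix, map_sum, map_mul, mul_sub, sub_mul, sum_sub_distrib]
          abel)]
      refine (ω.nrm_add _ _).trans ?_
      have g1 : ω.nrm (∑ i, (S.α k (p i) - p i) * S.α k (r i a)) ≤ M * κ :=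
        (ω.nrm_sum _ _).trans ((sum_le_sum fun i _ => (ω.nrm_mul_right _ _).trans
          (mul_le_mul (hpa k hk i) (Sys.norm_α (S := S) k _ ▸ (hr i a).2) (norm_nonneg _)
            hκ0.le)).trans_eq (by simp))
      have g2 := mix_nrm_sq hp0 hsum hκ0.le hpo (d := fun i => S.α k (r i a) - r i a) (D := 2)
        (fun i => (norm_sub_le _ _).trans (by rw [Sys.norm_α]; linarith [(hr i a).2]))
        (fun i j => by
          rw [map_sub]; exact (hpC _ (ma k hk i a) j).symm.sub_right (hcr i a j))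
        fun i => hpw _ (mad k hk i a) i
      have := havg (hra k hk a)
      have g3 : ω.nrm (mix p fun i => S.α k (r i a) - r i a) ≤ 2 * (t * u) :=
        (abs_le_of_sq_le_sq' (by linarith [mul_pow t u 2, mul_pow (2 : ℝ) (t * u) 2])
          (by positivity)).2
      linarith
    have pP : ω.L1 (S.α k (R a) - S.α k (R a) * S.α k (R a)) (3 * (t * u ^ 2)) := by
      rw [← map_mul, ← map_sub]
      refine l1_nonneg (Sys.α_nonneg k (hRR a)) ?_
      rw [← he]; exact (hfacts ω' hω'' a).2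
    have nP : ω.nrm (S.α k (R a)) ≤ 3 * u := by
      rw [Sys.nrm_α he]; exact (hfacts ω' hω'' a).1
    refine l1_mono (l1_diff nP (hnR a) n1 pP (l1_nonneg (hRR a) (hiR a))) (le_trans ?_ hfin)
    linarith [show 2 * (3 * u) * (3 * (t * u)) = 18 * (t * u ^ 2) by ring]
  · -- weight
    rcases eq_or_ne c 0 with rfl | hc0
    · simp
    rw [((Sys.Eqv.refl c).mul (hRQ a)).apply hω']
    have h1 := hrc c hc a ha
    have h2 : ‖ω.f (c * Q a) - ((M : ℝ)⁻¹ : ℝ) * ∑ i, ω.f (c * r i a)‖ ≤ M * κ := by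
      simp only [hQdef, mix, mul_sum, map_sum]
      rw [← sum_sub_distrib]
      refine (norm_sum_le _ _).trans ((sum_le_sum (g := fun _ => κ) fun i _ => ?_).trans_eq (by simp))
      rw [ω.tracial c (r i a), ← mul_assoc, ω.tracial (c * p i), ← mul_assoc]
      exact hpw _ (mcr c hc i a) i
    have h3 : (M : ℝ) * κ ≤ t ^ 2 * u ^ 2 * ‖c‖ / 200 := by
      refine hMκ.trans (hκM.trans_le ?_); gcongr; exact hδc c hc hc0
    have h4 : ‖((M : ℝ)⁻¹ : ℝ) * ∑ i, ω.f (c * r i a) - ((n : ℝ)⁻¹ : ℝ) * ω.f c‖ ≤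
        t ^ 2 * u ^ 2 * ‖c‖ := by
      rw [show ((M : ℝ)⁻¹ : ℝ) * ∑ i, ω.f (c * r i a) - ((n : ℝ)⁻¹ : ℝ) * ω.f c =
        ((M : ℝ)⁻¹ : ℝ) * (∑ i, ω.f (c * r i a) - ((M / n : ℝ) : ℂ) * ω.f c) by
          (rw [mul_sub, ← mul_assoc, ← Complex.ofReal_mul]
           congr 3; field_simp),
        norm_mul, Complex.norm_real,
        Real.norm_of_nonneg (by positivity)]
      refine (mul_le_mul_of_nonneg_left h1 (by positivity)).trans_eq ?_
      rw [hu2]; field_simp
    refine (norm_sub_le_norm_sub_add_norm_sub _ _ _).trans ((add_le_add h2 h4).trans ?_)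
    calc (M : ℝ) * κ + t ^ 2 * u ^ 2 * ‖c‖ ≤ 2 * (t * u ^ 2) * ‖c‖ := by
          have := mul_le_mul_of_nonneg_right htu1 (norm_nonneg c)
          have : 0 ≤ t * u ^ 2 * ‖c‖ := by positivity
          linarith
      _ ≤ ε / n * ‖c‖ := by
          refine mul_le_mul_of_nonneg_right (le_trans ?_ hfin) (norm_nonneg c)
          linarith

end Vale.Agent.P095
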