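import Vale.Agent.P095.Sys
import Vale.Agent.P095.Waves

/-!
# P095: interfaces for equivariant uniform McDuff

Everything takes place in a system `Sys G B` (exact relations in every trace representation).
-/

open scoped ComplexOrder
open Complex

namespace Vale.Agent.P095

section
variable {B : Type*} [CStarAlgebra B] [PartialOrder B] [StarOrderedRing B]

/-- `x` has tracial 1-norm at most `L` (tested against elements of `B`). -/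
def Tr.L1 (ω : Tr B) (x : B) (L : ℝ) : Prop := ∀ s : B, ‖ω.f (s * x)‖ ≤ ‖s‖ * L

end

/-- The `l`-th ramp of `[0,1]` cut into `T` steps. -/
noncomputable def ramp (T l : ℕ) (x : ℝ) : ℝ := min 1 (max 0 (T * x - l))

variable {G B : Type*} [Group G] [CStarAlgebra B] [PartialOrder B] [StarOrderedRing B]

/-- Translates of the first row `E₀ᵦ` of exact central matrix units of size `n`. -/
structure Rows (S : Sys G B) (C : Finset B) (F : Finset G) (n : ℕ) where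
  r : G → Fin n → B
  e : G → B
  norm_r : ∀ g b, ‖r g b‖ ≤ 1
  r_map : ∀ k g b, S.α k (r g b) = r (k * g) b
  orth : ∀ g b c, S.Eqv (r g b * star (r g c)) (if b = c then e g else 0)
  e_idem : ∀ g, S.Eqv (e g * e g) (e g)
  e_mul : ∀ g b, S.Eqv (e g * r g b) (r g b)
  e_trace : ∀ g, ∀ ω ∈ S.Ω, ω.f (e g) = ((n : ℝ)⁻¹ : ℝ)
  weight : ∀ g ∈ F, ∀ c ∈ C, ∀ b, ∀ ω ∈ S.Ω,
    ω.f (c * (star (r g b) * r g b)) = ((n : ℝ)⁻¹ : ℝ) * ω.f c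
  comm : ∀ g ∈ F, ∀ c ∈ C, ∀ b, ∀ ω ∈ S.Ω,
    Commute (ω.rep c) (ω.rep (r g b)) ∧ Commute (ω.rep c) (ω.rep (star (r g b)))

namespace Rows

variable {S : Sys G B} {C : Finset B} {F : Finset G} {n : ℕ} (P : Rows S C F n)

/-- The row of a vector. -/
noncomputable def row (v : Fin n → ℂ) (g : G) : B := ∑ b, star (v b) • P.r g b

/-- The average over `F` of the translates of the projection onto a vector. -/
noncomputable def Y (v : Fin n → ℂ) : B :=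
  (F.card : ℝ)⁻¹ • ∑ g ∈ F, star (P.row v g) * P.row v g

end Rows

/-- Pairs of sign vectors. -/
abbrev Signs (n : ℕ) := (Fin n → Bool) × (Fin n → Bool)

/-- The unit vector of a sign vector. -/
noncomputable def signVec {n : ℕ} (s : Fin n → Bool) : Fin n → ℂ :=
  fun b => (if s b then 1 else -1) * (((Real.sqrt n)⁻¹ : ℝ) : ℂ)

/-- The four vectors of a pair of sign vectors. -/
noncomputable def fourVec {n : ℕ} (s : Signs n) : Fin 4 → Fin n → ℂ :=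
  ![signVec s.1, signVec s.2,
    (((Real.sqrt 2)⁻¹ : ℝ) : ℂ) • (signVec s.1 + signVec s.2),
    (((Real.sqrt 2)⁻¹ : ℝ) : ℂ) • (signVec s.1 - signVec s.2)]

/-- The defect of four elements modelling `e₀₀, e₁₁, e₊, e₋` in a copy of `M₂`. -/
def defect (r : Fin 4 → B) : Fin 4 → B :=
  ![r 0 * r 1, r 2 * r 3, r 0 + r 1 - r 2 - r 3,
    (r 0 - r 1) * (r 2 - r 3) + (r 2 - r 3) * (r 0 - r 1)]

/-- Existence of rows. -/
def RowsGoal (S : Sys G B) : Prop :=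
  ∀ (C : Finset B) (F : Finset G) (n : ℕ), 0 < n → Nonempty (Rows S C F n)

/-- Sampled Gram concentration: `x ↦ x q(x)` models `M₂` on average over signs. -/
def ModelGoal (S : Sys G B) : Prop :=
  ∀ (F : Finset G) (q : ℝ → ℝ), Continuous q → ∀ ε : ℝ, 0 < ε →
    ∃ N : ℕ, ∀ n : ℕ, N ≤ n → ∀ (C : Finset B) (P : Rows S C F n), ∀ ω ∈ S.Ω, ∀ j : Fin 4,
      ∑ s : Signs n,
          ω.nrm (defect (fun a => cfc (fun x => x * q x) (P.Y (fourVec s a))) j) ^ 2 ≤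
        ε * Fintype.card (Signs n) / n

/-- Connes' inequality for the ramps. -/
def RampGoal (B : Type*) [CStarAlgebra B] [PartialOrder B] [StarOrderedRing B] : Prop :=
  ∀ (ω : Tr B) (T : ℕ) (a b : B) (L μ : ℝ), 0 < T → 0 ≤ a → 0 ≤ b → 0 < μ →
    (∀ s : B, ‖s‖ ≤ 1 → (ω.f (s * (a - b))).re ≤ L) →
    ∑ l ∈ Finset.range T, ω.nrm (cfc (ramp T l) a - cfc (ramp T l) b) ^ 2 ≤
      T * (μ * L + 2 / μ * ((ω.f a).re + (ω.f b).re))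

/-- The ramps are almost projections when `√a` has small trace. -/
def RampIdemGoal (B : Type*) [CStarAlgebra B] [PartialOrder B] [StarOrderedRing B] : Prop :=
  ∀ (ω : Tr B) (T : ℕ) (a : B), 0 < T → 0 ≤ a →
    ∑ l ∈ Finset.range T, (ω.f (cfc (fun x => ramp T l x - ramp T l x ^ 2) a)).re ≤
      Real.sqrt T * (ω.f (cfc Real.sqrt a)).re

/-- The square root of an average of `|F|` small projections has small trace. -/
def RootGoal (S : Sys G B) : Prop :=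
  ∀ (C : Finset B) (F : Finset G) (n : ℕ) (P : Rows S C F n) (v : Fin n → ℂ) (M : ℝ),
    F.Nonempty → 0 < n → (∑ b, ‖v b‖ ^ 2) ≤ M ^ 2 → 0 ≤ M → ∀ ω ∈ S.Ω,
      (ω.f (cfc Real.sqrt (P.Y v))).re ≤ M * Real.sqrt F.card / n

/-- Weighted samples of the four elements, built before any choice is made. -/
def SampleGoal (S : Sys G B) : Prop :=
  ∀ (K : Finset G) (ε : ℝ) (N₀ : ℕ), 0 < ε → ∃ n M : ℕ, 0 < n ∧ N₀ ≤ n ∧ 0 < M ∧
    ∀ C : Finset B,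
    ∃ r : Fin M → Fin 4 → B, (∀ i a, 0 ≤ r i a ∧ ‖r i a‖ ≤ 1) ∧ ∀ ω ∈ S.Ω,
      (∀ c ∈ C, ∀ i a, Commute (ω.rep c) (ω.rep (r i a))) ∧
      (∀ a, (∑ i, (ω.f (r i a)).re) ≤ 4 * M / n) ∧
      (∀ a, (∑ i, (ω.f (r i a - r i a * r i a)).re) ≤ ε * M / n) ∧
      (∀ j, (∑ i, ω.nrm (defect (r i) j) ^ 2) ≤ ε * M / n) ∧
      (∀ k ∈ K, ∀ a, (∑ i, ω.nrm (S.α k (r i a) - r i a) ^ 2) ≤ ε * M / n) ∧
      ∀ c ∈ C, ∀ a : Fin 4, a = 0 ∨ a = 1 →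
        ‖(∑ i, ω.f (c * r i a)) - ((M / n : ℝ) : ℂ) * ω.f c‖ ≤ ε * M / n * ‖c‖

/-- Equivariant uniform property Gamma in `S`. -/
def PartitionGoal (S : Sys G B) : Prop :=
  ∀ (C : Finset B) (K : Finset G) (M : ℕ) (ε : ℝ), 0 < M → 0 < ε →
    ∃ p : Fin M → B, (∀ i, 0 ≤ p i) ∧ ∑ i, p i = 1 ∧ ∀ ω ∈ S.Ω,
      (∀ c ∈ C, ∀ i, Commute (ω.rep c) (ω.rep (p i))) ∧
      (∀ i j, i ≠ j → ω.nrm (p i * p j) ≤ ε) ∧
      (∀ c ∈ C, ∀ i, ‖ω.f (c * p i) - ((M : ℝ)⁻¹ : ℝ) * ω.f c‖ ≤ ε) ∧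
      ∀ k ∈ K, ∀ i, ω.nrm (S.α k (p i) - p i) ≤ ε

/-- One copy: four almost invariant elements modelling `M₂` under a projection of trace `2/n`. -/
def CopyGoal (S : Sys G B) : Prop :=
  ∀ (K : Finset G) (ε : ℝ) (N₀ : ℕ), 0 < ε → ∃ n : ℕ, 0 < n ∧ N₀ ≤ n ∧ ∀ C : Finset B,
    ∃ r : Fin 4 → B, (∀ a, 0 ≤ r a ∧ ‖r a‖ ≤ 1) ∧ ∀ ω ∈ S.Ω,
      (∀ c ∈ C, ∀ a, Commute (ω.rep c) (ω.rep (r a))) ∧
      (∀ a, ω.L1 (r a - r a * r a) (ε / n)) ∧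
      (∀ j, ω.L1 (defect r j) (ε / n)) ∧
      (∀ k ∈ K, ∀ a, ω.L1 (S.α k (r a) - r a) (ε / n)) ∧
      ∀ c ∈ C, ∀ a : Fin 4, a = 0 ∨ a = 1 →
        ‖ω.f (c * r a) - ((n : ℝ)⁻¹ : ℝ) * ω.f c‖ ≤ ε / n * ‖c‖

/-- Three almost invariant unitaries satisfying the quaternion relations, `Z` of trace zero. -/
def StageGoal (S : Sys G B) : Prop :=
  ∀ (C : Finset B) (K : Finset G) (ε : ℝ), 0 < ε →
    ∃ I J Z : B, (∀ u ∈ [I, J, Z], star u * u = 1 ∧ u * star u = 1) ∧ ∀ ω ∈ S.Ω,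
      (∀ c ∈ C, ∀ u ∈ [I, J, Z], Commute (ω.rep c) (ω.rep u)) ∧
      ω.nrm (I * I - Z) ≤ ε ∧ ω.nrm (J * J - Z) ≤ ε ∧ ω.nrm (Z * Z - 1) ≤ ε ∧
      ω.nrm (I * J - Z * (J * I)) ≤ ε ∧
      (∀ k ∈ K, ∀ u ∈ [I, J, Z], ω.nrm (S.α k u - u) ≤ ε) ∧
      ∀ c ∈ C, ‖ω.f (c * Z)‖ ≤ ε * ‖c‖

/-- Equivariant uniform McDuff in `S`: almost invariant central approximate `M₂`. -/
def McDuffGoal (S : Sys G B) : Prop :=
  ∀ (C : Finset B) (K : Finset G) (ε : ℝ), 0 < ε →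
    ∃ e : Fin 2 → Fin 2 → B, (∀ i j, ‖e i j‖ ≤ 1) ∧ ∀ ω ∈ S.Ω,
      (∀ c ∈ C, ∀ i j, Commute (ω.rep c) (ω.rep (e i j))) ∧
      (∀ i j k l, ω.nrm (e i j * e k l - (if j = k then e i l else 0)) ≤ ε) ∧
      (∀ i j, ω.nrm (star (e i j) - e j i) ≤ ε) ∧
      ω.nrm (e 0 0 + e 1 1 - 1) ≤ ε ∧
      ∀ k ∈ K, ∀ i j, ω.nrm (S.α k (e i j) - e i j) ≤ ε

end Vale.Agent.P095
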