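import Vale.Agent.P095.Partition
import Vale.Agent.P095.Upgrade.Defs

/-!
# P095: equivariant uniform property Gamma as used for the upgrade to McDuff
-/

open scoped ComplexOrder

namespace Vale.Agent.P095

variable {G B : Type*} [Group G] [CStarAlgebra B] [PartialOrder B] [StarOrderedRing B]

open Classical in
theorem partition_goal (hG : Foelner G) (S : Sys G B) : PartitionGoal S := by
  intro C K M ε hM hε
  set ε' := min ε (ε ^ 2) with hε'
  have he : 0 < ε' := lt_min hε (by positivity)
  obtain ⟨p, hp0, hp1, hpω⟩ := exists_partition hG S C K M hM he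
  refine ⟨p, hp0, hp1, fun ω hω => ?_⟩
  obtain ⟨-, horth, hcw, hk⟩ := hpω ω hω
  refine ⟨fun c hc i => (hcw c hc i).1, fun i j hij => ?_, fun c hc i => ?_,
    fun k hk' i => (hk k hk' i).trans (min_le_left _ _)⟩
  · exact (pow_le_pow_iff_left₀ (ω.nrm_nonneg _) hε.le two_ne_zero).1
      ((horth i j hij).trans (min_le_right _ _))
  · have h := (hcw c hc i).2.trans (min_le_left _ _)
    simpa [div_eq_inv_mul] using h

end Vale.Agent.P095
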