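import Vale.Agent.P095.Upgrade.StageTools

/-!
# P095: many copies give almost invariant quaternion unitaries with `Z` of trace zero

Every copy carries four almost projections `e₀₀, e₁₁, e₊, e₋` modelling `M₂` under a projection of
trace `2/n`. Its exponentials satisfy the quaternion relations up to `O(δ/n)` in the tracial
1-norm, and the product of `L n` successively central copies multiplies the trace by
`(1 - 4/n)^(L n) ≤ exp (-4 L)`.
-/

open scoped ComplexOrder
open Complex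

namespace Vale.Agent.P095

namespace Stage

variable {B : Type*} [CStarAlgebra B] [PartialOrder B] [StarOrderedRing B]

/-- The unitary `exp (iπ/2 p) exp (-iπ/2 q)`. -/
noncomputable def half (p q : B) : B := W (Real.pi / 2) p * W (-(Real.pi / 2)) q

/-- The unitary `exp (iπ p) exp (iπ q)`. -/
noncomputable def full (p q : B) : B := W Real.pi p * W Real.pi q

/-- The linear model of `half`. -/
noncomputable def halfLin (p q : B) : B := 1 - (p + q) + I • (p - q)

/-- The linear model of `full`. -/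
noncomputable def fullLin (p q : B) : B := 1 - (2 : ℂ) • (p + q)

omit [PartialOrder B] [StarOrderedRing B] in
theorem norm_one_le : ‖(1 : B)‖ ≤ 1 := by
  rcases subsingleton_or_nontrivial B with hB | hB
  · simp [Subsingleton.elim (1 : B) 0]
  · exact CStarRing.norm_one.le

omit [PartialOrder B] [StarOrderedRing B] in
theorem norm_W {p : B} (hp : IsSelfAdjoint p) (t : ℝ) : ‖W t p‖ ≤ 1 := norm_fc_wave hp t

variable {p q : B}

omit [PartialOrder B] [StarOrderedRing B] in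
theorem norm_half (hp : IsSelfAdjoint p) (hq : IsSelfAdjoint q) : ‖half p q‖ ≤ 1 :=
  (norm_mul_le _ _).trans
    (mul_le_one₀ (norm_W hp _) (norm_nonneg _) (norm_W hq _))

omit [PartialOrder B] [StarOrderedRing B] in
theorem norm_full (hp : IsSelfAdjoint p) (hq : IsSelfAdjoint q) : ‖full p q‖ ≤ 1 :=
  (norm_mul_le _ _).trans
    (mul_le_one₀ (norm_W hp _) (norm_nonneg _) (norm_W hq _))

omit [PartialOrder B] [StarOrderedRing B] in
theorem norm_halfLin (hp : ‖p‖ ≤ 1) (hq : ‖q‖ ≤ 1) : ‖halfLin p q‖ ≤ 5 := by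
  have h0 := norm_one_le (B := B)
  have h1 : ‖p + q‖ ≤ 2 := (norm_add_le _ _).trans (by linarith)
  have h2 : ‖I • (p - q)‖ ≤ 2 := by
    rw [norm_smul, Complex.norm_I, one_mul]; exact (norm_sub_le _ _).trans (by linarith)
  exact (norm_add_le _ _).trans (by linarith [norm_sub_le (1 : B) (p + q)])

omit [PartialOrder B] [StarOrderedRing B] in
theorem norm_fullLin (hp : ‖p‖ ≤ 1) (hq : ‖q‖ ≤ 1) : ‖fullLin p q‖ ≤ 5 := by
  have h0 := norm_one_le (B := B)
  have h2 : ‖(2 : ℂ) • (p + q)‖ ≤ 4 := by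
    rw [norm_smul, Complex.norm_ofNat]; linarith [norm_add_le p q]
  exact (norm_sub_le _ _).trans (by linarith)

variable {ω : Tr B} {e : ℝ}

theorem L1_wave_prod (hp : 0 ≤ p) (hp1 : ‖p‖ ≤ 1) (hq : 0 ≤ q) (hq1 : ‖q‖ ≤ 1)
    (ep : ω.L1 (p - p * p) e) (eq : ω.L1 (q - q * q) e) (epq : ω.L1 (p * q) e) {s t : ℝ}
    {cs ct : ℂ} (hs : wave s 1 - 1 = cs) (ht : wave t 1 - 1 = ct) (hs4 : |s| ≤ 4) (ht4 : |t| ≤ 4) :
    ω.L1 (W s p * W t q - (1 + cs • p + ct • q)) (400 * e) := by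
  have he := ep.nonneg
  have hcs : ‖cs‖ ≤ 2 := by
    rw [← hs]; exact (norm_sub_le _ _).trans (by rw [norm_wave, norm_one]; norm_num)
  have hct : ‖ct‖ ≤ 2 := by
    rw [← ht]; exact (norm_sub_le _ _).trans (by rw [norm_wave, norm_one]; norm_num)
  have h1 := L1_wave_linear ω hp hp1 ep s
  have h2 := L1_wave_linear ω hq hq1 eq t
  rw [hs] at h1
  rw [ht] at h2
  have hlin : ‖1 + cs • p‖ ≤ 3 := by
    refine (norm_add_le _ _).trans ?_
    rw [norm_smul]
    nlinarith [norm_one_le (B := B), norm_nonneg p, norm_nonneg cs]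
  have e1 : W s p * W t q - (1 + cs • p + ct • q) = (W s p - (1 + cs • p)) * W t q
      + (1 + cs • p) * (W t q - (1 + ct • q)) + (cs * ct) • (p * q) := by
    simp only [mul_sub, sub_mul, mul_add, add_mul, one_mul, mul_one, smul_mul_assoc,
      mul_smul_comm, smul_add]
    module
  rw [e1]
  refine ((h1.mul_right (norm_W hq.isSelfAdjoint t)).add (h2.mul_left hlin) |>.add
    (epq.smul (cs * ct))).mono ?_
  rw [norm_mul]
  nlinarith [mul_le_mul hcs hct (norm_nonneg _) (by norm_num : (0 : ℝ) ≤ 2)]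

theorem L1_half (hp : 0 ≤ p) (hp1 : ‖p‖ ≤ 1) (hq : 0 ≤ q) (hq1 : ‖q‖ ≤ 1)
    (ep : ω.L1 (p - p * p) e) (eq : ω.L1 (q - q * q) e) (epq : ω.L1 (p * q) e) :
    ω.L1 (half p q - halfLin p q) (400 * e) := by
  have h := L1_wave_prod hp hp1 hq hq1 ep eq epq (s := Real.pi / 2) (t := -(Real.pi / 2))
    (cs := I - 1) (ct := -I - 1) (by rw [wave_half_pi_one]) (by rw [wave_neg_half_pi_one])
    (by rw [abs_of_pos (by positivity)]; linarith [Real.pi_lt_four])
    (by rw [abs_neg, abs_of_pos (by positivity)]; linarith [Real.pi_lt_four])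
  have e1 : halfLin p q = 1 + (I - 1) • p + (-I - 1) • q := by
    unfold halfLin; module
  rw [half, e1]; exact h

theorem L1_full (hp : 0 ≤ p) (hp1 : ‖p‖ ≤ 1) (hq : 0 ≤ q) (hq1 : ‖q‖ ≤ 1)
    (ep : ω.L1 (p - p * p) e) (eq : ω.L1 (q - q * q) e) (epq : ω.L1 (p * q) e) :
    ω.L1 (full p q - fullLin p q) (400 * e) := by
  have h := L1_wave_prod hp hp1 hq hq1 ep eq epq (s := Real.pi) (t := Real.pi)
    (cs := -2) (ct := -2) (by rw [wave_pi_one]; norm_num) (by rw [wave_pi_one]; norm_num)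
    (by rw [abs_of_pos Real.pi_pos]; linarith [Real.pi_lt_four])
    (by rw [abs_of_pos Real.pi_pos]; linarith [Real.pi_lt_four])
  have e1 : fullLin p q = 1 + (-2 : ℂ) • p + (-2 : ℂ) • q := by
    unfold fullLin; module
  rw [full, e1]; exact h

/-- The square of the linear model of `half` is the linear model of `full`. -/
theorem L1_halfLin_sq (hp : 0 ≤ p) (hq : 0 ≤ q)
    (ep : ω.L1 (p - p * p) e) (eq : ω.L1 (q - q * q) e) (epq : ω.L1 (p * q) e) :
    ω.L1 (halfLin p q * halfLin p q - fullLin p q) (8 * e) := by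
  have eqp : ω.L1 (q * p) e := by
    have h := epq.star
    rwa [star_mul, hp.isSelfAdjoint.star_eq, hq.isSelfAdjoint.star_eq] at h
  have e1 : halfLin p q * halfLin p q - fullLin p q =
      (2 : ℂ) • (p * q + q * p) + (2 * I) • ((p - p * p) - (q - q * q)) := by
    simp only [halfLin, fullLin, mul_sub, sub_mul, mul_add, add_mul, one_mul, mul_one,
      smul_mul_assoc, mul_smul_comm, smul_smul, I_mul_I, smul_add, smul_sub]
    module
  rw [e1]
  refine (((epq.add eqp).smul _).add ((ep.sub eq).smul _)).mono ?_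
  rw [norm_mul, Complex.norm_I, Complex.norm_ofNat]; linarith

theorem L1_fullLin_sq (hp : 0 ≤ p) (hq : 0 ≤ q)
    (ep : ω.L1 (p - p * p) e) (eq : ω.L1 (q - q * q) e) (epq : ω.L1 (p * q) e) :
    ω.L1 (fullLin p q * fullLin p q - 1) (16 * e) := by
  have eqp : ω.L1 (q * p) e := by
    have h := epq.star
    rwa [star_mul, hp.isSelfAdjoint.star_eq, hq.isSelfAdjoint.star_eq] at h
  have e1 : fullLin p q * fullLin p q - 1 =
      (4 : ℂ) • ((p * q + q * p) - ((p - p * p) + (q - q * q))) := by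
    simp only [fullLin, mul_sub, sub_mul, mul_add, add_mul, one_mul, mul_one,
      smul_mul_assoc, mul_smul_comm, smul_smul, smul_add, smul_sub]
    module
  rw [e1]
  refine (((epq.add eqp).sub (ep.add eq)).smul _).mono ?_
  rw [Complex.norm_ofNat]; linarith

omit [PartialOrder B] [StarOrderedRing B] in
/-- The anticommutation identity in the linear model. -/
theorem anti_identity (D s s' : B) :
    (1 + (-D + I • s)) * (1 + (-D + I • s'))
        - (1 - (2 : ℂ) • D) * ((1 + (-D + I • s')) * (1 + (-D + I • s))) =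
      -((2 : ℂ) • (D * D - D))
        + I • ((D * s' - s') - (s' * D - s') + (D * s - s) - (s * D - s))
        - (s * s' + s' * s)
        + (2 : ℂ) • ((-(D * D - D) + I • (D * s' - s')) * (-D + I • s)) := by
  simp only [sub_mul, mul_add, add_mul, one_mul, mul_one, neg_mul, mul_neg, mul_assoc,
    smul_mul_assoc, mul_smul_comm, smul_smul, smul_add, smul_sub, smul_neg, I_mul_I]
  module

variable {r : Fin 4 → B}

theorem copy_defects (hd : ∀ j, ω.L1 (defect r j) e) :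
    ω.L1 (r 0 * r 1) e ∧ ω.L1 (r 2 * r 3) e ∧ ω.L1 (r 0 + r 1 - r 2 - r 3) e ∧
      ω.L1 ((r 0 - r 1) * (r 2 - r 3) + (r 2 - r 3) * (r 0 - r 1)) e :=
  ⟨hd 0, hd 1, hd 2, hd 3⟩

/-- The relations of one copy. -/
theorem relations (hr : ∀ a, 0 ≤ r a ∧ ‖r a‖ ≤ 1) (he : ∀ a, ω.L1 (r a - r a * r a) e)
    (hd : ∀ j, ω.L1 (defect r j) e) :
    ω.L1 (half (r 0) (r 1) * half (r 0) (r 1) - full (r 0) (r 1)) (10000 * e) ∧
    ω.L1 (half (r 2) (r 3) * half (r 2) (r 3) - full (r 0) (r 1)) (10000 * e) ∧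
    ω.L1 (full (r 0) (r 1) * full (r 0) (r 1) - 1) (10000 * e) ∧
    ω.L1 (half (r 0) (r 1) * half (r 2) (r 3)
      - full (r 0) (r 1) * (half (r 2) (r 3) * half (r 0) (r 1))) (100000 * e) := by
  obtain ⟨d01, d23, dD, dan⟩ := copy_defects hd
  have he0 := d01.nonneg
  have sa := fun a => (hr a).1.isSelfAdjoint
  set u := half (r 0) (r 1)
  set v := half (r 2) (r 3)
  set z := full (r 0) (r 1)
  set a := halfLin (r 0) (r 1) with ha
  set b := halfLin (r 2) (r 3) with hb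
  set c := fullLin (r 0) (r 1) with hc
  have hu : ω.L1 (u - a) (400 * e) :=
    L1_half (hr 0).1 (hr 0).2 (hr 1).1 (hr 1).2 (he 0) (he 1) d01
  have hv : ω.L1 (v - b) (400 * e) :=
    L1_half (hr 2).1 (hr 2).2 (hr 3).1 (hr 3).2 (he 2) (he 3) d23
  have hz : ω.L1 (z - c) (400 * e) :=
    L1_full (hr 0).1 (hr 0).2 (hr 1).1 (hr 1).2 (he 0) (he 1) d01
  have nu : ‖u‖ ≤ 1 := norm_half (sa 0) (sa 1)
  have nv : ‖v‖ ≤ 1 := norm_half (sa 2) (sa 3)
  have nz : ‖z‖ ≤ 1 := norm_full (sa 0) (sa 1)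
  have na : ‖a‖ ≤ 5 := norm_halfLin (hr 0).2 (hr 1).2
  have nb : ‖b‖ ≤ 5 := norm_halfLin (hr 2).2 (hr 3).2
  have nc : ‖c‖ ≤ 5 := norm_fullLin (hr 0).2 (hr 1).2
  refine ⟨?_, ?_, ?_, ?_⟩
  · have e1 : u * u - z = (u - a) * u + a * (u - a) + ((a * a - c) - (z - c)) := by noncomm_ring
    rw [e1]
    exact ((hu.mul_right nu).add (hu.mul_left na) |>.add
      ((L1_halfLin_sq (hr 0).1 (hr 1).1 (he 0) (he 1) d01).sub hz)).mono (by linarith)
  · have e1 : v * v - z = (v - b) * v + b * (v - b)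
        + ((b * b - fullLin (r 2) (r 3)) + (fullLin (r 2) (r 3) - c) - (z - c)) := by noncomm_ring
    have e2 : fullLin (r 2) (r 3) - c = (2 : ℂ) • (r 0 + r 1 - r 2 - r 3) := by
      rw [hc, fullLin, fullLin]; module
    rw [e1, e2]
    refine ((hv.mul_right nv).add (hv.mul_left nb) |>.add
      ((L1_halfLin_sq (hr 2).1 (hr 3).1 (he 2) (he 3) d23).add (dD.smul 2) |>.sub hz)).mono ?_
    rw [Complex.norm_ofNat]; linarith
  · have e1 : z * z - 1 = (z - c) * z + c * (z - c) + (c * c - 1) := by noncomm_ring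
    rw [e1]
    exact ((hz.mul_right nz).add (hz.mul_left nc) |>.add
      (L1_fullLin_sq (hr 0).1 (hr 1).1 (he 0) (he 1) d01)).mono (by linarith)
  · set D := r 0 + r 1 with hD
    set D' := r 2 + r 3 with hD'
    set s := r 0 - r 1 with hs
    set s' := r 2 - r 3 with hs'
    have dDD : ω.L1 (D - D') e := by
      rw [hD, hD', ← sub_sub]; exact dD
    have d10 : ω.L1 (r 1 * r 0) e := by
      have h := d01.star
      rwa [star_mul, (sa 0).star_eq, (sa 1).star_eq] at h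
    have d32 : ω.L1 (r 3 * r 2) e := by
      have h := d23.star
      rwa [star_mul, (sa 2).star_eq, (sa 3).star_eq] at h
    have hqD : ω.L1 (D * D - D) (4 * e) := by
      have : D * D - D = r 0 * r 1 + r 1 * r 0 - ((r 0 - r 0 * r 0) + (r 1 - r 1 * r 1)) := by
        rw [hD]; noncomm_ring
      rw [this]
      exact ((d01.add d10).sub ((he 0).add (he 1))).mono (by linarith)
    have hDs : ω.L1 (D * s - s) (4 * e) := by
      have : D * s - s = r 1 * r 0 - r 0 * r 1 + ((r 1 - r 1 * r 1) - (r 0 - r 0 * r 0)) := by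
        rw [hD, hs]; noncomm_ring
      rw [this]
      exact ((d10.sub d01).add ((he 1).sub (he 0))).mono (by linarith)
    have hD's : ω.L1 (D' * s' - s') (4 * e) := by
      have : D' * s' - s' = r 3 * r 2 - r 2 * r 3 + ((r 3 - r 3 * r 3) - (r 2 - r 2 * r 2)) := by
        rw [hD', hs']; noncomm_ring
      rw [this]
      exact ((d32.sub d23).add ((he 3).sub (he 2))).mono (by linarith)
    have ns : ‖s‖ ≤ 2 := (norm_sub_le _ _).trans (by linarith [(hr 0).2, (hr 1).2])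
    have ns' : ‖s'‖ ≤ 2 := (norm_sub_le _ _).trans (by linarith [(hr 2).2, (hr 3).2])
    have nD : ‖D‖ ≤ 2 := (norm_add_le _ _).trans (by linarith [(hr 0).2, (hr 1).2])
    have hDs' : ω.L1 (D * s' - s') (6 * e) := by
      have : D * s' - s' = (D' * s' - s') + (D - D') * s' := by noncomm_ring
      rw [this]
      exact (hD's.add (dDD.mul_right ns')).mono (by linarith)
    have hsD : ω.L1 (s * D - s) (4 * e) := by
      have h := hDs.star
      rwa [star_sub, star_mul, ((sa 0).sub (sa 1)).star_eq, ((sa 0).add (sa 1)).star_eq] at h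
    have hs'D : ω.L1 (s' * D - s') (6 * e) := by
      have h := hDs'.star
      rwa [star_sub, star_mul, ((sa 2).sub (sa 3)).star_eq, ((sa 0).add (sa 1)).star_eq] at h
    set b₀ := 1 + (-D + I • s') with hb₀
    have ea : a = 1 + (-D + I • s) := by
      rw [ha, halfLin, hD, hs]; module
    have ec : c = 1 - (2 : ℂ) • D := by rw [hc, fullLin]
    have hbb : ω.L1 (b - b₀) e := by
      have : b - b₀ = D - D' := by rw [hb, hb₀, halfLin, hD', hs']; module
      rw [this]; exact dDD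
    have nb₀ : ‖b₀‖ ≤ 5 := by
      have h0 := norm_one_le (B := B)
      have h2 : ‖I • s'‖ ≤ 2 := by rw [norm_smul, Complex.norm_I, one_mul]; exact ns'
      refine (norm_add_le _ _).trans ?_
      linarith [norm_add_le (-D) (I • s'), norm_neg D]
    have nX : ‖-D + I • s‖ ≤ 4 := by
      refine (norm_add_le _ _).trans ?_
      rw [norm_neg, norm_smul, Complex.norm_I, one_mul]; linarith
    have hlin : ω.L1 (a * b₀ - c * (b₀ * a)) (140 * e) := by
      rw [ea, ec, hb₀, anti_identity]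
      refine ((((hqD.smul 2).neg).add (((((hDs'.sub hs'D).add hDs).sub hsD)).smul I)).sub dan
        |>.add (((hqD.neg.add (hDs'.smul I)).mul_right nX).smul 2)).mono ?_
      rw [Complex.norm_I, Complex.norm_ofNat]; linarith
    have e1 : u * v - z * (v * u) = (u - a) * v + a * (v - b) + a * (b - b₀)
        + (a * b₀ - c * (b₀ * a))
        - ((z - c) * (v * u) + c * ((v - b) * u) + c * (b * (u - a)) + c * ((b - b₀) * a)) := by
      noncomm_ring
    rw [e1]
    refine (((hu.mul_right nv).add (hv.mul_left na)).add (hbb.mul_left na) |>.add hlin |>.sub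
      ((((hz.mul_right (a := v * u) ((norm_mul_le _ _).trans
          (mul_le_one₀ nv (norm_nonneg _) nu))).add
        ((hv.mul_right nu).mul_left nc)).add ((hu.mul_left nb).mul_left nc)).add
        ((hbb.mul_right na).mul_left nc))).mono ?_
    linarith

end Stage

open Stage

variable {G B : Type*} [Group G] [CStarAlgebra B] [PartialOrder B] [StarOrderedRing B]

theorem L1_α (S : Sys G B) {ω ω' : Tr B} {k : G} (he : ∀ x, ω'.f x = ω.f (S.α k x)) {x : B}
    {L : ℝ} (h : ω'.L1 x L) : ω.L1 (S.α k x) L := fun s => by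
  have e1 : s * S.α k x = S.α k ((S.α k).symm s * x) := by simp
  rw [e1, ← he]
  refine (h _).trans ?_
  rw [StarAlgEquiv.norm_map]

/-- The exponentials of an almost invariant almost projection are almost invariant. -/
theorem L1_α_W (S : Sys G B) {ω ω' : Tr B} {k : G} (hω' : ∀ x, ω'.f x = ω.f (S.α k x)) {r : B}
    (hr : 0 ≤ r) (hr1 : ‖r‖ ≤ 1) {e : ℝ} (he : ω.L1 (r - r * r) e)
    (he' : ω'.L1 (r - r * r) e) (hk : ω.L1 (S.α k r - r) e) {t : ℝ} (ht : |t| ≤ 4) :
    ω.L1 (S.α k (W t r) - W t r) (200 * e) := by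
  have hk0 : 0 ≤ S.α k r := Sys.α_nonneg k hr
  have hk1 : ‖S.α k r‖ ≤ 1 := by rw [Sys.norm_α]; exact hr1
  have hek : ω.L1 (S.α k r - S.α k r * S.α k r) e := by
    have h := L1_α S hω' he'
    rwa [map_sub, map_mul] at h
  have h1 := L1_wave_linear ω hk0 hk1 hek t
  have h2 := L1_wave_linear ω hr hr1 he t
  have e1 : S.α k (W t r) - W t r = (W t (S.α k r) - (1 + (wave t 1 - 1) • S.α k r))
      - (W t r - (1 + (wave t 1 - 1) • r)) + (wave t 1 - 1) • (S.α k r - r) := by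
    rw [W, W, fc_map (S.α k) (StarAlgEquiv.isometry (S.α k)).continuous (continuous_wave t)
      hr.isSelfAdjoint, smul_sub]
    abel
  rw [e1]
  refine ((h1.sub h2).add (hk.smul _)).mono ?_
  have hc : ‖wave t 1 - 1‖ ≤ 2 :=
    (norm_sub_le _ _).trans (by rw [norm_wave, norm_one]; norm_num)
  nlinarith [he.nonneg]

theorem L1_α_prod (S : Sys G B) {ω : Tr B} {k : G} {x y : B} (hx : ‖x‖ ≤ 1) (hy : ‖y‖ ≤ 1)
    {L L' : ℝ} (h : ω.L1 (S.α k x - x) L) (h' : ω.L1 (S.α k y - y) L') :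
    ω.L1 (S.α k (x * y) - x * y) (L + L') := by
  have e1 : S.α k (x * y) - x * y = (S.α k x - x) * S.α k y + x * (S.α k y - y) := by
    rw [map_mul]; noncomm_ring
  rw [e1]
  refine ((h.mul_right (A := 1) (by rw [Sys.norm_α]; exact hy)).add (h'.mul_left hx)).mono ?_
  linarith

open Classical in
/-- Products of `m` successively central copies. -/
theorem exists_product (S : Sys G B) (K : Finset G) {δ : ℝ} {n : ℕ} (hδ : 0 < δ) (hn : 4 ≤ n)
    (hcopy : ∀ C : Finset B,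
      ∃ r : Fin 4 → B, (∀ a, 0 ≤ r a ∧ ‖r a‖ ≤ 1) ∧ ∀ ω ∈ S.Ω,
        (∀ c ∈ C, ∀ a, Commute (ω.rep c) (ω.rep (r a))) ∧
        (∀ a, ω.L1 (r a - r a * r a) (δ / n)) ∧
        (∀ j, ω.L1 (defect r j) (δ / n)) ∧
        (∀ k ∈ K, ∀ a, ω.L1 (S.α k (r a) - r a) (δ / n)) ∧
        ∀ c ∈ C, ∀ a : Fin 4, a = 0 ∨ a = 1 →
          ‖ω.f (c * r a) - ((n : ℝ)⁻¹ : ℝ) * ω.f c‖ ≤ δ / n * ‖c‖)
    (C : Finset B) (m : ℕ) :
    ∃ I J Z : B, (∀ u ∈ [I, J, Z], star u * u = 1 ∧ u * star u = 1 ∧ ‖u‖ ≤ 1) ∧ ∀ ω ∈ S.Ω,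
      (∀ c ∈ C, ∀ u ∈ [I, J, Z], Commute (ω.rep c) (ω.rep u)) ∧
      ω.L1 (I * I - Z) (m * (100000 * (δ / n))) ∧ ω.L1 (J * J - Z) (m * (100000 * (δ / n))) ∧
      ω.L1 (Z * Z - 1) (m * (100000 * (δ / n))) ∧
      ω.L1 (I * J - Z * (J * I)) (m * (100000 * (δ / n))) ∧
      (∀ k ∈ K, ∀ u ∈ [I, J, Z], ω.L1 (S.α k u - u) (m * (100000 * (δ / n)))) ∧
      ∀ c ∈ C, ‖ω.f (c * Z) - ((1 - 4 / (n : ℝ)) ^ m : ℝ) * ω.f c‖ ≤
        m * (100000 * (δ / n)) * ‖c‖ := by
  induction m with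
  | zero =>
    refine ⟨1, 1, 1, ?_, fun ω hω => ?_⟩
    · intro u hu
      simp at hu; subst hu
      exact ⟨by simp, by simp, norm_one_le⟩
    · simp only [Nat.cast_zero, zero_mul]
      refine ⟨?_, ?_, ?_, ?_, ?_, ?_, ?_⟩
      · intro c hc u hu
        simp at hu; subst hu
        rw [map_one]; exact Commute.one_right _
      all_goals simp
      all_goals first
        | exact Tr.L1.zero le_rfl
        | exact fun _ _ => Tr.L1.zero le_rfl
  | succ m ih =>
    obtain ⟨P, Q, Z, hu, hP⟩ := ih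
    obtain ⟨nP, nQ, nZ⟩ : ‖P‖ ≤ 1 ∧ ‖Q‖ ≤ 1 ∧ ‖Z‖ ≤ 1 :=
      ⟨(hu P (by simp)).2.2, (hu Q (by simp)).2.2, (hu Z (by simp)).2.2⟩
    obtain ⟨r, hr, hω'⟩ := hcopy (C ∪ {P, Q, Z} ∪ C.image (· * Z))
    have sa := fun a => (hr a).1.isSelfAdjoint
    set u := half (r 0) (r 1) with hu'
    set v := half (r 2) (r 3) with hv'
    set z := full (r 0) (r 1) with hz'
    have nu : ‖u‖ ≤ 1 := norm_half (sa 0) (sa 1)
    have nv : ‖v‖ ≤ 1 := norm_half (sa 2) (sa 3)
    have nz : ‖z‖ ≤ 1 := norm_full (sa 0) (sa 1)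
    have huni : ∀ x y : B, star x * x = 1 ∧ x * star x = 1 → star y * y = 1 ∧ y * star y = 1 →
        star (x * y) * (x * y) = 1 ∧ x * y * star (x * y) = 1 := by
      intro x y hx hy
      rw [star_mul]
      exact ⟨by rw [mul_assoc, ← mul_assoc (star x), hx.1, one_mul, hy.1],
        by rw [mul_assoc, ← mul_assoc y, hy.2, one_mul, hx.2]⟩
    refine ⟨P * u, Q * v, Z * z, ?_, fun ω hω => ?_⟩
    · have two : ∀ s t a b, star (W s (r a) * W t (r b)) * (W s (r a) * W t (r b)) = 1 ∧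
          W s (r a) * W t (r b) * star (W s (r a) * W t (r b)) = 1 := fun s t a b =>
        huni _ _ (W_unitary (sa a) s) (W_unitary (sa b) t)
      intro x hx
      simp at hx
      rcases hx with rfl | rfl | rfl
      · obtain ⟨h1, h2⟩ := huni P u ⟨(hu P (by simp)).1, (hu P (by simp)).2.1⟩ (two _ _ 0 1)
        exact ⟨h1, h2, (norm_mul_le _ _).trans (mul_le_one₀ nP (norm_nonneg _) nu)⟩
      · obtain ⟨h1, h2⟩ := huni Q v ⟨(hu Q (by simp)).1, (hu Q (by simp)).2.1⟩ (two _ _ 2 3)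
        exact ⟨h1, h2, (norm_mul_le _ _).trans (mul_le_one₀ nQ (norm_nonneg _) nv)⟩
      · obtain ⟨h1, h2⟩ := huni Z z ⟨(hu Z (by simp)).1, (hu Z (by simp)).2.1⟩ (two _ _ 0 1)
        exact ⟨h1, h2, (norm_mul_le _ _).trans (mul_le_one₀ nZ (norm_nonneg _) nz)⟩
    obtain ⟨hcm, hII, hJJ, hZZ, hIJ, hinv, htr⟩ := hP ω hω
    obtain ⟨hc, he, hd, hk, ht⟩ := hω' ω hω
    obtain ⟨ruu, rvv, rzz, ruv⟩ := relations hr he hd
    have hε : 0 ≤ δ / n := by positivity
    have cuv : ∀ c ∈ C ∪ {P, Q, Z} ∪ C.image (· * Z), Commute (ω.rep c) (ω.rep u) ∧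
        Commute (ω.rep c) (ω.rep v) ∧ Commute (ω.rep c) (ω.rep z) := by
      intro c h
      have w : ∀ t a, Commute (ω.rep c) (ω.rep (W t (r a))) := fun t a =>
        rep_W_commute ω (sa a) t (hc c h a)
      refine ⟨?_, ?_, ?_⟩ <;>
        (simp only [hu', hv', hz', half, full, map_mul]; exact (w _ _).mul_right (w _ _))
    obtain ⟨cPu, cPv, cPz⟩ := cuv P (by simp)
    obtain ⟨cQu, cQv, cQz⟩ := cuv Q (by simp)
    obtain ⟨cZu, cZv, cZz⟩ := cuv Z (by simp)
    rw [Nat.cast_succ]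
    refine ⟨?_, ?_, ?_, ?_, ?_, ?_, ?_⟩
    · intro c h x hx
      obtain ⟨c1, c2, c3⟩ := cuv c (by simp [h])
      simp at hx
      rcases hx with rfl | rfl | rfl <;> rw [map_mul]
      · exact (hcm c h P (by simp)).mul_right c1
      · exact (hcm c h Q (by simp)).mul_right c2
      · exact (hcm c h Z (by simp)).mul_right c3
    · refine ((hII.mul_right (A := 1) ((norm_mul_le _ _).trans
        (mul_le_one₀ nu (norm_nonneg _) nu))).add (ruu.mul_left nZ)).mono (by linarith)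
        |>.congr ?_
      simp only [map_sub, map_add, map_mul, cPu.symm.mul_mul_mul_comm (ω.rep P) (ω.rep u)]
      noncomm_ring
    · refine ((hJJ.mul_right (A := 1) ((norm_mul_le _ _).trans
        (mul_le_one₀ nv (norm_nonneg _) nv))).add (rvv.mul_left nZ)).mono (by linarith)
        |>.congr ?_
      simp only [map_sub, map_add, map_mul, cQv.symm.mul_mul_mul_comm (ω.rep Q) (ω.rep v)]
      noncomm_ring
    · refine ((hZZ.mul_right (A := 1) ((norm_mul_le _ _).trans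
        (mul_le_one₀ nz (norm_nonneg _) nz))).add (rzz.mul_left (A := 1) norm_one_le)).mono
        (by linarith) |>.congr ?_
      simp only [map_sub, map_add, map_mul, map_one,
        cZz.symm.mul_mul_mul_comm (ω.rep Z) (ω.rep z)]
      noncomm_ring
    · refine ((hIJ.mul_right (A := 1) ((norm_mul_le _ _).trans
        (mul_le_one₀ nu (norm_nonneg _) nv))).add (ruv.mul_left (a := Z * (Q * P)) (A := 1)
          ((norm_mul_le _ _).trans (mul_le_one₀ nZ (norm_nonneg _)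
            ((norm_mul_le _ _).trans (mul_le_one₀ nQ (norm_nonneg _) nP)))))).mono
        (by linarith) |>.congr ?_
      have c1 : Commute (ω.rep z) (ω.rep Q * ω.rep P) := (cQz.symm).mul_right cPz.symm
      simp only [map_sub, map_add, map_mul, cQu.symm.mul_mul_mul_comm (ω.rep P) (ω.rep v),
        cPv.symm.mul_mul_mul_comm (ω.rep Q) (ω.rep u), c1.mul_mul_mul_comm (ω.rep Z)]
      noncomm_ring
    · intro k hk' x hx
      obtain ⟨ω', hω'', hωe⟩ := S.invariant ω hω k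
      have he' := (hω' ω' hω'').2.1
      have w : ∀ t, |t| ≤ 4 → ∀ a, ω.L1 (S.α k (W t (r a)) - W t (r a)) (200 * (δ / n)) :=
        fun t ht a => L1_α_W S hωe (hr a).1 (hr a).2 (he a) (he' a) (hk k hk' a) ht
      have hπ := Real.pi_pos
      have hπ4 := Real.pi_lt_four
      have t1 : |Real.pi / 2| ≤ 4 := by rw [abs_of_pos (by positivity)]; linarith
      have t2 : |(-(Real.pi / 2))| ≤ 4 := by rw [abs_neg]; exact t1
      have t3 : |Real.pi| ≤ 4 := by rw [abs_of_pos hπ]; linarith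
      have au : ω.L1 (S.α k u - u) (200 * (δ / n) + 200 * (δ / n)) :=
        L1_α_prod S (norm_W (sa 0) _) (norm_W (sa 1) _) (w _ t1 0) (w _ t2 1)
      have av : ω.L1 (S.α k v - v) (200 * (δ / n) + 200 * (δ / n)) :=
        L1_α_prod S (norm_W (sa 2) _) (norm_W (sa 3) _) (w _ t1 2) (w _ t2 3)
      have az : ω.L1 (S.α k z - z) (200 * (δ / n) + 200 * (δ / n)) :=
        L1_α_prod S (norm_W (sa 0) _) (norm_W (sa 1) _) (w _ t3 0) (w _ t3 1)
      simp at hx
      rcases hx with rfl | rfl | rfl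
      · exact (L1_α_prod S nP nu (hinv k hk' P (by simp)) au).mono (by linarith)
      · exact (L1_α_prod S nQ nv (hinv k hk' Q (by simp)) av).mono (by linarith)
      · exact (L1_α_prod S nZ nz (hinv k hk' Z (by simp)) az).mono (by linarith)
    · intro c h
      have hmem : c * Z ∈ C ∪ {P, Q, Z} ∪ C.image (· * Z) :=
        Finset.mem_union_right _ (Finset.mem_image_of_mem (· * Z) h)
      have h0 := ht _ hmem 0 (Or.inl rfl)
      have h1 := ht _ hmem 1 (Or.inr rfl)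
      have hlin := L1_full (hr 0).1 (hr 0).2 (hr 1).1 (hr 1).2 (he 0) (he 1) (hd 0) (c * Z)
      have hnc : ‖c * Z‖ ≤ ‖c‖ :=
        (norm_mul_le _ _).trans (mul_le_of_le_one_right (norm_nonneg _) nZ)
      have ih' := htr c h
      set q : ℝ := 1 - 4 / (n : ℝ) with hq
      have hn' : (4 : ℝ) ≤ n := by exact_mod_cast hn
      have hq01 : 0 ≤ q ∧ q ≤ 1 := by
        refine ⟨?_, sub_le_self _ (by positivity)⟩
        rw [hq, sub_nonneg, div_le_one (by linarith)]; exact hn'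
      have e1 : ω.f (c * (Z * z)) - ((q ^ (m + 1) : ℝ) : ℂ) * ω.f c =
          ω.f (c * Z * (z - fullLin (r 0) (r 1)))
          - 2 * (ω.f (c * Z * r 0) - ((n : ℝ)⁻¹ : ℝ) * ω.f (c * Z))
          - 2 * (ω.f (c * Z * r 1) - ((n : ℝ)⁻¹ : ℝ) * ω.f (c * Z))
          + (q : ℂ) * (ω.f (c * Z) - ((q ^ m : ℝ) : ℂ) * ω.f c) := by
        rw [fullLin]
        simp only [mul_sub, mul_add, mul_one, mul_smul_comm, map_sub, map_add, map_smul,
          smul_eq_mul, mul_assoc, hq]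
        push_cast
        ring
      rw [e1]
      have b0 := h0.trans (mul_le_mul_of_nonneg_left hnc hε)
      have b1 := h1.trans (mul_le_mul_of_nonneg_left hnc hε)
      have b2 := hlin.trans (mul_le_mul_of_nonneg_right hnc (by positivity))
      have b3 : ‖(q : ℂ) * (ω.f (c * Z) - ((q ^ m : ℝ) : ℂ) * ω.f c)‖ ≤
          m * (100000 * (δ / n)) * ‖c‖ := by
        rw [norm_mul, Complex.norm_real, Real.norm_of_nonneg hq01.1]
        exact (mul_le_of_le_one_left (norm_nonneg _) hq01.2).trans ih'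
      refine (norm_add_le _ _).trans ?_
      refine le_trans (add_le_add ((norm_sub_le _ _).trans
        (add_le_add ((norm_sub_le _ _).trans (add_le_add b2 le_rfl)) le_rfl)) b3) ?_
      simp only [norm_mul, Complex.norm_ofNat]
      nlinarith [norm_nonneg c, mul_nonneg (norm_nonneg c) hε]

/-- `CopyGoal` gives `StageGoal`. -/
theorem stage_goal (S : Sys G B) (hc : CopyGoal S) : StageGoal S := by
  intro C K ε hε
  set L := ⌈1 / ε⌉₊ + 1 with hL
  set δ := min (ε / 2) (ε ^ 2 / 2) / (100000 * L) with hδ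
  have hL0 : (0 : ℝ) < L := by positivity
  have hδ0 : 0 < δ := by positivity
  obtain ⟨n, hn0, hn4, hcopy⟩ := hc K δ 4 hδ0
  obtain ⟨P, Q, Z, hu, hP⟩ := exists_product S K hδ0 hn4 hcopy C (L * n)
  refine ⟨P, Q, Z, fun u h => ⟨(hu u h).1, (hu u h).2.1⟩, fun ω hω => ?_⟩
  obtain ⟨hcm, hII, hJJ, hZZ, hIJ, hinv, htr⟩ := hP ω hω
  have hn' : (0 : ℝ) < n := by exact_mod_cast hn0
  have hE : ((L * n : ℕ) : ℝ) * (100000 * (δ / n)) = min (ε / 2) (ε ^ 2 / 2) := by
    rw [hδ]; push_cast; field_simp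
  rw [hE] at hII hJJ hZZ hIJ hinv htr
  have h2 : ∀ x, ω.L1 x (min (ε / 2) (ε ^ 2 / 2)) → ‖x‖ ≤ 2 → ω.nrm x ≤ ε := by
    intro x hx hx2
    refine le_of_pow_le_pow_left₀ two_ne_zero hε.le ((hx.nrm_sq_le hx2).trans ?_)
    linarith [min_le_right (ε / 2) (ε ^ 2 / 2)]
  have nP := (hu P (by simp)).2.2
  have nQ := (hu Q (by simp)).2.2
  have nZ := (hu Z (by simp)).2.2
  have two : ∀ {x y : B}, ‖x‖ ≤ 1 → ‖y‖ ≤ 1 → ‖x - y‖ ≤ 2 := fun hx hy =>
    (norm_sub_le _ _).trans (by linarith)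
  have mul1 : ∀ {x y : B}, ‖x‖ ≤ 1 → ‖y‖ ≤ 1 → ‖x * y‖ ≤ 1 := fun hx hy =>
    (norm_mul_le _ _).trans (mul_le_one₀ hx (norm_nonneg _) hy)
  refine ⟨hcm, h2 _ hII (two (mul1 nP nP) nZ), h2 _ hJJ (two (mul1 nQ nQ) nZ),
    h2 _ hZZ (two (mul1 nZ nZ) norm_one_le), h2 _ hIJ (two (mul1 nP nQ) (mul1 nZ (mul1 nQ nP))),
    fun k hk u h => h2 _ (hinv k hk u h) (two (by rw [Sys.norm_α]; exact (hu u h).2.2) (hu u h).2.2),
    fun c h => ?_⟩
  set q : ℝ := 1 - 4 / (n : ℝ) with hq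
  have hn4' : (4 : ℝ) ≤ n := by exact_mod_cast hn4
  have hq0 : 0 ≤ q := by rw [hq, sub_nonneg, div_le_one hn']; exact hn4'
  have hqm : q ^ (L * n) ≤ ε / 2 := by
    have h1 : q ≤ Real.exp (-(4 / (n : ℝ))) := by
      linarith [Real.add_one_le_exp (-(4 / (n : ℝ)))]
    refine (pow_le_pow_left₀ hq0 h1 _).trans ?_
    rw [← Real.exp_nat_mul, show ((L * n : ℕ) : ℝ) * -(4 / (n : ℝ)) = -(4 * L) by
      push_cast; field_simp, Real.exp_neg]
    have h3 : 1 / ε ≤ L := by
      rw [hL]; push_cast; linarith [Nat.le_ceil (1 / ε)]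
    have h4 : 2 / ε ≤ Real.exp (4 * L) := by
      refine le_trans ?_ ((le_add_of_nonneg_right zero_le_one).trans (Real.add_one_le_exp _))
      rw [div_eq_mul_one_div]; linarith [show (0 : ℝ) < 1 / ε by positivity]
    rw [← inv_div 2 ε]
    exact inv_anti₀ (by positivity) h4
  have hfc : ‖ω.f c‖ ≤ ‖c‖ := (ω.norm_apply_le c).trans (ω.nrm_le_norm c)
  calc ‖ω.f (c * Z)‖ ≤ ‖ω.f (c * Z) - ((q ^ (L * n) : ℝ) : ℂ) * ω.f c‖
        + ‖((q ^ (L * n) : ℝ) : ℂ) * ω.f c‖ := by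
          simpa using norm_add_le (ω.f (c * Z) - ((q ^ (L * n) : ℝ) : ℂ) * ω.f c)
            (((q ^ (L * n) : ℝ) : ℂ) * ω.f c)
    _ ≤ min (ε / 2) (ε ^ 2 / 2) * ‖c‖ + ε / 2 * ‖c‖ := by
        refine add_le_add (htr c h) ?_
        rw [norm_mul, Complex.norm_real, Real.norm_of_nonneg (pow_nonneg hq0 _)]
        exact mul_le_mul hqm hfc (norm_nonneg _) (by positivity)
    _ ≤ ε * ‖c‖ := by nlinarith [min_le_left (ε / 2) (ε ^ 2 / 2), norm_nonneg c]

end Vale.Agent.P095
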