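import Vale.Agent.P095.Sys

/-!
# P095: bounded sequences modulo sequences that vanish in uniform tracial 2-norm
-/

open scoped ComplexOrder
open Filter

namespace Vale.Agent.P095

variable {G B : Type*} [Group G] [CStarAlgebra B] [PartialOrder B] [StarOrderedRing B]

/-- Bounded sequences. -/
abbrev Seq (B : Type*) [CStarAlgebra B] := BoundedContinuousFunction ℕ B

/-- The bounded sequence with given terms. -/
noncomputable def seqOf (x : ℕ → B) (C : ℝ) (h : ∀ m, ‖x m‖ ≤ C) : Seq B :=
  BoundedContinuousFunction.ofNormedAddCommGroupDiscrete x C h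

omit [PartialOrder B] [StarOrderedRing B] in
@[simp] theorem seqOf_apply (x : ℕ → B) (C : ℝ) (h : ∀ m, ‖x m‖ ≤ C) (m : ℕ) :
    seqOf x C h m = x m := rfl

/-- The termwise image of a sequence under the action. -/
noncomputable def Sys.αSeq (S : Sys G B) (k : G) : Seq B →+* Seq B where
  toFun x := seqOf (fun m => S.α k (x m)) ‖x‖ fun m => by
    rw [Sys.norm_α]; exact x.norm_coe_le_norm m
  map_one' := by ext m; simp
  map_mul' x y := by ext m; simp
  map_zero' := by ext m; simp
  map_add' x y := by ext m; simp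

namespace Sys

variable (S : Sys G B)

/-- Two sequences are uniformly asymptotic in 2-norm. -/
def Null (x y : Seq B) : Prop :=
  ∀ η : ℝ, 0 < η → ∀ᶠ m in atTop, ∀ ω ∈ S.Ω, ω.nrm (x m - y m) ≤ η

/-- The congruence `Null`. -/
def null : RingCon (Seq B) where
  r := S.Null
  iseqv :=
    { refl := fun x η hη => Eventually.of_forall fun m ω _ => by
        rw [sub_self, ω.nrm_zero]; exact hη.le
      symm := fun {x y} h η hη => (h η hη).mono fun m hm ω hω => by
        rw [show y m - x m = (-1 : ℂ) • (x m - y m) by simp, ω.nrm_smul]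
        simpa using hm ω hω
      trans := fun {x y z} h h' η hη =>
        ((h _ (half_pos hη)).and (h' _ (half_pos hη))).mono fun m hm ω hω => by
          have := ω.nrm_add (x m - y m) (y m - z m)
          rw [sub_add_sub_cancel] at this
          linarith [hm.1 ω hω, hm.2 ω hω] }
  add' := fun {a b c d} h h' η hη =>
    ((h _ (half_pos hη)).and (h' _ (half_pos hη))).mono fun m hm ω hω => by
      have := ω.nrm_add (a m - b m) (c m - d m)
      rw [sub_add_sub_comm] at this
      simp only [BoundedContinuousFunction.coe_add, Pi.add_apply]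
      linarith [hm.1 ω hω, hm.2 ω hω]
  mul' := fun {a b c d} h h' η hη => by
    set K : ℝ := ‖b‖ + ‖c‖ + 1
    have hK : 0 < K := by positivity
    refine ((h _ (div_pos hη hK)).and (h' _ (div_pos hη hK))).mono fun m hm ω hω => ?_
    simp only [BoundedContinuousFunction.coe_mul, Pi.mul_apply]
    rw [show a m * c m - b m * d m = (a m - b m) * c m + b m * (c m - d m) by noncomm_ring]
    have h1 := ω.nrm_mul_right (c m) (a m - b m)
    have h2 := ω.nrm_mul_left (b m) (c m - d m)
    have h3 := ω.nrm_add ((a m - b m) * c m) (b m * (c m - d m))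
    have h4 := mul_le_mul (hm.1 ω hω) (c.norm_coe_le_norm m) (norm_nonneg _) (by positivity)
    have h5 := mul_le_mul (b.norm_coe_le_norm m) (hm.2 ω hω) (ω.nrm_nonneg _) (norm_nonneg _)
    have h6 : η / K * K = η := div_mul_cancel₀ _ hK.ne'
    have h7 : 0 ≤ η / K := by positivity
    nlinarith

/-- Passing to the quotient. -/
noncomputable abbrev q : Seq B →+* S.null.Quotient := S.null.mk'

variable {S}

theorem q_eq {x y : Seq B} : S.q x = S.q y ↔ S.Null x y := RingCon.eq _

/-- A null difference controls the terms. -/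
theorem eventually_le {x y : Seq B} (h : S.q x = S.q y) {η : ℝ} (hη : 0 < η) :
    ∀ᶠ m in atTop, ∀ ω ∈ S.Ω, ω.nrm (x m - y m) ≤ η := q_eq.1 h η hη

theorem q_of_le {x y : Seq B} {e : ℕ → ℝ} (he : Tendsto e atTop (nhds 0))
    (h : ∀ m, ∀ ω ∈ S.Ω, ω.nrm (x m - y m) ≤ e m) : S.q x = S.q y :=
  q_eq.2 fun _η hη => (he.eventually (Iio_mem_nhds hη)).mono fun m hm ω hω =>
    (h m ω hω).trans (le_of_lt hm)

theorem q_of_nrm_eq_zero {x y : Seq B} (h : ∀ m, ∀ ω ∈ S.Ω, ω.nrm (x m - y m) = 0) :
    S.q x = S.q y :=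
  q_of_le tendsto_const_nhds fun m ω hω => (h m ω hω).le

theorem q_of_sq {x y u v : Seq B} (huv : S.q u = S.q v)
    (h : ∀ m, ∀ ω ∈ S.Ω, ω.nrm (x m - y m) ^ 2 ≤ ω.nrm (u m - v m)) : S.q x = S.q y :=
  q_eq.2 fun η hη => (eventually_le huv (pow_pos hη 2)).mono fun m hm ω hω =>
    (sq_le_sq₀ (ω.nrm_nonneg _) hη.le).1 ((h m ω hω).trans (hm ω hω))

theorem q_αSeq {x y : Seq B} (h : S.q x = S.q y) (k : G) :
    S.q (S.αSeq k x) = S.q (S.αSeq k y) :=
  q_eq.2 fun η hη => (eventually_le h hη).mono fun m hm ω hω => by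
    obtain ⟨ω', hω', he⟩ := S.invariant ω hω k
    show ω.nrm (S.α k (x m) - S.α k (y m)) ≤ η
    rw [← map_sub, Sys.nrm_α he]
    exact hm ω' hω'

/-- The sequences whose classes are fixed by `k`. -/
noncomputable def fixed (k : G) : Subring (Seq B) := RingHom.eqLocus (S.q.comp (S.αSeq k)) S.q

theorem mem_fixed_of_eq {k : G} {x y : Seq B} (h : S.q x = S.q y) (hy : y ∈ fixed (S := S) k) :
    x ∈ fixed (S := S) k :=
  ((q_αSeq h k).trans hy).trans h.symm

end Sys

end Vale.Agent.P095
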