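import Mathlib

/-!
# P095: matrix units on the `Z = -1` part of a quaternion representation
-/

namespace Vale.Agent.P095

/-- Quaternion relations (`W = -iI`) in a ring containing a central `1/2`. -/
structure Quat (R : Type*) [Ring R] where
  W : R
  J : R
  Z : R
  h : R
  hW : W * W = -Z
  hJ : J * J = Z
  hZ : Z * Z = 1
  hWJ : W * J = Z * (J * W)
  hh : h + h = 1
  hc : ∀ x, h * x = x * h

namespace Quat

variable {R : Type*} [Ring R] (q : Quat R)

/-- The projection onto `Z = 1`. -/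
def P : R := q.h * (1 + q.Z)

/-- The projection onto `Z = -1`. -/
def Q : R := q.h * (1 - q.Z)

/-- The matrix units of the corner `Z = -1`. -/
def u : Fin 2 → Fin 2 → R :=
  ![![q.Q * (q.h * (1 + q.W)), q.Q * (q.h * (1 + q.W)) * q.J],
    ![-(q.Q * (q.h * (1 - q.W)) * q.J), q.Q * (q.h * (1 - q.W))]]

theorem half (x : R) : q.h * (x + x) = x := by
  rw [mul_add, ← add_mul, q.hh, one_mul]

theorem ZW : q.Z * q.W = q.W * q.Z := by
  have h1 := mul_assoc q.W q.W q.W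
  rw [q.hW] at h1
  rw [neg_mul, mul_neg, neg_inj] at h1
  exact h1

theorem ZJ : q.Z * q.J = q.J * q.Z := by
  rw [← q.hJ, mul_assoc]

theorem W_inv : q.W * -(q.Z * q.W) = 1 := by
  rw [q.ZW, mul_neg, ← mul_assoc, q.hW, neg_mul, neg_neg, q.hZ]

theorem J_inv : q.J * (q.Z * q.J) = 1 := by rw [q.ZJ, ← mul_assoc, q.hJ, q.hZ]

theorem P_add_Q : q.P + q.Q = 1 := by
  rw [P, Q, ← mul_add, show (1 : R) + q.Z + (1 - q.Z) = 1 + 1 by noncomm_ring, q.half]

theorem P_mul_P : q.P * q.P = q.P := by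
  rw [P, mul_assoc, ← mul_assoc (1 + q.Z), ← q.hc (1 + q.Z), mul_assoc, ← mul_assoc q.h q.h,
    mul_assoc, show (1 + q.Z) * (1 + q.Z) = (1 + q.Z) + (1 + q.Z) by
      rw [add_mul, one_mul, mul_add, mul_one, q.hZ]; abel, q.half]

theorem Q_eq : q.Q = 1 - q.P := eq_sub_of_add_eq' q.P_add_Q

theorem P_eq : q.P = 1 - q.Q := eq_sub_of_add_eq q.P_add_Q

theorem Q_mul_Q : q.Q * q.Q = q.Q := by
  rw [Q_eq, mul_sub, sub_mul, sub_mul, q.P_mul_P, one_mul, mul_one, one_mul, sub_self, sub_zero]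

theorem commute_Q {x : R} (hx : q.Z * x = x * q.Z) : Commute q.Q x :=
  (Commute.mul_left (q.hc x) ((Commute.one_left x).sub_left hx))

theorem Q_J : Commute q.Q q.J := q.commute_Q q.ZJ

theorem Q_W : Commute q.Q q.W := q.commute_Q q.ZW

theorem Q_Z : q.Q * q.Z = -q.Q := by
  rw [Q, mul_assoc, ← mul_neg, sub_mul, one_mul, q.hZ, neg_sub]

theorem Q_WJ : q.Q * (q.W * q.J) = -(q.Q * (q.J * q.W)) := by
  rw [q.hWJ, ← mul_assoc, q.Q_Z, neg_mul]

theorem Q_JW : q.Q * (q.J * q.W) = -(q.Q * (q.W * q.J)) := by rw [q.Q_WJ, neg_neg]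

theorem Q_half : q.Q * q.h = q.h * q.Q := (q.hc q.Q).symm

/-- Products inside the corner. -/
theorem Q_collapse (A A' : R) (hA : Commute q.Q A) :
    q.Q * (q.h * A) * (q.Q * (q.h * A')) = q.Q * (q.h * (q.h * (A * A'))) := by
  have h1 : q.h * A * q.Q = q.Q * (q.h * A) := (Commute.mul_left (show Commute q.h q.Q from q.hc q.Q) hA.symm).eq
  calc q.Q * (q.h * A) * (q.Q * (q.h * A')) = q.Q * (q.h * A * q.Q) * (q.h * A') := by noncomm_ring
    _ = (q.Q * q.Q) * (q.h * (A * q.h) * A') := by rw [h1]; noncomm_ring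
    _ = _ := by rw [q.Q_mul_Q, ← q.hc A]; noncomm_ring

theorem F_sq (A : R) (hA : Commute q.Q A) (h2 : q.Q * (A * A) = q.Q * (A + A)) :
    q.Q * (q.h * A) * (q.Q * (q.h * A)) = q.Q * (q.h * A) := by
  rw [q.Q_collapse A A hA]
  calc q.Q * (q.h * (q.h * (A * A))) = q.h * (q.h * (q.Q * (A * A))) := by
        rw [← mul_assoc q.Q, ← q.hc q.Q, mul_assoc, ← mul_assoc q.Q, ← q.hc q.Q, mul_assoc]
    _ = q.h * (q.h * (q.Q * (A + A))) := by rw [h2]
    _ = q.h * (q.Q * A) := by rw [mul_add, q.half]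
    _ = _ := by rw [← mul_assoc, q.hc q.Q, mul_assoc]

theorem F_zero (A A' : R) (hA : Commute q.Q A) (h2 : q.Q * (A * A') = 0) :
    q.Q * (q.h * A) * (q.Q * (q.h * A')) = 0 := by
  rw [q.Q_collapse A A' hA, ← mul_assoc q.Q, ← q.hc q.Q, mul_assoc, ← mul_assoc q.Q, ← q.hc q.Q,
    mul_assoc, h2, mul_zero, mul_zero]

theorem Q_WW : q.Q * (q.W * q.W) = q.Q := by rw [q.hW, mul_neg, q.Q_Z, neg_neg]

theorem cQp : Commute q.Q (1 + q.W) := (Commute.one_right _).add_right q.Q_W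

theorem cQm : Commute q.Q (1 - q.W) := (Commute.one_right _).sub_right q.Q_W

theorem F0F0 : q.u 0 0 * q.u 0 0 = q.u 0 0 := by
  refine q.F_sq _ q.cQp ?_
  simp [mul_add, add_mul, q.Q_WW]; abel

theorem F1F1 : q.u 1 1 * q.u 1 1 = q.u 1 1 := by
  refine q.F_sq _ q.cQm ?_
  simp [mul_add, mul_sub, sub_mul, q.Q_WW]; abel

theorem F0F1 : q.u 0 0 * q.u 1 1 = 0 := by
  refine q.F_zero _ _ q.cQp ?_
  simp [mul_add, mul_sub, add_mul, q.Q_WW]; abel

theorem F1F0 : q.u 1 1 * q.u 0 0 = 0 := by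
  refine q.F_zero _ _ q.cQm ?_
  simp [mul_add, mul_sub, sub_mul, q.Q_WW]

theorem JF0 : q.J * q.u 0 0 = q.u 1 1 * q.J := by
  show q.J * (q.Q * (q.h * (1 + q.W))) = q.Q * (q.h * (1 - q.W)) * q.J
  rw [← mul_assoc, ← q.Q_J.eq, mul_assoc, ← mul_assoc q.J, ← q.hc q.J, mul_assoc, mul_assoc q.Q,
    mul_assoc q.h, ← mul_assoc q.Q, ← mul_assoc q.Q, ← q.hc q.Q, mul_assoc, mul_assoc]
  simp only [mul_add, sub_mul, mul_sub, mul_one, one_mul, q.Q_JW, ← sub_eq_add_neg]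

theorem JF1 : q.J * q.u 1 1 = q.u 0 0 * q.J := by
  show q.J * (q.Q * (q.h * (1 - q.W))) = q.Q * (q.h * (1 + q.W)) * q.J
  rw [← mul_assoc, ← q.Q_J.eq, mul_assoc, ← mul_assoc q.J, ← q.hc q.J, mul_assoc, mul_assoc q.Q,
    mul_assoc q.h, ← mul_assoc q.Q, ← mul_assoc q.Q, ← q.hc q.Q, mul_assoc, mul_assoc]
  simp only [mul_add, add_mul, mul_sub, mul_one, one_mul, q.Q_JW, sub_neg_eq_add]

theorem FZ (i : Fin 2) : q.u i i * q.Z = -q.u i i := by
  have h1 : Commute q.Z (1 + q.W) := (Commute.one_right _).add_right q.ZW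
  have h2 : Commute q.Z (1 - q.W) := (Commute.one_right _).sub_right q.ZW
  fin_cases i
  · show q.Q * (q.h * (1 + q.W)) * q.Z = -(q.Q * (q.h * (1 + q.W)))
    rw [mul_assoc, ← (Commute.mul_right (q.hc q.Z).symm h1).eq, ← mul_assoc, q.Q_Z, neg_mul]
  · show q.Q * (q.h * (1 - q.W)) * q.Z = -(q.Q * (q.h * (1 - q.W)))
    rw [mul_assoc, ← (Commute.mul_right (q.hc q.Z).symm h2).eq, ← mul_assoc, q.Q_Z, neg_mul]

theorem u_mul (i j k l : Fin 2) : q.u i j * q.u k l = if j = k then q.u i l else 0 := by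
  have e01 : q.u 0 1 = q.u 0 0 * q.J := rfl
  have e10 : q.u 1 0 = -(q.u 1 1 * q.J) := rfl
  have a00 := q.F0F0
  have a11 := q.F1F1
  have a01 := q.F0F1
  have a10 := q.F1F0
  have b0 := q.JF0
  have b1 := q.JF1
  have b00 : ∀ x, q.u 0 0 * (q.u 0 0 * x) = q.u 0 0 * x := fun x => by rw [← mul_assoc, a00]
  have b11 : ∀ x, q.u 1 1 * (q.u 1 1 * x) = q.u 1 1 * x := fun x => by rw [← mul_assoc, a11]
  have b01 : ∀ x, q.u 0 0 * (q.u 1 1 * x) = 0 := fun x => by rw [← mul_assoc, a01, zero_mul]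
  have b10 : ∀ x, q.u 1 1 * (q.u 0 0 * x) = 0 := fun x => by rw [← mul_assoc, a10, zero_mul]
  have c0 : ∀ x, q.J * (q.u 0 0 * x) = q.u 1 1 * (q.J * x) := fun x => by
    rw [← mul_assoc, b0, mul_assoc]
  have c1 : ∀ x, q.J * (q.u 1 1 * x) = q.u 0 0 * (q.J * x) := fun x => by
    rw [← mul_assoc, b1, mul_assoc]
  fin_cases i <;> fin_cases j <;> fin_cases k <;> fin_cases l <;>
    simp only [Fin.zero_eta, Fin.mk_one, Fin.isValue, e01, e10, mul_assoc, a00, a11, a01, a10, b0,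
      b1, b00, b11, b01, b10, c0, c1, q.hJ, q.FZ, mul_neg, neg_mul, neg_neg, neg_zero,
      Fin.reduceEq, if_true, if_false]

theorem u_diag : q.u 0 0 + q.u 1 1 = q.Q := by
  show q.Q * (q.h * (1 + q.W)) + q.Q * (q.h * (1 - q.W)) = q.Q
  rw [← mul_add, ← mul_add, show (1 : R) + q.W + (1 - q.W) = 1 + 1 by noncomm_ring, q.half, mul_one]

theorem P_u (i j : Fin 2) : q.P * q.u i j = 0 := by
  have h : q.P * q.Q = 0 := by rw [P_eq, sub_mul, one_mul, q.Q_mul_Q, sub_self]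
  fin_cases i <;> fin_cases j <;> simp [u, ← mul_assoc, h]

theorem u_P (i j : Fin 2) : q.u i j * q.P = 0 := by
  have h : Commute q.Q (q.u i j) := by
    have hh : Commute q.Q q.h := (q.hc q.Q).symm
    fin_cases i <;> fin_cases j
    · exact (Commute.refl _).mul_right (hh.mul_right q.cQp)
    · exact ((Commute.refl _).mul_right (hh.mul_right q.cQp)).mul_right q.Q_J
    · exact (((Commute.refl _).mul_right (hh.mul_right q.cQm)).mul_right q.Q_J).neg_right
    · exact (Commute.refl _).mul_right (hh.mul_right q.cQm)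
  rw [← q.P_u i j, P_eq, mul_sub, sub_mul, mul_one, one_mul, h.eq]

/-- Adding matrix units of the complementary corner. -/
theorem add_mul_add (e : Fin 2 → Fin 2 → R) (hP : ∀ i j, Commute q.P (e i j))
    (he : ∀ i j k l, e i j * e k l = if j = k then e i l else 0) (i j k l : Fin 2) :
    (q.u i j + q.P * e i j) * (q.u k l + q.P * e k l) =
      if j = k then q.u i l + q.P * e i l else 0 := by
  have h1 : q.u i j * (q.P * e k l) = 0 := by rw [← mul_assoc, q.u_P, zero_mul]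
  have h2 : q.P * e i j * q.u k l = 0 := by rw [(hP i j).eq, mul_assoc, q.P_u, mul_zero]
  have h3 : q.P * e i j * (q.P * e k l) = q.P * (e i j * e k l) := by
    rw [← mul_assoc, mul_assoc q.P (e i j), ← (hP i j).eq, ← mul_assoc, q.P_mul_P, mul_assoc]
  rw [add_mul, mul_add, mul_add, h1, h2, h3, q.u_mul, he, add_zero, zero_add]
  split_ifs <;> simp

/-- The formal adjoints of the corner elements. -/
theorem adjoint_diag (i : Fin 2) :
    q.Q * (q.h * (if i = 0 then 1 + -(q.Z * q.W) else 1 - -(q.Z * q.W))) = q.u i i := by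
  have h : q.Q * (q.Z * q.W) = -(q.Q * q.W) := by rw [← mul_assoc, q.Q_Z, neg_mul]
  have hh : ∀ x, q.Q * (q.h * x) = q.h * (q.Q * x) := fun x => by
    rw [← mul_assoc, ← q.hc q.Q, mul_assoc]
  fin_cases i <;> simp [u, hh, mul_add, h, sub_eq_add_neg]

theorem adjoint_off : q.Q * (q.Z * q.J * (q.h * (1 + -(q.Z * q.W)))) = q.u 1 0 := by
  show _ = -(q.Q * (q.h * (1 - q.W)) * q.J)
  have h := q.adjoint_diag 0
  rw [if_pos rfl] at h
  rw [show q.Q * (q.h * (1 - q.W)) * q.J = q.u 1 1 * q.J from rfl, ← q.JF0, ← h]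
  calc q.Q * (q.Z * q.J * (q.h * (1 + -(q.Z * q.W))))
      = (q.Q * q.Z) * (q.J * (q.h * (1 + -(q.Z * q.W)))) := by noncomm_ring
    _ = -((q.Q * q.J) * (q.h * (1 + -(q.Z * q.W)))) := by rw [q.Q_Z]; noncomm_ring
    _ = _ := by rw [q.Q_J.eq]; noncomm_ring

end Quat

end Vale.Agent.P095
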