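import Vale.Agent.P095.Upgrade.Defs
import Vale.Agent.P095.Upgrade.Seq
import Vale.Agent.P095.Upgrade.UnitsAlg
import Vale.Agent.P095.Shift

/-!
# P095: matrix units from approximate quaternion representations
-/

open scoped ComplexOrder
open Filter

namespace Vale.Agent.P095

variable {G B : Type*} [Group G] [CStarAlgebra B] [PartialOrder B] [StarOrderedRing B]

omit [PartialOrder B] [StarOrderedRing B] in
theorem norm_one_le' : ‖(1 : B)‖ ≤ 1 := by
  rcases subsingleton_or_nontrivial B with h | h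
  · simp [Subsingleton.elim (1 : B) 0]
  · exact CStarRing.norm_one.le

theorem norm_le_one_of_star_mul_self {x : B} (h : star x * x ≤ 1) : ‖x‖ ≤ 1 := by
  have h1 : ‖star x * x‖ ≤ 1 := (CStarAlgebra.norm_le_norm_of_nonneg_of_le
    (star_mul_self_nonneg x) h).trans norm_one_le'
  rw [CStarRing.norm_star_mul_self] at h1
  nlinarith [norm_nonneg x]

theorem norm_unitary_le {u : B} (h : star u * u = 1) : ‖u‖ ≤ 1 :=
  norm_le_one_of_star_mul_self h.le

/-- A convex combination of contractions with commuting weights is a contraction. -/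
theorem norm_combination_le {a b f g : B} (ha : IsSelfAdjoint a) (hb : IsSelfAdjoint b)
    (hab : a * b = b * a) (h1 : a * a + b * b = 1) (hf : ‖f‖ ≤ 1) (hg : ‖g‖ ≤ 1) :
    ‖a * f * a + b * g * b‖ ≤ 1 := by
  have contr : ∀ x : B, ‖x‖ ≤ 1 → star x * x ≤ 1 := fun x hx => by
    refine (CStarAlgebra.norm_le_one_iff_of_nonneg _ (star_mul_self_nonneg x)).1 ?_
    rw [CStarRing.norm_star_mul_self]
    nlinarith [norm_nonneg x]
  refine norm_le_one_of_star_mul_self ?_
  set x := b * f * a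
  set y := a * g * b
  have hxy : star x * y + star y * x ≤ star x * x + star y * y := by
    rw [← sub_nonneg]
    convert star_mul_self_nonneg (x - y) using 1
    simp only [star_sub]; noncomm_ring
  have e1 : star (a * f * a + b * g * b) * (a * f * a + b * g * b) =
      star (a * f * a) * (a * f * a) + star (b * g * b) * (b * g * b) +
        (star x * y + star y * x) := by
    have cr : ∀ z, b * (a * z) = a * (b * z) := fun z => by
      rw [← mul_assoc, ← hab, mul_assoc]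
    simp only [x, y, star_add, star_mul, ha.star_eq, hb.star_eq, add_mul, mul_add, mul_assoc, cr]
    abel
  have e2 : star (a * f * a) * (a * f * a) + star (b * g * b) * (b * g * b) +
      (star x * x + star y * y) = star a * (star f * f) * a + star b * (star g * g) * b := by
    calc _ = star a * star f * (a * a + b * b) * f * a
          + star b * star g * (a * a + b * b) * g * b := by
          simp only [x, y, star_mul, ha.star_eq, hb.star_eq]; noncomm_ring
      _ = _ := by rw [h1]; noncomm_ring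
  calc _ ≤ star (a * f * a) * (a * f * a) + star (b * g * b) * (b * g * b) +
        (star x * x + star y * y) := by rw [e1]; exact add_le_add le_rfl hxy
    _ ≤ star a * 1 * a + star b * 1 * b := by
        rw [e2]
        exact add_le_add (star_left_conjugate_le_conjugate (contr f hf) a)
          (star_left_conjugate_le_conjugate (contr g hg) b)
    _ = 1 := by rw [mul_one, mul_one, ha.star_eq, hb.star_eq, h1]

/-- `√z`. -/
noncomputable def cutA (z : B) : B := cfc Real.sqrt z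

/-- `√(1 - z)`. -/
noncomputable def cutB (z : B) : B := cfc (fun x => Real.sqrt (1 - x)) z

theorem cut_spec {z : B} (h0 : 0 ≤ z) (h1 : z ≤ 1) :
    cutA z * cutB z = cutB z * cutA z ∧ cutA z * cutA z + cutB z * cutB z = 1 ∧
      (cutA z - z) * (cutA z - z) ≤ z - z * z ∧
      (cutB z - (1 - z)) * (cutB z - (1 - z)) ≤ z - z * z ∧ ‖cutA z‖ ≤ 1 ∧ ‖cutB z‖ ≤ 1 := by
  have hs : IsSelfAdjoint z := IsSelfAdjoint.of_nonneg h0
  have hle : ∀ x ∈ spectrum ℝ z, 0 ≤ x ∧ x ≤ 1 := fun x hx =>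
    ⟨spectrum_nonneg_of_nonneg h0 hx,
      (le_algebraMap_iff_spectrum_le (R := ℝ) hs).1 (by simpa using h1) x hx⟩
  have cA : Continuous Real.sqrt := Real.continuous_sqrt
  have cB : Continuous fun x : ℝ => Real.sqrt (1 - x) := by fun_prop
  have ez : cfc (fun x : ℝ => x) z = z := cfc_id' ℝ z
  have ez2 : z - z * z = cfc (fun x : ℝ => x - x * x) z := by
    rw [cfc_sub (fun x : ℝ => x) (fun x => x * x) z (by fun_prop) (by fun_prop),
      cfc_mul (fun x : ℝ => x) (fun x => x) z (by fun_prop) (by fun_prop), ez]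
  have ew : 1 - z = cfc (fun x : ℝ => 1 - x) z := by
    rw [cfc_sub (fun _ : ℝ => (1 : ℝ)) (fun x => x) z (by fun_prop) (by fun_prop),
      cfc_const_one ℝ z, ez]
  refine ⟨(cfc_commute_cfc _ _ z).eq, ?_, ?_, ?_, ?_, ?_⟩
  · rw [cutA, cutB, ← cfc_mul _ _ z cA.continuousOn cA.continuousOn,
      ← cfc_mul _ _ z cB.continuousOn cB.continuousOn,
      ← cfc_add z _ _ (cA.fun_mul cA).continuousOn (cB.fun_mul cB).continuousOn,
      ← cfc_const_one ℝ z]
    refine cfc_congr fun x hx => ?_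
    obtain ⟨hx0, hx1⟩ := hle x hx
    rw [Real.mul_self_sqrt hx0, Real.mul_self_sqrt (sub_nonneg.2 hx1)]; ring
  · nth_rw 2 4 [← ez]
    rw [cutA, ← cfc_sub _ _ z cA.continuousOn (by fun_prop),
      ← cfc_mul _ _ z (by fun_prop) (by fun_prop), ez2]
    refine cfc_mono (fun x hx => ?_) (by fun_prop) (by fun_prop)
    obtain ⟨hx0, hx1⟩ := hle x hx
    nlinarith [Real.mul_self_sqrt hx0, Real.sqrt_nonneg x, Real.sqrt_le_one.2 hx1]
  · rw [cutB, ew, ← cfc_sub _ _ z cB.continuousOn (by fun_prop),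
      ← cfc_mul _ _ z (by fun_prop) (by fun_prop), ez2]
    refine cfc_mono (fun x hx => ?_) (by fun_prop) (by fun_prop)
    obtain ⟨hx0, hx1⟩ := hle x hx
    have hu : 0 ≤ 1 - x := sub_nonneg.2 hx1
    have hs1 : 0 ≤ 1 - Real.sqrt (1 - x) :=
      sub_nonneg.2 (Real.sqrt_le_one.2 (show 1 - x ≤ 1 by linarith))
    nlinarith [Real.mul_self_sqrt hu, Real.sqrt_nonneg (1 - x), mul_nonneg hu hs1,
      mul_nonneg (mul_nonneg hu (Real.sqrt_nonneg (1 - x))) hs1]
  · exact norm_cfc_le zero_le_one fun x hx => by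
      rw [Real.norm_of_nonneg (Real.sqrt_nonneg _)]; exact Real.sqrt_le_one.2 (hle x hx).2
  · exact norm_cfc_le zero_le_one fun x hx => by
      rw [Real.norm_of_nonneg (Real.sqrt_nonneg _)]
      exact Real.sqrt_le_one.2 (by linarith [(hle x hx).1])

/-- The trace of a cut: `z` halves traces when `Z` has trace zero. -/
theorem Tr.half_trace (ω : Tr B) {Z : B} (hZ : star Z * Z = 1) (y : B) :
    ω.nrm ((1 / 2 : ℂ) • (1 + Z) * y) ^ 2 ≤
      ω.nrm y ^ 2 / 2 + ‖ω.f (y * star y * Z)‖ / 2 := by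
  set c := y * star y
  have hc : star c = c := (IsSelfAdjoint.mul_star_self y).star_eq
  have e1 : star ((1 / 2 : ℂ) • (1 + Z) * y) * ((1 / 2 : ℂ) • (1 + Z) * y) =
      (1 / 4 : ℂ) • (star y * ((2 : ℂ) • 1 + Z + star Z) * y) := by
    rw [star_mul, star_smul, star_add, star_one]
    simp only [smul_mul_assoc, mul_smul_comm, smul_smul]
    rw [show (1 / 4 : ℂ) = 1 / 2 * star (1 / 2 : ℂ) by norm_num,
      mul_assoc (star y), mul_assoc (star y) ((2 : ℂ) • (1 : B) + Z + star Z),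
      ← mul_assoc (1 + star Z) (1 + Z)]
    congr 3
    rw [add_mul, mul_add, mul_add, hZ, two_smul]; noncomm_ring
  have e2 : ω.f (star Z * c) = star (ω.f (c * Z)) := by
    rw [← map_star, star_mul, hc]
  have e3 : ω.f (Z * c) = ω.f (c * Z) := ω.tracial _ _
  have e4 : ω.f c = ((ω.nrm y ^ 2 : ℝ) : ℂ) := by
    rw [← ω.nrm_star y, ω.nrm_sq, star_star]
  rw [ω.nrm_sq_re, e1, map_smul, mul_assoc, ω.tracial, mul_assoc]
  simp only [add_mul, smul_mul_assoc, one_mul, map_add, map_smul, smul_eq_mul]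
  rw [e2, e3, e4]
  have := (Complex.re_le_norm (ω.f (c * Z)))
  simp only [one_div, Complex.mul_re, Complex.add_re, Complex.add_im, Complex.ofReal_re,
    Complex.ofReal_im, Complex.star_def, Complex.conj_re, Complex.conj_im]
  norm_num
  linarith

/-- Approximate matrix units whose defect of completeness is `2⁻ʳ`. -/
def MUGoal (S : Sys G B) (r : ℕ) : Prop :=
  ∀ (C : Finset B) (K : Finset G) (η : ℝ), 0 < η →
    ∃ e : Fin 2 → Fin 2 → B, (∀ i j, ‖e i j‖ ≤ 1) ∧ ∀ ω ∈ S.Ω,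
      (∀ c ∈ C, ∀ i j, Commute (ω.rep c) (ω.rep (e i j))) ∧
      (∀ i j k l, ω.nrm (e i j * e k l - (if j = k then e i l else 0)) ≤ η) ∧
      (∀ i j, ω.nrm (star (e i j) - e j i) ≤ η) ∧
      ω.nrm (1 - e 0 0 - e 1 1) ^ 2 ≤ (1 / 2) ^ r + η ∧
      ∀ k ∈ K, ∀ i j, ω.nrm (S.α k (e i j) - e i j) ≤ η

theorem muGoal_zero (S : Sys G B) : MUGoal S 0 := by
  intro C K η hη
  refine ⟨0, fun i j => by simp, fun ω _ => ⟨fun c _ i j => by simp, fun i j k l => ?_,
    fun i j => ?_, ?_, fun k _ i j => ?_⟩⟩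
  all_goals simp [ω.nrm_zero, ω.nrm_one, hη.le]

/-- The accuracies of the approximating sequence. -/
noncomputable def ep (m : ℕ) : ℝ := 1 / ((m : ℝ) + 1)

theorem ep_pos (m : ℕ) : 0 < ep m := Nat.one_div_pos_of_nat

theorem tendsto_ep : Tendsto ep atTop (nhds 0) := tendsto_one_div_add_atTop_nhds_zero_nat

/-- The two steps of the induction, with accuracy `ep m`. -/
structure Step (S : Sys G B) (C : Finset B) (K : Finset G) (r : ℕ) where
  e : ℕ → Fin 2 → Fin 2 → B
  I : ℕ → B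
  J : ℕ → B
  Z : ℕ → B
  norm_e : ∀ m i j, ‖e m i j‖ ≤ 1
  uI : ∀ m, star (I m) * I m = 1 ∧ I m * star (I m) = 1
  uJ : ∀ m, star (J m) * J m = 1 ∧ J m * star (J m) = 1
  uZ : ∀ m, star (Z m) * Z m = 1 ∧ Z m * star (Z m) = 1
  comm : ∀ m, ∀ ω ∈ S.Ω, ∀ c ∈ C, (∀ i j, Commute (ω.rep c) (ω.rep (e m i j))) ∧
    Commute (ω.rep c) (ω.rep (I m)) ∧ Commute (ω.rep c) (ω.rep (J m)) ∧
      Commute (ω.rep c) (ω.rep (Z m))
  comm_Ze : ∀ m, ∀ ω ∈ S.Ω, ∀ i j, Commute (ω.rep (Z m)) (ω.rep (e m i j))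
  rel : ∀ m, ∀ ω ∈ S.Ω, ω.nrm (I m * I m - Z m) ≤ ep m ∧ ω.nrm (J m * J m - Z m) ≤ ep m ∧
    ω.nrm (Z m * Z m - 1) ≤ ep m ∧ ω.nrm (I m * J m - Z m * (J m * I m)) ≤ ep m
  e_mul : ∀ m, ∀ ω ∈ S.Ω, ∀ i j k l,
    ω.nrm (e m i j * e m k l - (if j = k then e m i l else 0)) ≤ ep m
  e_star : ∀ m, ∀ ω ∈ S.Ω, ∀ i j, ω.nrm (star (e m i j) - e m j i) ≤ ep m
  e_defect : ∀ m, ∀ ω ∈ S.Ω, ω.nrm (1 - e m 0 0 - e m 1 1) ^ 2 ≤ (1 / 2) ^ r + ep m
  trace_Z : ∀ m, ∀ ω ∈ S.Ω,
    ‖ω.f ((1 - e m 0 0 - e m 1 1) * star (1 - e m 0 0 - e m 1 1) * Z m)‖ ≤ 9 * ep m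
  fix_e : ∀ m, ∀ ω ∈ S.Ω, ∀ k ∈ K, ∀ i j, ω.nrm (S.α k (e m i j) - e m i j) ≤ ep m
  fix_u : ∀ m, ∀ ω ∈ S.Ω, ∀ k ∈ K, ω.nrm (S.α k (I m) - I m) ≤ ep m ∧
    ω.nrm (S.α k (J m) - J m) ≤ ep m ∧ ω.nrm (S.α k (Z m) - Z m) ≤ ep m

open Classical in
theorem exists_quatStep {S : Sys G B} (hs : StageGoal S) {r : ℕ} (hr : MUGoal S r) (C : Finset B)
    (K : Finset G) : Nonempty (Step S C K r) := by
  choose e hen he using fun m => hr C K (ep m) (ep_pos m)
  set y : ℕ → B := fun m => 1 - e m 0 0 - e m 1 1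
  set D : ℕ → Finset B := fun m => insert (y m * star (y m))
    (C ∪ Finset.univ.image fun ij : Fin 2 × Fin 2 => e m ij.1 ij.2)
  choose I J Z hu hst using fun m => hs (D m) K (ep m) (ep_pos m)
  have hC : ∀ m, ∀ c ∈ C, c ∈ D m := fun m c hc =>
    Finset.mem_insert_of_mem (Finset.mem_union_left _ hc)
  have hy : ∀ m, ‖y m * star (y m)‖ ≤ 9 := fun m => by
    have : ‖y m‖ ≤ 3 := (norm_sub_le _ _).trans (by
      linarith [norm_sub_le (1 : B) (e m 0 0), norm_one_le' (B := B), hen m 0 0, hen m 1 1])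
    rw [CStarRing.norm_self_mul_star]
    nlinarith [norm_nonneg (y m)]
  refine ⟨⟨e, I, J, Z, hen, fun m => hu m _ (by simp), fun m => hu m _ (by simp),
    fun m => hu m _ (by simp),
    fun m ω hω c hc => ⟨fun i j => (he m ω hω).1 c hc i j,
      (hst m ω hω).1 c (hC m c hc) _ (by simp), (hst m ω hω).1 c (hC m c hc) _ (by simp),
      (hst m ω hω).1 c (hC m c hc) _ (by simp)⟩,
    fun m ω hω i j => ((hst m ω hω).1 (e m i j) (Finset.mem_insert_of_mem
      (Finset.mem_union_right _ (Finset.mem_image_of_mem _ (Finset.mem_univ (i, j)))))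
      (Z m) (by simp)).symm,
    fun m ω hω => ?_, fun m ω hω => (he m ω hω).2.1, fun m ω hω => (he m ω hω).2.2.1,
    fun m ω hω => (he m ω hω).2.2.2.1, fun m ω hω => ?_, fun m ω hω => (he m ω hω).2.2.2.2,
    fun m ω hω k hk => ?_⟩⟩
  · obtain ⟨-, h1, h2, h3, h4, -⟩ := hst m ω hω
    exact ⟨h1, h2, h3, h4⟩
  · refine ((hst m ω hω).2.2.2.2.2.2 _ (Finset.mem_insert_self _ _)).trans ?_
    rw [mul_comm (9 : ℝ)]
    exact mul_le_mul_of_nonneg_left (hy m) (ep_pos m).le
  · have h := (hst m ω hω).2.2.2.2.2.1 k hk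
    exact ⟨h _ (by simp), h _ (by simp), h _ (by simp)⟩

theorem norm_half {x : B} (hx : ‖x‖ ≤ 1) : ‖(1 / 2 : ℂ) • (1 + x)‖ ≤ 1 := by
  rw [norm_smul]
  norm_num
  linarith [norm_add_le (1 : B) x, norm_one_le' (B := B)]

omit [PartialOrder B] [StarOrderedRing B] in
theorem star_cfc_real (g : ℝ → ℝ) (z : B) : star (cfc g z) = cfc g z :=
  (cfc_predicate g z : IsSelfAdjoint (cfc g z)).star_eq

namespace Step

variable {S : Sys G B} {C : Finset B} {K : Finset G} {r : ℕ} (d : Step S C K r)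

/-- `-i I`. -/
noncomputable def W (m : ℕ) : B := (-Complex.I) • d.I m

theorem uW (m : ℕ) : star (d.W m) * d.W m = 1 ∧ d.W m * star (d.W m) = 1 := by
  simp [W, star_smul, smul_smul, d.uI m]

theorem norm_W (m : ℕ) : ‖d.W m‖ ≤ 1 := norm_unitary_le (d.uW m).1

theorem norm_J (m : ℕ) : ‖d.J m‖ ≤ 1 := norm_unitary_le (d.uJ m).1

theorem norm_Z (m : ℕ) : ‖d.Z m‖ ≤ 1 := norm_unitary_le (d.uZ m).1

/-- `(1 + Z)/2`. -/
noncomputable def Pm (m : ℕ) : B := (1 / 2 : ℂ) • (1 + d.Z m)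

theorem norm_Pm (m : ℕ) : ‖d.Pm m‖ ≤ 1 := norm_half (d.norm_Z m)

/-- The positive element cutting off the part `Z = -1`. -/
noncomputable def z (m : ℕ) : B := star (d.Pm m) * d.Pm m

theorem norm_z (m : ℕ) : ‖d.z m‖ ≤ 1 := by
  rw [z, CStarRing.norm_star_mul_self]
  nlinarith [d.norm_Pm m, norm_nonneg (d.Pm m)]

theorem z_sa (m : ℕ) : IsSelfAdjoint (d.z m) := IsSelfAdjoint.star_mul_self _

theorem cuts (m : ℕ) : cutA (d.z m) * cutB (d.z m) = cutB (d.z m) * cutA (d.z m) ∧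
    cutA (d.z m) * cutA (d.z m) + cutB (d.z m) * cutB (d.z m) = 1 ∧
    (cutA (d.z m) - d.z m) * (cutA (d.z m) - d.z m) ≤ d.z m - d.z m * d.z m ∧
    (cutB (d.z m) - (1 - d.z m)) * (cutB (d.z m) - (1 - d.z m)) ≤ d.z m - d.z m * d.z m ∧
    ‖cutA (d.z m)‖ ≤ 1 ∧ ‖cutB (d.z m)‖ ≤ 1 :=
  cut_spec (star_mul_self_nonneg _)
    ((CStarAlgebra.norm_le_one_iff_of_nonneg _ (star_mul_self_nonneg _)).1 (d.norm_z m))

/-- The corner elements. -/
noncomputable def f (m : ℕ) : Fin 2 → Fin 2 → B :=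
  ![![(1 / 2 : ℂ) • (1 + d.W m), (1 / 2 : ℂ) • (1 + d.W m) * d.J m],
    ![star ((1 / 2 : ℂ) • (1 + d.W m) * d.J m), (1 / 2 : ℂ) • (1 - d.W m)]]

theorem norm_f (m : ℕ) (i j : Fin 2) : ‖d.f m i j‖ ≤ 1 := by
  have h01 : ‖(1 / 2 : ℂ) • (1 + d.W m) * d.J m‖ ≤ 1 :=
    (norm_mul_le _ _).trans (mul_le_one₀ (norm_half (d.norm_W m)) (norm_nonneg _) (d.norm_J m))
  fin_cases i <;> fin_cases j
  · exact norm_half (d.norm_W m)
  · exact h01
  · exact (norm_star _).trans_le h01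
  · show ‖(1 / 2 : ℂ) • (1 - d.W m)‖ ≤ 1
    rw [sub_eq_add_neg]
    exact norm_half (by rw [norm_neg]; exact d.norm_W m)

/-- The new matrix units. -/
noncomputable def E (m : ℕ) (i j : Fin 2) : B :=
  cutB (d.z m) * d.f m i j * cutB (d.z m) + cutA (d.z m) * d.e m i j * cutA (d.z m)

theorem norm_E (m : ℕ) (i j : Fin 2) : ‖d.E m i j‖ ≤ 1 :=
  norm_combination_le (cfc_predicate _ _) (cfc_predicate _ _) (d.cuts m).1.symm
    (by rw [add_comm]; exact (d.cuts m).2.1) (d.norm_f m i j) (d.norm_e m i j)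

theorem comm_E {m : ℕ} {ω : Tr B} (hω : ω ∈ S.Ω) {c : B} (hc : c ∈ C) (i j : Fin 2) :
    Commute (ω.rep c) (ω.rep (d.E m i j)) := by
  obtain ⟨ce, cI, cJ, cZ⟩ := d.comm m ω hω c hc
  have cW : Commute (ω.rep c) (ω.rep (d.W m)) := by
    simpa only [W, map_smul] using cI.smul_right (-Complex.I)
  have cst : ∀ u : B, star u * u = 1 → u * star u = 1 → Commute (ω.rep c) (ω.rep u) →
      Commute (ω.rep c) (ω.rep (star u)) := fun u h h' hcu =>
    Commute.units_inv_right (u := ⟨ω.rep u, ω.rep (star u), by rw [← map_mul, h', map_one],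
      by rw [← map_mul, h, map_one]⟩) hcu
  have cWs := cst _ (d.uW m).1 (d.uW m).2 cW
  have cJs := cst _ (d.uJ m).1 (d.uJ m).2 cJ
  have cZs := cst _ (d.uZ m).1 (d.uZ m).2 cZ
  have c1 : Commute (ω.rep c) (ω.rep 1) := by rw [map_one]; exact Commute.one_right _
  have ch : ∀ x, Commute (ω.rep c) (ω.rep x) →
      Commute (ω.rep c) (ω.rep ((1 / 2 : ℂ) • (1 + x))) := fun x hx => by
    rw [map_smul, map_add]; exact (c1.add_right hx).smul_right _
  have cfW : Commute (ω.rep c) (ω.rep (d.f m i j)) := by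
    fin_cases i <;> fin_cases j
    · exact ch _ cW
    · show Commute _ (ω.rep (_ * _))
      rw [map_mul]; exact (ch _ cW).mul_right cJ
    · show Commute _ (ω.rep (star ((1 / 2 : ℂ) • (1 + d.W m) * d.J m)))
      rw [star_mul, star_smul, star_add, star_one, map_mul]
      refine cJs.mul_right ?_
      rw [map_smul, map_add]; exact (c1.add_right cWs).smul_right _
    · show Commute _ (ω.rep ((1 / 2 : ℂ) • (1 - d.W m)))
      rw [map_smul, map_sub]; exact (c1.sub_right cW).smul_right _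
  have cz : Commute (ω.rep c) (ω.rep (d.z m)) := by
    rw [z, map_mul]
    refine Commute.mul_right ?_ (ch _ cZ)
    rw [Pm, star_smul, star_add, star_one, map_smul, map_add]
    exact (c1.add_right cZs).smul_right _
  have cA := commute_rep_cfc ω (d.z_sa m) c Real.sqrt Real.continuous_sqrt cz
  have cB := commute_rep_cfc ω (d.z_sa m) c (fun x => Real.sqrt (1 - x)) (by fun_prop) cz
  simp only [E, cutA, cutB, map_add, map_mul]
  exact ((cB.mul_right cfW).mul_right cB).add_right ((cA.mul_right (ce i j)).mul_right cA)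

noncomputable def sW : Seq B := seqOf d.W 1 d.norm_W
noncomputable def sJ : Seq B := seqOf d.J 1 d.norm_J
noncomputable def sZ : Seq B := seqOf d.Z 1 d.norm_Z
noncomputable def sWs : Seq B :=
  seqOf (fun m => star (d.W m)) 1 fun m => (norm_star _).trans_le (d.norm_W m)
noncomputable def sJs : Seq B :=
  seqOf (fun m => star (d.J m)) 1 fun m => (norm_star _).trans_le (d.norm_J m)
noncomputable def sZs : Seq B :=
  seqOf (fun m => star (d.Z m)) 1 fun m => (norm_star _).trans_le (d.norm_Z m)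
noncomputable def sP : Seq B := seqOf d.Pm 1 d.norm_Pm
noncomputable def sz : Seq B := seqOf d.z 1 d.norm_z
noncomputable def sA : Seq B := seqOf (fun m => cutA (d.z m)) 1 fun m => (d.cuts m).2.2.2.2.1
noncomputable def sB : Seq B := seqOf (fun m => cutB (d.z m)) 1 fun m => (d.cuts m).2.2.2.2.2
noncomputable def se (i j : Fin 2) : Seq B := seqOf (fun m => d.e m i j) 1 fun m => d.norm_e m i j
noncomputable def ses (i j : Fin 2) : Seq B :=
  seqOf (fun m => star (d.e m i j)) 1 fun m => (norm_star _).trans_le (d.norm_e m i j)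
noncomputable def sf (i j : Fin 2) : Seq B := seqOf (fun m => d.f m i j) 1 fun m => d.norm_f m i j
noncomputable def sfs (i j : Fin 2) : Seq B :=
  seqOf (fun m => star (d.f m i j)) 1 fun m => (norm_star _).trans_le (d.norm_f m i j)
noncomputable def sE (i j : Fin 2) : Seq B := seqOf (fun m => d.E m i j) 1 fun m => d.norm_E m i j
noncomputable def sEs (i j : Fin 2) : Seq B :=
  seqOf (fun m => star (d.E m i j)) 1 fun m => (norm_star _).trans_le (d.norm_E m i j)

/-- The constant sequence `1/2`. -/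
noncomputable def sh (_d : Step S C K r) : Seq B :=
  seqOf (fun _ => (1 / 2 : ℂ) • 1) (1 / 2) fun _ => by
    rw [norm_smul]; norm_num; linarith [norm_one_le' (B := B)]

theorem qII : S.q d.sW * S.q d.sW = -S.q d.sZ := by
  rw [← map_mul, ← map_neg]
  refine Sys.q_of_le tendsto_ep fun m ω hω => ?_
  show ω.nrm (((-Complex.I) • d.I m) * ((-Complex.I) • d.I m) - -d.Z m) ≤ _
  rw [smul_mul_smul_comm, show (-Complex.I) * (-Complex.I) = -1 by simp,
    show (-1 : ℂ) • (d.I m * d.I m) - -d.Z m = (-1 : ℂ) • (d.I m * d.I m - d.Z m) by simp; abel,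
    ω.nrm_smul]
  simpa using (d.rel m ω hω).1

theorem qWJ : S.q d.sW * S.q d.sJ = S.q d.sZ * (S.q d.sJ * S.q d.sW) := by
  simp only [← map_mul]
  refine Sys.q_of_le tendsto_ep fun m ω hω => ?_
  show ω.nrm ((-Complex.I) • d.I m * d.J m - d.Z m * (d.J m * ((-Complex.I) • d.I m))) ≤ _
  rw [smul_mul_assoc, mul_smul_comm, mul_smul_comm, ← smul_sub, ω.nrm_smul]
  simpa using (d.rel m ω hω).2.2.2

/-- The quaternion relations in the quotient. -/
noncomputable def quat : Quat S.null.Quotient where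
  W := S.q d.sW
  J := S.q d.sJ
  Z := S.q d.sZ
  h := S.q d.sh
  hW := d.qII
  hJ := by rw [← map_mul]; exact Sys.q_of_le tendsto_ep fun m ω hω => (d.rel m ω hω).2.1
  hZ := by
    rw [← map_mul, ← map_one S.q]
    exact Sys.q_of_le tendsto_ep fun m ω hω => (d.rel m ω hω).2.2.1
  hWJ := d.qWJ
  hh := by
    rw [← map_add, ← map_one S.q]; congr 1; ext m
    simp [sh, ← add_smul]
    norm_num
  hc := fun x => by
    obtain ⟨x, rfl⟩ : ∃ s, S.q s = x := Quotient.mk''_surjective x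
    rw [← map_mul, ← map_mul]; congr 1; ext m
    simp [sh]

theorem q_inv {u us : Seq B} {v : S.null.Quotient} (h : ∀ m, us m * u m = 1)
    (h' : S.q u * v = 1) : S.q us = v :=
  left_inv_eq_right_inv (by rw [← map_mul, ← map_one S.q]; congr 1; ext m; exact h m) h'

theorem qWs : S.q d.sWs = -(d.quat.Z * d.quat.W) := by
  refine q_inv (u := d.sW) (fun m => (d.uW m).1) ?_
  exact d.quat.W_inv

theorem qJs : S.q d.sJs = d.quat.Z * d.quat.J := by
  refine q_inv (u := d.sJ) (fun m => (d.uJ m).1) ?_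
  exact d.quat.J_inv

theorem qZs : S.q d.sZs = d.quat.Z := q_inv (u := d.sZ) (fun m => (d.uZ m).1) d.quat.hZ

theorem qP : S.q d.sP = d.quat.P := by
  show _ = S.q d.sh * (1 + S.q d.sZ)
  rw [← map_one S.q, ← map_add, ← map_mul]; congr 1; ext m
  simp [sP, sh, Pm, sZ]

theorem qz : S.q d.sz = d.quat.P := by
  have : d.sz = d.sh * (1 + d.sZs) * d.sP := by
    ext m; simp [sz, sP, sh, z, Pm, sZs, star_smul]
  rw [this, map_mul, map_mul, map_add, map_one, qZs, qP]
  exact d.quat.P_mul_P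

theorem q_cut {x : ℕ → B} (hx : ∀ m, IsSelfAdjoint (x m)) {s t : Seq B}
    (hst : ∀ m, s m - t m = x m) (h : ∀ m, x m * x m ≤ d.z m - d.z m * d.z m) :
    S.q s = S.q t := by
  have q0 : S.q (d.sz - d.sz * d.sz) = S.q 0 := by
    rw [map_sub, map_mul, d.qz, d.quat.P_mul_P, sub_self, map_zero]
  refine Sys.q_of_sq q0 fun m ω hω => ?_
  show ω.nrm (s m - t m) ^ 2 ≤ ω.nrm (d.z m - d.z m * d.z m - 0)
  rw [hst, ω.nrm_sq_self (hx m), sub_zero]
  exact (ω.re_mono (h m)).trans ((le_abs_self _).trans (ω.abs_re_apply_le _))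

theorem qA : S.q d.sA = d.quat.P := by
  rw [← d.qz]
  exact d.q_cut (fun m => (cfc_predicate _ _ : IsSelfAdjoint (cutA (d.z m))).sub (d.z_sa m))
    (fun m => rfl) fun m => (d.cuts m).2.2.1

theorem qB : S.q d.sB = d.quat.Q := by
  rw [d.quat.Q_eq, ← d.qz, ← map_one S.q, ← map_sub]
  exact d.q_cut (fun m => (cfc_predicate _ _ : IsSelfAdjoint (cutB (d.z m))).sub
    ((IsSelfAdjoint.one B).sub (d.z_sa m))) (fun m => rfl) fun m => (d.cuts m).2.2.2.1

theorem qee (i j k l : Fin 2) :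
    S.q (d.se i j) * S.q (d.se k l) = if j = k then S.q (d.se i l) else 0 := by
  rw [← map_mul, show (if j = k then S.q (d.se i l) else 0) =
    S.q (if j = k then d.se i l else 0) by split_ifs <;> simp]
  exact Sys.q_of_le tendsto_ep fun m ω hω => by
    have := d.e_mul m ω hω i j k l
    split_ifs with h <;> simpa [se, h] using this

theorem qes (i j : Fin 2) : S.q (d.ses i j) = S.q (d.se j i) :=
  Sys.q_of_le tendsto_ep fun m ω hω => d.e_star m ω hω i j

theorem qPe (i j : Fin 2) : Commute d.quat.P (S.q (d.se i j)) := by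
  have hZe : S.q d.sZ * S.q (d.se i j) = S.q (d.se i j) * S.q d.sZ := by
    rw [← map_mul, ← map_mul]
    exact Sys.q_of_nrm_eq_zero fun m ω hω => (ω.commute_iff _ _).1 (d.comm_Ze m ω hω i j)
  exact Commute.mul_left (d.quat.hc _) ((Commute.one_left _).add_left hZe)

theorem f00 : d.sf 0 0 = d.sh * (1 + d.sW) := by ext m; simp [sf, f, sh, sW]
theorem f11 : d.sf 1 1 = d.sh * (1 - d.sW) := by ext m; simp [sf, f, sh, sW]
theorem f01 : d.sf 0 1 = d.sh * (1 + d.sW) * d.sJ := by ext m; simp [sf, f, sh, sW, sJ]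

theorem qf10 : S.q (d.sf 1 0) =
    d.quat.Z * d.quat.J * (d.quat.h * (1 + -(d.quat.Z * d.quat.W))) := by
  have : d.sf 1 0 = d.sJs * (d.sh * (1 + d.sWs)) := by
    ext m; simp [sf, f, sh, sWs, sJs, star_smul]
  rw [this, map_mul, map_mul, map_add, map_one, qWs, qJs]
  rfl

theorem Qf (i j : Fin 2) : d.quat.Q * S.q (d.sf i j) = d.quat.u i j := by
  fin_cases i <;> fin_cases j
  · show _ * S.q (d.sf 0 0) = _; rw [f00, map_mul, map_add, map_one]; rfl
  · show _ * S.q (d.sf 0 1) = _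
    rw [f01, map_mul, map_mul, map_add, map_one, ← mul_assoc]; rfl
  · show _ * S.q (d.sf 1 0) = _; rw [qf10]; exact d.quat.adjoint_off
  · show _ * S.q (d.sf 1 1) = _; rw [f11, map_mul, map_sub, map_one]; rfl

theorem Qfs (i j : Fin 2) : d.quat.Q * S.q (d.sfs i j) = d.quat.u j i := by
  fin_cases i <;> fin_cases j
  · show _ * S.q (d.sfs 0 0) = _
    have : d.sfs 0 0 = d.sh * (1 + d.sWs) := by ext m; simp [sfs, f, sh, sWs, star_smul]
    rw [this, map_mul, map_add, map_one, qWs]; exact d.quat.adjoint_diag 0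
  · show _ * S.q (d.sfs 0 1) = _
    have : d.sfs 0 1 = d.sf 1 0 := by ext m; simp [sfs, sf, f]
    rw [this]; exact d.Qf 1 0
  · show _ * S.q (d.sfs 1 0) = _
    have : d.sfs 1 0 = d.sf 0 1 := by ext m; simp [sfs, sf, f]
    rw [this]; exact d.Qf 0 1
  · show _ * S.q (d.sfs 1 1) = _
    have : d.sfs 1 1 = d.sh * (1 - d.sWs) := by ext m; simp [sfs, f, sh, sWs, star_smul]
    rw [this, map_mul, map_sub, map_one, qWs]; exact d.quat.adjoint_diag 1

theorem uQ (i j : Fin 2) : d.quat.u i j * d.quat.Q = d.quat.u i j := by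
  rw [d.quat.Q_eq, mul_sub, mul_one, d.quat.u_P, sub_zero]

theorem Pe (i j : Fin 2) :
    d.quat.P * S.q (d.se i j) * d.quat.P = d.quat.P * S.q (d.se i j) := by
  rw [mul_assoc, ← (d.qPe i j).eq, ← mul_assoc, d.quat.P_mul_P]

theorem qE (i j : Fin 2) : S.q (d.sE i j) = d.quat.u i j + d.quat.P * S.q (d.se i j) := by
  have : d.sE i j = d.sB * d.sf i j * d.sB + d.sA * d.se i j * d.sA := by ext m; rfl
  rw [this, map_add, map_mul, map_mul, map_mul, map_mul, qA, qB, Qf, uQ, Pe]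

theorem qEs (i j : Fin 2) : S.q (d.sEs i j) = d.quat.u j i + d.quat.P * S.q (d.se j i) := by
  have : d.sEs i j = d.sB * d.sfs i j * d.sB + d.sA * d.ses i j * d.sA := by
    ext m
    show star (d.E m i j) = _
    simp only [E, cutA, cutB, star_add, star_mul, star_cfc_real, mul_assoc]
    simp [sB, sA, sfs, ses, cutA, cutB]
  rw [this, map_add, map_mul, map_mul, map_mul, map_mul, qA, qB, Qfs, uQ, qes, Pe]

theorem mulE (i j k l : Fin 2) :
    S.q (d.sE i j * d.sE k l) = S.q (if j = k then d.sE i l else 0) := by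
  rw [map_mul, qE, qE, d.quat.add_mul_add _ d.qPe d.qee]
  split_ifs
  · rw [qE]
  · rw [map_zero]

theorem starE (i j : Fin 2) : S.q (d.sEs i j) = S.q (d.sE j i) := by rw [qEs, qE]

theorem defectE : S.q (1 - d.sE 0 0 - d.sE 1 1) = S.q (d.sP * (1 - d.se 0 0 - d.se 1 1)) := by
  rw [map_sub, map_sub, map_one, qE, qE, map_mul, qP, map_sub, map_sub, map_one, mul_sub, mul_sub,
    mul_one]
  conv_rhs => enter [1, 1]; rw [d.quat.P_eq, ← d.quat.u_diag]
  abel

theorem gen_fixed {k : G} {x : ℕ → B} {hx : ∀ m, ‖x m‖ ≤ 1}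
    (h : ∀ m, ∀ ω ∈ S.Ω, ω.nrm (S.α k (x m) - x m) ≤ ep m) :
    seqOf x 1 hx ∈ Sys.fixed (S := S) k := Sys.q_of_le tendsto_ep h

theorem fixed_W {k : G} (hk : k ∈ K) : d.sW ∈ Sys.fixed (S := S) k :=
  gen_fixed fun m ω hω => by
    rw [show S.α k (d.W m) - d.W m = (-Complex.I) • (S.α k (d.I m) - d.I m) by
      simp [W, smul_sub], ω.nrm_smul]
    simpa using (d.fix_u m ω hω k hk).1

theorem fixE {k : G} (hk : k ∈ K) (i j : Fin 2) :
    S.q (S.αSeq k (d.sE i j)) = S.q (d.sE i j) := by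
  show d.sE i j ∈ Sys.fixed (S := S) k
  have mW := d.fixed_W hk
  have mJ : d.sJ ∈ Sys.fixed (S := S) k := gen_fixed fun m ω hω => (d.fix_u m ω hω k hk).2.1
  have mZ : d.sZ ∈ Sys.fixed (S := S) k := gen_fixed fun m ω hω => (d.fix_u m ω hω k hk).2.2
  have me : d.se i j ∈ Sys.fixed (S := S) k := gen_fixed fun m ω hω => d.fix_e m ω hω k hk i j
  have mh : d.sh ∈ Sys.fixed (S := S) k := by
    show S.q (S.αSeq k d.sh) = S.q d.sh
    congr 1; ext m; simp [Sys.αSeq, sh, map_smul]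
  have mP : d.sh * (1 + d.sZ) ∈ Sys.fixed (S := S) k := mul_mem mh (add_mem (one_mem _) mZ)
  have mQ : d.sh * (1 - d.sZ) ∈ Sys.fixed (S := S) k := mul_mem mh (sub_mem (one_mem _) mZ)
  refine Sys.mem_fixed_of_eq
    (y := d.sh * (1 - d.sZ) * (![![d.sh * (1 + d.sW), d.sh * (1 + d.sW) * d.sJ],
      ![d.sZ * d.sJ * (d.sh * (1 + -(d.sZ * d.sW))), d.sh * (1 - d.sW)]] i j)
        + d.sh * (1 + d.sZ) * d.se i j) ?_ (add_mem (mul_mem mQ ?_) (mul_mem mP me))
  · rw [qE, map_add, map_mul, map_mul, ← d.Qf i j]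
    simp only [map_mul, map_add, map_sub, map_one]
    congr 1
    congr 1
    fin_cases i <;> fin_cases j
    · exact (congrArg S.q d.f00).trans (by rw [map_mul, map_add, map_one]; simp)
    · exact (congrArg S.q d.f01).trans (by rw [map_mul, map_mul, map_add, map_one]; simp)
    · exact d.qf10.trans (by simp [map_mul, map_add, map_neg]; rfl)
    · exact (congrArg S.q d.f11).trans (by rw [map_mul, map_sub, map_one]; simp)
  · fin_cases i <;> fin_cases j
    · exact mul_mem mh (add_mem (one_mem _) mW)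
    · exact mul_mem (mul_mem mh (add_mem (one_mem _) mW)) mJ
    · exact mul_mem (mul_mem mZ mJ)
        (mul_mem mh (add_mem (one_mem _) (neg_mem (mul_mem mZ mW))))
    · exact mul_mem mh (sub_mem (one_mem _) mW)

theorem defect_bound {m : ℕ} {ω : Tr B} (hω : ω ∈ S.Ω) {t η : ℝ} (ht1 : t ≤ 1)
    (ht2 : t ≤ η / 20) (hmt : ep m ≤ t)
    (h1 : ω.nrm (1 - d.E m 0 0 - d.E m 1 1 - d.Pm m * (1 - d.e m 0 0 - d.e m 1 1)) ≤ t) :
    ω.nrm (1 - d.E m 0 0 - d.E m 1 1) ^ 2 ≤ (1 / 2) ^ (r + 1) + η := by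
  set y := 1 - d.e m 0 0 - d.e m 1 1
  have h2 := ω.nrm_add (1 - d.E m 0 0 - d.E m 1 1 - d.Pm m * y) (d.Pm m * y)
  rw [sub_add_cancel] at h2
  have hy : ‖y‖ ≤ 3 := (norm_sub_le _ _).trans (by
    linarith [norm_sub_le (1 : B) (d.e m 0 0), norm_one_le' (B := B), d.norm_e m 0 0,
      d.norm_e m 1 1])
  have h3 : ω.nrm (d.Pm m * y) ≤ 3 := (ω.nrm_le_norm _).trans ((norm_mul_le _ _).trans
    (by nlinarith [d.norm_Pm m, norm_nonneg y, norm_nonneg (d.Pm m)]))
  have h4 : ω.nrm (d.Pm m * y) ^ 2 ≤ ω.nrm y ^ 2 / 2 + ‖ω.f (y * star y * d.Z m)‖ / 2 :=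
    ω.half_trace (d.uZ m).1 _
  have h5 := d.trace_Z m ω hω
  have h6 : ω.nrm y ^ 2 ≤ (1 / 2) ^ r + ep m := d.e_defect m ω hω
  have h9 := ω.nrm_nonneg (d.Pm m * y)
  have hd := ω.nrm_nonneg (1 - d.E m 0 0 - d.E m 1 1)
  have h10 := pow_le_pow_left₀ hd
    (h2.trans (add_le_add h1 le_rfl) : _ ≤ t + ω.nrm (d.Pm m * y)) 2
  have ht : 0 ≤ t := (ep_pos m).le.trans hmt
  rw [show (1 / 2 : ℝ) ^ (r + 1) = (1 / 2) ^ r / 2 by rw [pow_succ]; ring]
  nlinarith [mul_le_mul_of_nonneg_left h3 ht, mul_le_mul_of_nonneg_left ht1 ht]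

end Step

theorem muGoal_succ (S : Sys G B) (hs : StageGoal S) (r : ℕ) (hr : MUGoal S r) :
    MUGoal S (r + 1) := by
  intro C K η hη
  obtain ⟨d⟩ := exists_quatStep hs hr C K
  set t := min 1 (η / 20)
  have ht : 0 < t := lt_min one_pos (by linarith)
  have ht2 : t ≤ η / 20 := min_le_right _ _
  obtain ⟨m, hm1, hm2, hm3, hm4, hm5⟩ := ((eventually_all.2 fun i => eventually_all.2 fun j =>
    eventually_all.2 fun k => eventually_all.2 fun l =>
      Sys.eventually_le (d.mulE i j k l) ht).and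
    ((eventually_all.2 fun i => eventually_all.2 fun j => Sys.eventually_le (d.starE i j) ht).and
    ((Sys.eventually_le d.defectE ht).and
    (((Finset.eventually_all K).2 fun k hk => eventually_all.2 fun i => eventually_all.2 fun j =>
      Sys.eventually_le (d.fixE hk i j) ht).and
    (tendsto_ep.eventually (Iio_mem_nhds ht)))))).exists
  refine ⟨d.E m, d.norm_E m, fun ω hω => ⟨fun c hc i j => d.comm_E hω hc i j,
    fun i j k l => le_trans ?_ (show t ≤ η by linarith),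
    fun i j => le_trans (hm2 i j ω hω) (by linarith),
    d.defect_bound hω (min_le_left _ _) ht2 (le_of_lt hm5) (hm3 ω hω),
    fun k hk i j => le_trans (hm4 k hk i j ω hω) (by linarith)⟩⟩
  have := hm1 i j k l ω hω
  split_ifs with h <;> simpa [Step.sE, h] using this

theorem muGoal (S : Sys G B) (hs : StageGoal S) : ∀ r, MUGoal S r
  | 0 => muGoal_zero S
  | r + 1 => muGoal_succ S hs r (muGoal S hs r)

/-- Almost invariant central `M₂` from almost invariant central quaternion representations. -/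
theorem mcduff_goal (S : Sys G B) (hs : StageGoal S) : McDuffGoal S := by
  intro C K ε hε
  obtain ⟨r, hr⟩ := exists_pow_lt_of_lt_one (x := ε ^ 2 / 2) (y := (1 / 2 : ℝ)) (by positivity)
    (by norm_num)
  obtain ⟨e, hn, he⟩ := muGoal S hs r C K (min ε (ε ^ 2 / 2)) (lt_min hε (by positivity))
  refine ⟨e, hn, fun ω hω => ?_⟩
  obtain ⟨h1, h2, h3, h4, h5⟩ := he ω hω
  have hm := min_le_left ε (ε ^ 2 / 2)
  refine ⟨h1, fun i j k l => (h2 i j k l).trans hm, fun i j => (h3 i j).trans hm, ?_,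
    fun k hk i j => (h5 k hk i j).trans hm⟩
  rw [show e 0 0 + e 1 1 - 1 = (-1 : ℂ) • (1 - e 0 0 - e 1 1) by simp; abel, ω.nrm_smul,
    norm_neg, norm_one, one_mul]
  exact (sq_le_sq₀ (ω.nrm_nonneg _) hε.le).1 (by linarith [min_le_right ε (ε ^ 2 / 2)])

end Vale.Agent.P095
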