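import Vale.Agent.P095.Upgrade.Sample
import Vale.Agent.P095.Upgrade.Units
import Vale.Agent.P095.Upgrade.Stage
import Vale.Agent.P095.Upgrade.Copy
import Vale.Agent.P095.Upgrade.Partition

/-!
# P095: equivariant uniform McDuff in every system over an amenable group
-/

open scoped ComplexOrder

namespace Vale.Agent.P095

variable {G B : Type*} [Group G] [CStarAlgebra B] [PartialOrder B] [StarOrderedRing B]

open Classical in
/-- For a group with the Følner property every system has almost invariant central `M₂`. -/
theorem mcDuffGoal_of_foelner (hG : Foelner G) (S : Sys G B) : McDuffGoal S :=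
  mcduff_goal S (stage_goal S (copy_goal S
    (sample_goal hG S (model_goal S) ramp_goal ramp_idem_goal (root_goal S))
    (partition_goal hG S)))

end Vale.Agent.P095
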