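import Vale.Agent.P095.Gamma
import Vale.Agent.P095.Upgrade.Defs
import Vale.Agent.P095.Upgrade.MainDefs

/-!
# P095: from bounded sequences back to the algebra
-/

open scoped ComplexOrder
open Filter Topology

namespace Vale.Agent.P095

variable {G A : Type*} [Group G] [CStarAlgebra A]

/-- Almost invariant matrix units among the bounded sequences give equivariant uniform McDuffness
of the algebra. -/
theorem hasEquivariantUniformMcDuff_of_goal (hA : IsUniformlyMcDuff A)
    (α : G → A ≃⋆ₐ[ℂ] A) (hα : ∀ g h a, α (g * h) a = α g (α h a))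
    (hgoal : ∀ [Nontrivial A], McDuffGoal (seqSys hA α hα)) :
    HasEquivariantUniformMcDuff α := by
  classical
  intro C K ε hε
  rcases subsingleton_or_nontrivial A with hs | hs
  · exact ⟨fun _ _ => 0, fun _ _ => by simp,
      fun i j k l τ h => absurd h (not_tracial_of_subsingleton τ),
      fun i j τ h => absurd h (not_tracial_of_subsingleton τ),
      fun τ h => absurd h (not_tracial_of_subsingleton τ),
      fun c _ i j τ h => absurd h (not_tracial_of_subsingleton τ),
      fun k _ i j τ h => absurd h (not_tracial_of_subsingleton τ)⟩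
  set ε' := min (ε / 2) 1 with hε'
  have he : 0 < ε' := lt_min (by positivity) one_pos
  obtain ⟨e, hen, heω⟩ := hgoal (C.image BSeq.const) K ε' he
  let z : (Fin 2 × Fin 2 × Fin 2 × Fin 2) ⊕ (Fin 2 × Fin 2) ⊕ Unit ⊕ (C × Fin 2 × Fin 2) ⊕
      (K × Fin 2 × Fin 2) → BSeq A := fun j => match j with
    | .inl (a, b, c, d) => e a b * e c d - (if b = c then e a d else 0)
    | .inr (.inl (a, b)) => star (e a b) - e b a
    | .inr (.inr (.inl _)) => e 0 0 + e 1 1 - 1
    | .inr (.inr (.inr (.inl (c, a, b)))) => BSeq.const c.1 * e a b - e a b * BSeq.const c.1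
    | .inr (.inr (.inr (.inr (k, a, b)))) => mapSeq (α k.1) (e a b) - e a b
  have hsmall : ∀ ω ∈ limTraces A, ∀ j, ω.nrm (z j) ^ 2 < ε := by
    intro ω hω j
    obtain ⟨hc, hm, hstar, hone, hk⟩ := heω ω hω
    have key : ∀ x : BSeq A, ω.nrm x ≤ ε' → ω.nrm x ^ 2 < ε := fun x hx => by
      nlinarith [ω.nrm_nonneg x, min_le_left (ε / 2) 1, min_le_right (ε / 2) 1]
    rcases j with ⟨a, b, c, d⟩ | ⟨a, b⟩ | _ | ⟨c, a, b⟩ | ⟨k, a, b⟩
    · exact key _ (hm a b c d)
    · exact key _ (hstar a b)
    · exact key _ hone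
    · refine key _ ?_
      rw [show ω.nrm (z (.inr (.inr (.inr (.inl (c, a, b)))))) = 0 from
        (ω.commute_iff _ _).1 (hc _ (Finset.mem_image_of_mem _ c.2) a b)]
      exact he.le
    · exact key _ (hk k.1 k.2 a b)
  obtain ⟨i, hi⟩ := exists_index
    (fun j i τ => (τ (star ((z j).get i) * (z j).get i)).re) (fun j ω => ω.nrm (z j) ^ 2)
    (fun j τ h => tendsto_twoNorm h _) ε hsmall
  refine ⟨fun a b => (e a b).get i, fun a b => (BSeq.norm_get_le _ i).trans (hen a b),
    fun a b c d τ h => ?_, fun a b τ h => ?_, fun τ h => ?_, fun c hc a b τ h => ?_,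
    fun k hk a b τ h => ?_⟩
  · have := hi τ h (.inl (a, b, c, d))
    simp only [z] at this
    split_ifs at this ⊢ <;> simpa using this
  · simpa [z] using hi τ h (.inr (.inl (a, b)))
  · simpa [z] using hi τ h (.inr (.inr (.inl ())))
  · simpa [z] using hi τ h (.inr (.inr (.inr (.inl (⟨c, hc⟩, a, b)))))
  · simpa [z] using hi τ h (.inr (.inr (.inr (.inr (⟨k, hk⟩, a, b)))))

end Vale.Agent.P095
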