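import Vale.Agent.P095.Upgrade.ModelForms

/-!
# P095: sampled Gram concentration, `x ↦ x q(x)` of the averaged rows models `M₂`
-/

open scoped ComplexOrder InnerProductSpace
open Complex Finset

namespace Vale.Agent.P095

variable {G B : Type*} [Group G] [CStarAlgebra B] [PartialOrder B] [StarOrderedRing B]
  {S : Sys G B} {C : Finset B} {F : Finset G} {n : ℕ} (P : Rows S C F n)

namespace Rows

/-- The middle matrix. -/
noncomputable def chi (g h : G) : B := (((n : ℝ)⁻¹ : ℝ) : ℂ) • ∑ b, P.r g b * star (P.r h b)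

/-- The row of a sign vector. -/
noncomputable def sv (s : Fin n → Bool) (g : G) : B := P.row (signVec s) g

theorem Y_eq (v : Fin n → ℂ) : P.Y v = avgSq F (P.row v) := by
  rw [Rows.Y, avgSq, ← Complex.coe_smul]

theorem signVec_eq (s : Fin n → Bool) (b : Fin n) :
    signVec s b = ((sg (s b) * (Real.sqrt n)⁻¹ : ℝ) : ℂ) := by
  simp only [signVec, sg]; split_ifs <;> simp

theorem sv_eq (s : Fin n → Bool) (g : G) :
    P.sv s g = ∑ b, ((sg (s b) * (Real.sqrt n)⁻¹ : ℝ) : ℂ) • P.r g b := by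
  simp only [sv, Rows.row, signVec_eq, Complex.star_def, Complex.conj_ofReal]

theorem row_fourVec (s : Signs n) (a : Fin 4) :
    P.row (fourVec s a) = fourRow (P.sv s.1) (P.sv s.2) a := by
  funext g
  fin_cases a
  · rfl
  · rfl
  · simp only [fourVec, fourRow, Rows.row, sv, Fin.reduceFinMk, Matrix.cons_val, Pi.smul_apply,
      Pi.add_apply, smul_eq_mul, star_mul', star_add, Complex.star_def, Complex.conj_ofReal,
      ← sum_add_distrib, Finset.smul_sum, smul_add, smul_smul, add_smul]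
  · simp only [fourVec, fourRow, Rows.row, sv, Fin.reduceFinMk, Matrix.cons_val, Pi.smul_apply,
      Pi.sub_apply, smul_eq_mul, star_mul', star_sub, Complex.star_def, Complex.conj_ofReal,
      ← sum_sub_distrib, Finset.smul_sum, smul_sub, smul_smul, sub_smul]

theorem sv_mul_star (s t : Fin n → Bool) (g h : G) :
    P.sv s g * star (P.sv t h) = (((n : ℝ)⁻¹ : ℝ) : ℂ) •
      ∑ b, ∑ c, ((sg (s b) * sg (t c) : ℝ) : ℂ) • (P.r g b * star (P.r h c)) := by
  rw [sv_eq, sv_eq, star_sum, sum_mul_sum, Finset.smul_sum]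
  refine sum_congr rfl fun b _ => ?_
  rw [Finset.smul_sum]
  refine sum_congr rfl fun c _ => ?_
  rw [star_smul, smul_mul_smul_comm, smul_smul, Complex.star_def, Complex.conj_ofReal,
    ← Complex.ofReal_mul, ← Complex.ofReal_mul]
  congr 2
  have : (Real.sqrt n)⁻¹ * (Real.sqrt n)⁻¹ = (n : ℝ)⁻¹ := by
    rw [← mul_inv, Real.mul_self_sqrt (Nat.cast_nonneg n)]
  rw [← this]; ring

variable {ω : Tr B} (hω : ω ∈ S.Ω)
include hω

theorem rep_orth_ite (g : G) (b c : Fin n) :
    ω.rep (P.r g b * star (P.r g c)) = if b = c then ω.rep (P.e g) else 0 := by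
  rw [P.orth g b c ω hω]
  split_ifs
  · rfl
  · exact map_zero ω.rep

theorem on_e_le (hn : 0 < n) (g : G) : ω.on (P.e g) ≤ 1 := by
  have h := P.rep_orth_ite hω g ⟨0, hn⟩ ⟨0, hn⟩
  rw [if_pos rfl] at h
  rw [Tr.on, ← h]
  refine (ω.on_le _).trans ((norm_mul_le _ _).trans ?_)
  rw [norm_star]
  exact mul_le_one₀ (P.norm_r _ _) (norm_nonneg _) (P.norm_r _ _)

theorem rep_sv_mul_star (hn : 0 < n) (s : Fin n → Bool) (g : G) :
    ω.rep (P.sv s g * star (P.sv s g)) = ω.rep (P.e g) := by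
  rw [sv_mul_star, map_smul, map_sum]
  simp only [map_sum, map_smul, P.rep_orth_ite hω, smul_ite, smul_zero, sum_ite_eq, mem_univ, if_true,
    sg_sq, Complex.ofReal_one, one_smul, sum_const, card_univ, Fintype.card_fin]
  rw [← Nat.cast_smul_eq_nsmul ℂ, smul_smul]
  push_cast
  rw [inv_mul_cancel₀ (by exact_mod_cast hn.ne' : (n : ℂ) ≠ 0), one_smul]

theorem on_sv_le (hn : 0 < n) (s : Fin n → Bool) (g : G) : ω.on (P.sv s g) ≤ 1 := by
  have h1 : ω.on (P.sv s g * star (P.sv s g)) = ω.on (P.sv s g) * ω.on (P.sv s g) := by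
    unfold Tr.on
    rw [map_mul, map_star]
    exact CStarRing.norm_self_mul_star
  have h2 : ω.on (P.sv s g * star (P.sv s g)) ≤ 1 := by
    rw [Tr.on, P.rep_sv_mul_star hω hn s g]
    exact P.on_e_le hω hn g
  nlinarith [ω.on_nonneg (P.sv s g)]

theorem nrm_sv (hn : 0 < n) (s : Fin n → Bool) (g : G) : ω.nrm (P.sv s g) = (Real.sqrt n)⁻¹ := by
  refine (sq_eq_sq₀ (ω.nrm_nonneg _) (by positivity)).1 ?_
  rw [inv_pow, Real.sq_sqrt (Nat.cast_nonneg n), ω.nrm_sq_re, ω.tracial,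
    ω.apply_congr (P.rep_sv_mul_star hω hn s g), P.e_trace g ω hω, Complex.ofReal_re]

omit hω in
theorem on_chi_le (g h : G) : ω.on (P.chi g h) ≤ 1 := by
  rw [chi, ω.on_smul, Complex.norm_real, Real.norm_of_nonneg (by positivity)]
  refine (mul_le_mul_of_nonneg_left ((ω.on_sum _ _).trans (sum_le_sum fun b _ =>
    (ω.on_le _).trans ((norm_mul_le _ _).trans ((mul_le_mul (P.norm_r g b)
      ((norm_star _).trans_le (P.norm_r h b)) (norm_nonneg _) zero_le_one).trans_eq (one_mul 1)))))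
    (by positivity)).trans ?_
  rw [sum_const, card_univ, Fintype.card_fin, nsmul_eq_mul, mul_one]
  rcases Nat.eq_zero_or_pos n with rfl | hn
  · simp
  · rw [inv_mul_cancel₀ (by exact_mod_cast hn.ne')]

theorem rep_e_mul (g : G) (b : Fin n) : ω.rep (P.e g) * ω.rep (P.r g b) = ω.rep (P.r g b) := by
  rw [← map_mul]; exact P.e_mul g b ω hω

theorem sum_nrm_mul_star_le (g h : G) :
    ∑ b, ∑ c, ω.nrm (P.r g b * star (P.r h c)) ^ 2 ≤ 1 := by
  rcases Nat.eq_zero_or_pos n with rfl | hn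
  · simp
  set p : B := ∑ b, star (P.r g b) * P.r g b with hp
  have hstar : star p = p := by simp [hp, star_sum, star_mul]
  have hidem : ω.rep (p * p) = ω.rep p := by
    rw [hp, sum_mul_sum, map_sum, map_sum]
    refine sum_congr rfl fun b _ => ?_
    rw [map_sum, sum_eq_single b]
    · rw [show star (P.r g b) * P.r g b * (star (P.r g b) * P.r g b) =
        star (P.r g b) * ((P.r g b * star (P.r g b)) * P.r g b) by simp only [mul_assoc],
        map_mul, map_mul (x := P.r g b * star (P.r g b)), P.rep_orth_ite hω, if_pos rfl,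
        P.rep_e_mul hω, ← map_mul]
    · intro c _ hc
      rw [show star (P.r g b) * P.r g b * (star (P.r g c) * P.r g c) =
        star (P.r g b) * ((P.r g b * star (P.r g c)) * P.r g c) by simp only [mul_assoc],
        map_mul, map_mul (x := P.r g b * star (P.r g c)), P.rep_orth_ite hω, if_neg (Ne.symm hc),
        zero_mul, mul_zero]
    · simp
  have hon : ω.on p ≤ 1 := by
    have h1 : ω.on (p * p) = ω.on p * ω.on p := by
      unfold Tr.on
      rw [map_mul]
      nth_rw 2 [← hstar]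
      rw [map_star]
      exact CStarRing.norm_self_mul_star
    have h2 : ω.on (p * p) = ω.on p := by rw [Tr.on, hidem]; rfl
    nlinarith [ω.on_nonneg p]
  have hc : ∀ c, ∑ b, ω.nrm (P.r g b * star (P.r h c)) ^ 2 ≤ (n : ℝ)⁻¹ := by
    intro c
    have e : ∑ b, ω.nrm (P.r g b * star (P.r h c)) ^ 2 =
        (ω.f (P.r h c * p * star (P.r h c))).re := by
      simp only [hp, Finset.mul_sum, Finset.sum_mul, map_sum, Complex.re_sum]
      refine sum_congr rfl fun b _ => ?_
      rw [ω.nrm_sq_re, star_mul, star_star]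
      simp only [mul_assoc]
    rw [e]
    have e2 : ω.f (P.r h c * p * star (P.r h c)) =
        ω.f (star (p * star (P.r h c)) * (p * star (P.r h c))) := by
      rw [star_mul, star_star, hstar]
      refine ω.apply_congr ?_
      rw [show P.r h c * p * (p * star (P.r h c)) = P.r h c * (p * p) * star (P.r h c) by
        simp only [mul_assoc]]
      simp only [map_mul]
      rw [← map_mul ω.rep p p, hidem]
    rw [e2, ← ω.nrm_sq_re]
    refine (pow_le_pow_left₀ (ω.nrm_nonneg _) ((ω.nrm_mul_left' _ _).trans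
      (mul_le_of_le_one_left (ω.nrm_nonneg _) hon)) 2).trans (le_of_eq ?_)
    rw [ω.nrm_sq_re, star_star, ω.apply_congr (x := P.r h c * star (P.r h c)) (y := P.e h)
      (by rw [P.rep_orth_ite hω, if_pos rfl]), P.e_trace h ω hω, Complex.ofReal_re]
  rw [sum_comm]
  refine (sum_le_sum fun c _ => hc c).trans ?_
  rw [sum_const, card_univ, Fintype.card_fin, nsmul_eq_mul, mul_inv_cancel₀]
  exact_mod_cast hn.ne'

theorem sum_cross_le (g h : G) :
    ∑ s : Signs n, ω.nrm (P.sv s.1 g * star (P.sv s.2 h)) ^ 2 ≤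
      Fintype.card (Signs n) * ((n : ℝ)⁻¹) ^ 2 := by
  have e : ∀ s : Signs n, ω.nrm (P.sv s.1 g * star (P.sv s.2 h)) ^ 2 = ((n : ℝ)⁻¹) ^ 2 *
      ‖∑ b, ∑ c, ((sg (s.1 b) * sg (s.2 c) : ℝ) : ℂ) • ω.f.toPreGNS (P.r g b * star (P.r h c))‖ ^ 2 := by
    intro s
    rw [sv_mul_star, ω.nrm_smul, mul_pow, Complex.norm_real, Real.norm_of_nonneg (by positivity)]
    simp only [Tr.nrm, map_sum, map_smul]
  simp only [e]
  rw [← mul_sum, sum_sign_pair, mul_left_comm]
  refine mul_le_mul_of_nonneg_left (mul_le_of_le_one_right (by positivity) ?_) (Nat.cast_nonneg _)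
  exact P.sum_nrm_mul_star_le hω g h

theorem sum_diag_le (g h : G) :
    ∑ s : Fin n → Bool, ω.nrm (P.sv s g * star (P.sv s h) - P.chi g h) ^ 2 ≤
      2 * Fintype.card (Fin n → Bool) * ((n : ℝ)⁻¹) ^ 2 := by
  have e : ∀ s : Fin n → Bool, ω.nrm (P.sv s g * star (P.sv s h) - P.chi g h) ^ 2 = ((n : ℝ)⁻¹) ^ 2 *
      ‖∑ b, ∑ c, ((sg (s b) * sg (s c) : ℝ) : ℂ) • ω.f.toPreGNS (P.r g b * star (P.r h c)) -
        ∑ b, ω.f.toPreGNS (P.r g b * star (P.r h b))‖ ^ 2 := by
    intro s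
    rw [sv_mul_star, chi, ← smul_sub, ω.nrm_smul, mul_pow, Complex.norm_real,
      Real.norm_of_nonneg (by positivity)]
    simp only [Tr.nrm, map_sum, map_smul, map_sub]
  simp only [e]
  rw [← mul_sum, mul_comm]
  refine mul_le_mul_of_nonneg_right ((sum_sign_sq fun b c =>
    ω.f.toPreGNS (P.r g b * star (P.r h c))).trans ?_) (by positivity)
  exact mul_le_of_le_one_right (by positivity) (P.sum_nrm_mul_star_le hω g h)

theorem sum_pairErr_sq (s : Signs n) :
    pairErr ω F P.chi (P.sv s.1) (P.sv s.2) ^ 2 ≤ 4 * (F.card : ℝ) ^ 2 * ∑ g ∈ F, ∑ h ∈ F,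
      (ω.nrm (P.sv s.1 g * star (P.sv s.1 h) - P.chi g h) ^ 2 +
        ω.nrm (P.sv s.2 g * star (P.sv s.2 h) - P.chi g h) ^ 2 +
        ω.nrm (P.sv s.1 g * star (P.sv s.2 h)) ^ 2 +
        ω.nrm (P.sv s.2 g * star (P.sv s.1 h)) ^ 2) := by
  have _ := hω
  simp only [pairErr, midErr, ← sum_add_distrib, Pi.zero_apply, sub_zero]
  rw [← Finset.sum_product', ← Finset.sum_product']
  refine sq_sum_le_card_mul_sum_sq.trans ?_
  rw [card_product, Nat.cast_mul, ← sq, mul_comm (4 : ℝ), mul_assoc, mul_sum (a := (4 : ℝ))]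
  refine mul_le_mul_of_nonneg_left (sum_le_sum fun p _ => ?_) (sq_nonneg _)
  set a := ω.nrm (P.sv s.1 p.1 * star (P.sv s.1 p.2) - P.chi p.1 p.2)
  set b := ω.nrm (P.sv s.2 p.1 * star (P.sv s.2 p.2) - P.chi p.1 p.2)
  set c := ω.nrm (P.sv s.1 p.1 * star (P.sv s.2 p.2))
  set d := ω.nrm (P.sv s.2 p.1 * star (P.sv s.1 p.2))
  nlinarith [sq_nonneg (a - b), sq_nonneg (c - d), sq_nonneg (a + b - c - d), sq_nonneg (a - c),
    sq_nonneg (b - d), sq_nonneg (a - d), sq_nonneg (b - c)]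

theorem avg_pairErr :
    ∑ s : Signs n, pairErr ω F P.chi (P.sv s.1) (P.sv s.2) ^ 2 ≤
      24 * (F.card : ℝ) ^ 4 * Fintype.card (Signs n) * ((n : ℝ)⁻¹) ^ 2 := by
  refine (sum_le_sum fun s _ => P.sum_pairErr_sq hω s).trans ?_
  rw [← mul_sum, sum_comm]
  set N : ℝ := Fintype.card (Signs n) * ((n : ℝ)⁻¹) ^ 2 with hN
  have hcard : (Fintype.card (Signs n) : ℝ) =
      (Fintype.card (Fin n → Bool) : ℝ) * Fintype.card (Fin n → Bool) := by
    rw [Fintype.card_prod]; push_cast; rfl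
  have key : ∀ g h : G, ∑ s : Signs n,
      (ω.nrm (P.sv s.1 g * star (P.sv s.1 h) - P.chi g h) ^ 2 +
        ω.nrm (P.sv s.2 g * star (P.sv s.2 h) - P.chi g h) ^ 2 +
        ω.nrm (P.sv s.1 g * star (P.sv s.2 h)) ^ 2 +
        ω.nrm (P.sv s.2 g * star (P.sv s.1 h)) ^ 2) ≤ 6 * N := by
    intro g h
    have hd := P.sum_diag_le hω g h
    have h1 : ∑ s : Signs n, ω.nrm (P.sv s.1 g * star (P.sv s.1 h) - P.chi g h) ^ 2 ≤ 2 * N := by
      rw [Fintype.sum_prod_type]
      simp only [sum_const, card_univ, nsmul_eq_mul, ← mul_sum]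
      refine (mul_le_mul_of_nonneg_left hd (Nat.cast_nonneg _)).trans (le_of_eq ?_)
      rw [hN, hcard]; ring
    have h2 : ∑ s : Signs n, ω.nrm (P.sv s.2 g * star (P.sv s.2 h) - P.chi g h) ^ 2 ≤ 2 * N := by
      rw [Fintype.sum_prod_type]
      simp only [sum_const, card_univ, nsmul_eq_mul]
      refine (mul_le_mul_of_nonneg_left hd (Nat.cast_nonneg _)).trans (le_of_eq ?_)
      rw [hN, hcard]; ring
    have h3 := P.sum_cross_le hω g h
    have h4 : ∑ s : Signs n, ω.nrm (P.sv s.2 g * star (P.sv s.1 h)) ^ 2 ≤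
        Fintype.card (Signs n) * ((n : ℝ)⁻¹) ^ 2 := by
      rw [← Equiv.sum_comp (Equiv.prodComm (Fin n → Bool) (Fin n → Bool))]
      exact h3
    simp only [sum_add_distrib]
    linarith
  refine (mul_le_mul_of_nonneg_left (sum_le_sum fun g _ => ?_) (by positivity)).trans
    (le_of_eq (?_ : 4 * (F.card : ℝ) ^ 2 * ∑ _g ∈ F, ∑ _h ∈ F, 6 * N = _))
  · rw [sum_comm]
    exact sum_le_sum fun h _ => key g h
  · simp only [sum_const, nsmul_eq_mul, hN]; ring

end Rows

/-- Continuous functions of an element in a representation. -/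
theorem on_cfc_le (ω : Tr B) {X : B} (hX : IsSelfAdjoint X) {R M : ℝ} (hR : ω.on X ≤ R) {f : ℝ → ℝ}
    (hf : Continuous f) (hM : 0 ≤ M) (hbd : ∀ x : ℝ, |x| ≤ R → |f x| ≤ M) : ω.on (cfc f X) ≤ M := by
  have hc : Continuous ω.rep := AddMonoidHomClass.continuous_of_bound ω.rep 1 fun x => by
    rw [one_mul]; exact ω.on_le x
  rw [Tr.on, ← fc_real hX f, fc_map ω.rep hc (by fun_prop) hX]
  refine norm_fc_le (hX.map ω.rep) hM fun x hx => ?_
  rw [Complex.norm_real, Real.norm_eq_abs]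
  exact hbd x (hx.trans hR)

/-- The polynomial approximant of `x q(x)`. -/
theorem nrm_cfc_sub_poly (ω : Tr B) {X : B} (hX : IsSelfAdjoint X) {q : ℝ → ℝ} (hq : Continuous q)
    (p : Polynomial ℝ) {δ : ℝ} (hR : ω.on X ≤ 4) (hδ : 0 ≤ δ)
    (hp : ∀ x : ℝ, |x| ≤ 4 → |p.eval x - q x| ≤ δ) :
    ω.nrm (cfc (fun x => x * q x) X - cfc (fun x => x * p.eval x) X) ≤ δ * ω.nrm X := by
  rw [← cfc_sub (fun x => x * q x) (fun x => x * p.eval x) X]
  have e : cfc (fun x => x * q x - x * p.eval x) X = cfc (fun x => q x - p.eval x) X * X := by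
    conv_rhs => arg 2; rw [← cfc_id' ℝ X]
    rw [← cfc_mul (fun x => q x - p.eval x) (fun x => x) X]
    exact cfc_congr fun x _ => by ring
  rw [e]
  refine (ω.nrm_mul_left' _ _).trans (mul_le_mul_of_nonneg_right ?_ (ω.nrm_nonneg _))
  refine on_cfc_le ω hX hR (hq.sub p.continuous) hδ fun x hx => ?_
  rw [abs_sub_comm]
  exact hp x hx

omit [PartialOrder B] [StarOrderedRing B] in
theorem cfc_mul_poly {X : B} (hX : IsSelfAdjoint X) (p : Polynomial ℝ) :
    cfc (fun x => x * p.eval x) X =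
      ∑ k ∈ range (p.natDegree + 1), (p.coeff k : ℂ) • X ^ (k + 1) := by
  rw [cfc_mul (fun x => x) p.eval X, cfc_id' ℝ X, cfc_polynomial p X,
    Polynomial.aeval_eq_sum_range, mul_sum]
  refine sum_congr rfl fun k _ => ?_
  rw [mul_smul_comm, pow_succ', Complex.coe_smul]

/-- `ModelGoal` holds. -/
theorem model_goal (S : Sys G B) : ModelGoal S := by
  intro F q hq ε hε
  obtain ⟨Q, hQ⟩ := isCompact_Icc.exists_bound_of_continuousOn
    (hq.continuousOn (s := Set.Icc (-4 : ℝ) 4))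
  have hQ0 : 0 ≤ Q := (norm_nonneg _).trans (hQ 0 (by norm_num))
  set C0 : ℝ := 4 * (Q + 1) + 1 with hC0
  have hC01 : 1 ≤ C0 := by linarith
  set K0 : ℝ := 128 * C0 with hK0
  set δ : ℝ := min 1 (Real.sqrt ε / (2 * K0)) with hδ
  have hδ0 : 0 < δ := lt_min one_pos (by positivity)
  obtain ⟨p, hp⟩ := exists_polynomial_near_of_continuousOn (-4) 4 q hq.continuousOn δ hδ0
  have hp' : ∀ x : ℝ, |x| ≤ 4 → |p.eval x - q x| ≤ δ := fun x hx => (hp x (abs_le.1 hx)).le
  set N := p.natDegree + 1 with hN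
  set cp : ℝ := ∑ k ∈ range N, |p.coeff k| * 8 ^ k with hcp
  have hcp0 : 0 ≤ cp := sum_nonneg fun k _ => by positivity
  set m : ℝ := (F.card : ℝ) with hm
  set C1 : ℝ := C0 + m ^ 2 * (2 * cp * 2) with hC1
  set K1 : ℝ := 8 * C1 * (4 * cp) + 8 * (m ^ 2 * (2 * cp * cp * 2)) with hK1
  obtain ⟨n0, hn0⟩ := exists_nat_ge (2 * (2 * K1 ^ 2) * (24 * m ^ 4) / ε)
  refine ⟨n0 + 1, fun n hn C P ω hω j => ?_⟩
  have hnpos : 0 < n := by omega
  have hn' : (0 : ℝ) < n := by exact_mod_cast hnpos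
  have hX : ∀ g ∈ F, ∀ h ∈ F, ω.on (P.chi g h) ≤ 1 := fun g _ h _ => P.on_chi_le g h
  have key : ∀ s : Signs n,
      ω.nrm (defect (fun a => cfc (fun x => x * q x) (P.Y (fourVec s a))) j) ≤
        K0 * δ / Real.sqrt n + K1 * pairErr ω F P.chi (P.sv s.1) (P.sv s.2) := by
    intro s
    set u := P.sv s.1
    set v := P.sv s.2
    set Φ := pairErr ω F P.chi u v with hΦ
    have hu : ∀ g ∈ F, ω.on (u g) ≤ 1 := fun g _ => P.on_sv_le hω hnpos s.1 g
    have hv : ∀ g ∈ F, ω.on (v g) ≤ 1 := fun g _ => P.on_sv_le hω hnpos s.2 g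
    set Y : Fin 4 → B := fun a => avgSq F (fourRow u v a) with hY
    have hYeq : ∀ a, P.Y (fourVec s a) = Y a := fun a => by
      rw [Rows.Y_eq, P.row_fourVec]
    have hYsa : ∀ a, IsSelfAdjoint (Y a) := fun a =>
      IsSelfAdjoint.smul (Complex.conj_ofReal _) (isSelfAdjoint_sum _ fun g _ => .star_mul_self _)
    have hon : ∀ a, ω.on (Y a) ≤ 4 := fun a => on_avgSq_le ω F (on_fourRow_le ω F hu hv a)
    have hnY : ∀ a, ω.nrm (Y a) ≤ 4 / Real.sqrt n := by
      intro a
      refine (nrm_avgSq_le ω F (R := 2 / Real.sqrt n) (by positivity) (on_fourRow_le ω F hu hv a)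
        fun g hg => ?_).trans (le_of_eq (by ring))
      refine (nrm_fourRow_le ω F (R := (Real.sqrt n)⁻¹) (fun g _ => (P.nrm_sv hω hnpos s.1 g).le)
        (fun g _ => (P.nrm_sv hω hnpos s.2 g).le) a g hg).trans (le_of_eq ?_)
      rw [div_eq_mul_inv]
    set x : Fin 4 → B := fun a => cfc (fun x => x * q x) (P.Y (fourVec s a)) with hx
    set y : Fin 4 → B := fun a => cfc (fun x => x * p.eval x) (Y a) with hy
    set z : Fin 4 → B := fun a => zf F (apol F P.chi N p.coeff) (fourRow u v a) (fourRow u v a)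
      with hz
    have hxb : ∀ a, ω.on (x a) ≤ C0 := by
      intro a
      simp only [hx, hYeq]
      refine on_cfc_le ω (hYsa a) (hon a) (continuous_id.mul hq) (by linarith) fun t ht => ?_
      have := hQ t (abs_le.1 ht)
      rw [Real.norm_eq_abs] at this
      rw [abs_mul]
      nlinarith [abs_nonneg t, abs_nonneg (q t)]
    have hyb : ∀ a, ω.on (y a) ≤ C0 := by
      intro a
      refine on_cfc_le ω (hYsa a) (hon a) (continuous_id.mul p.continuous) (by linarith) fun t ht => ?_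
      have h1 := hQ t (abs_le.1 ht)
      rw [Real.norm_eq_abs] at h1
      have h2 := hp' t ht
      have h3 : δ ≤ 1 := min_le_left _ _
      have h4 : |p.eval t| ≤ Q + 1 := by
        have := abs_sub_abs_le_abs_sub (p.eval t) (q t)
        linarith
      rw [abs_mul]
      nlinarith [abs_nonneg t, abs_nonneg (p.eval t)]
    have hA : ∀ g ∈ F, ∀ h ∈ F, ω.on (apol F P.chi N p.coeff g h) ≤ cp :=
      on_apol_le ω F hX N p.coeff
    have hzb : ∀ a, ω.on (z a) ≤ C1 := fun a => by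
      refine (on_zf_le ω F hA (on_fourRow_le ω F hu hv a) (on_fourRow_le ω F hu hv a)).trans ?_
      linarith
    have hC10 : C0 ≤ C1 := by rw [hC1]; linarith [show 0 ≤ m ^ 2 * (2 * cp * 2) by positivity]
    have d1 : ∑ a, ω.nrm (x a - y a) ≤ 4 * (δ * (4 / Real.sqrt n)) := by
      refine (sum_le_sum fun a _ => (?_ : ω.nrm (x a - y a) ≤ δ * (4 / Real.sqrt n))).trans
        (le_of_eq (by simp))
      simp only [hx, hy, hYeq]
      exact (nrm_cfc_sub_poly ω (hYsa a) hq p (hon a) hδ0.le hp').trans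
        (mul_le_mul_of_nonneg_left (hnY a) hδ0.le)
    have d2 : ∑ a, ω.nrm (y a - z a) ≤ 4 * (cp * Φ) := by
      refine (sum_le_sum fun a _ => (?_ : ω.nrm (y a - z a) ≤ cp * Φ)).trans (le_of_eq (by simp))
      simp only [hy, hz]
      rw [cfc_mul_poly (hYsa a)]
      exact (nrm_poly_sub ω F hX (on_fourRow_le ω F hu hv a) N p.coeff).trans
        (mul_le_mul_of_nonneg_left (midErr_four ω F a) hcp0)
    have e1 := (nrm_defect_sub ω hC01 x y hxb hyb j).trans
      (mul_le_mul_of_nonneg_left d1 (by positivity))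
    have e2 := (nrm_defect_sub ω (hC01.trans hC10) y z (fun a => (hyb a).trans hC10) hzb j).trans
      (mul_le_mul_of_nonneg_left d2 (by positivity))
    have e3 : ω.nrm (defect z j) ≤ 8 * (m ^ 2 * (2 * cp * cp * 2)) * Φ :=
      nrm_defect_zf ω F (X := P.chi) hcp0 _ hA hu hv j
    rw [show defect x j = (defect x j - defect y j) + (defect y j - defect z j) + defect z j by abel]
    refine (ω.nrm_add _ _).trans ((add_le_add ((ω.nrm_add _ _).trans (add_le_add e1 e2)) e3).trans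
      (le_of_eq ?_))
    rw [hK0, hK1]; ring
  have hsq : ∀ s : Signs n,
      ω.nrm (defect (fun a => cfc (fun x => x * q x) (P.Y (fourVec s a))) j) ^ 2 ≤
        ε / 2 / n + 2 * K1 ^ 2 * pairErr ω F P.chi (P.sv s.1) (P.sv s.2) ^ 2 := by
    intro s
    refine (pow_le_pow_left₀ (ω.nrm_nonneg _) (key s) 2).trans ?_
    have h1 : K0 * δ ≤ Real.sqrt ε / 2 := by
      calc K0 * δ ≤ K0 * (Real.sqrt ε / (2 * K0)) :=
            mul_le_mul_of_nonneg_left (min_le_right _ _) (by positivity)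
        _ = Real.sqrt ε / 2 := by
            have hne : K0 ≠ 0 := by rw [hK0]; positivity
            field_simp
    have h2 : (K0 * δ / Real.sqrt n) ^ 2 ≤ ε / 4 / n := by
      rw [div_pow, Real.sq_sqrt hn'.le]
      refine div_le_div_of_nonneg_right ?_ hn'.le
      refine (pow_le_pow_left₀ (by positivity) h1 2).trans (le_of_eq ?_)
      rw [div_pow, Real.sq_sqrt hε.le]; norm_num
    have h3 : ε / 2 / (n : ℝ) = 2 * (ε / 4 / n) := by ring
    nlinarith [sq_nonneg (K0 * δ / Real.sqrt n - K1 * pairErr ω F P.chi (P.sv s.1) (P.sv s.2))]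
  refine (sum_le_sum fun s _ => hsq s).trans ?_
  rw [sum_add_distrib, ← mul_sum, sum_const, card_univ, nsmul_eq_mul]
  have h4 : 2 * K1 ^ 2 * ∑ s : Signs n, pairErr ω F P.chi (P.sv s.1) (P.sv s.2) ^ 2 ≤
      ε / 2 * Fintype.card (Signs n) / n := by
    refine (mul_le_mul_of_nonneg_left (P.avg_pairErr hω) (by positivity)).trans ?_
    have hbig : 2 * (2 * K1 ^ 2) * (24 * m ^ 4) ≤ ε * n := by
      rw [div_le_iff₀ hε] at hn0
      have : (n0 : ℝ) ≤ n := by exact_mod_cast (by omega : n0 ≤ n)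
      nlinarith
    calc 2 * K1 ^ 2 * (24 * m ^ 4 * Fintype.card (Signs n) * ((n : ℝ)⁻¹) ^ 2)
        = (2 * (2 * K1 ^ 2) * (24 * m ^ 4)) * ((Fintype.card (Signs n) : ℝ) / (2 * (n : ℝ) ^ 2)) := by
          field_simp
      _ ≤ ε * n * ((Fintype.card (Signs n) : ℝ) / (2 * (n : ℝ) ^ 2)) :=
          mul_le_mul_of_nonneg_right hbig (by positivity)
      _ = _ := by field_simp
  have h5 : (Fintype.card (Signs n) : ℝ) * (ε / 2 / n) + ε / 2 * Fintype.card (Signs n) / n =
      ε * Fintype.card (Signs n) / n := by ring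
  linarith

end Vale.Agent.P095
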