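import Vale.Agent.P095.Upgrade.ModelTools

/-!
# P095: powers of averaged rows, and the defect of four forms
-/

open scoped ComplexOrder InnerProductSpace
open Complex Finset

namespace Vale.Agent.P095

variable {G B : Type*} [CStarAlgebra B] [PartialOrder B] [StarOrderedRing B]

/-- The average of `star u * u`. -/
noncomputable def avgSq (F : Finset G) (u : G → B) : B :=
  (((F.card : ℝ)⁻¹ : ℝ) : ℂ) • ∑ g ∈ F, star (u g) * u g

open scoped Classical in
/-- The powers of a middle matrix. -/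
noncomputable def apw (F : Finset G) (X : G → G → B) : ℕ → G → G → B
  | 0 => fun g h => if g = h then (((F.card : ℝ)⁻¹ : ℝ) : ℂ) • 1 else 0
  | k + 1 => fun g i => (((F.card : ℝ)⁻¹ : ℝ) : ℂ) • ∑ h ∈ F, apw F X k g h * X h i

/-- A combination of the powers of a middle matrix. -/
noncomputable def apol (F : Finset G) (X : G → G → B) (N : ℕ) (p : ℕ → ℝ) (g h : G) : B :=
  ∑ k ∈ range N, (p k : ℂ) • apw F X k g h

/-- The middle error. -/
noncomputable def midErr (ω : Tr B) (F : Finset G) (X : G → G → B) (v w : G → B) : ℝ :=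
  ∑ h ∈ F, ∑ i ∈ F, ω.nrm (v h * star (w i) - X h i)

/-- The total middle error of two rows. -/
noncomputable def pairErr (ω : Tr B) (F : Finset G) (X : G → G → B) (u v : G → B) : ℝ :=
  midErr ω F X u u + midErr ω F X v v + midErr ω F 0 u v + midErr ω F 0 v u

/-- The four rows of two rows. -/
noncomputable def fourRow (u v : G → B) : Fin 4 → G → B :=
  ![u, v, fun g => (((Real.sqrt 2)⁻¹ : ℝ) : ℂ) • (u g + v g),
    fun g => (((Real.sqrt 2)⁻¹ : ℝ) : ℂ) • (u g - v g)]

omit [PartialOrder B] [StarOrderedRing B] in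
theorem zf_apol (F : Finset G) (X : G → G → B) (N : ℕ) (p : ℕ → ℝ) (u w : G → B) :
    zf F (apol F X N p) u w = ∑ k ∈ range N, (p k : ℂ) • zf F (apw F X k) u w := by
  unfold zf apol
  simp only [Finset.mul_sum, Finset.sum_mul, mul_smul_comm, smul_mul_assoc, Finset.smul_sum]
  exact (sum_congr rfl fun g _ => sum_comm).trans sum_comm

theorem inv_sqrt_two_sq : (Real.sqrt 2)⁻¹ * (Real.sqrt 2)⁻¹ = 1 / 2 := by
  rw [← mul_inv, Real.mul_self_sqrt zero_le_two, one_div]

variable (ω : Tr B) (F : Finset G) {X : G → G → B}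

theorem midErr_nonneg (v w : G → B) : 0 ≤ midErr ω F X v w :=
  sum_nonneg fun _ _ => sum_nonneg fun _ _ => ω.nrm_nonneg _

theorem pairErr_nonneg (u v : G → B) : 0 ≤ pairErr ω F X u v :=
  add_nonneg (add_nonneg (add_nonneg (midErr_nonneg ω F u u) (midErr_nonneg ω F v v))
    (midErr_nonneg ω F u v)) (midErr_nonneg ω F v u)

theorem inv_card_mul_le : ((F.card : ℝ)⁻¹) * F.card ≤ 1 := by
  rcases eq_or_ne (F.card : ℝ) 0 with h | h
  · simp [h]
  · rw [inv_mul_cancel₀ h]

theorem norm_inv_card : ‖((((F.card : ℝ)⁻¹ : ℝ)) : ℂ)‖ = (F.card : ℝ)⁻¹ := by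
  rw [Complex.norm_real, Real.norm_of_nonneg (by positivity)]

theorem on_avgSq_le {u : G → B} (hu : ∀ g ∈ F, ω.on (u g) ≤ 2) : ω.on (avgSq F u) ≤ 4 := by
  rw [avgSq, ω.on_smul, norm_inv_card]
  refine (mul_le_mul_of_nonneg_left ((ω.on_sum _ _).trans (sum_le_sum fun g hg =>
    (?_ : ω.on (star (u g) * u g) ≤ 4))) (by positivity)).trans ?_
  · refine (ω.on_mul _ _).trans ?_
    rw [ω.on_star]
    nlinarith [hu g hg, ω.on_nonneg (u g)]
  · rw [sum_const, nsmul_eq_mul, ← mul_assoc]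
    exact mul_le_of_le_one_left (by norm_num) (inv_card_mul_le F)

theorem nrm_avgSq_le {u : G → B} {R : ℝ} (hR : 0 ≤ R) (hu : ∀ g ∈ F, ω.on (u g) ≤ 2)
    (hn : ∀ g ∈ F, ω.nrm (u g) ≤ R) : ω.nrm (avgSq F u) ≤ 2 * R := by
  rw [avgSq, ω.nrm_smul, norm_inv_card]
  refine (mul_le_mul_of_nonneg_left ((ω.nrm_sum _ _).trans (sum_le_sum fun g hg =>
    (?_ : ω.nrm (star (u g) * u g) ≤ 2 * R))) (by positivity)).trans ?_
  · refine (ω.nrm_mul_left' _ _).trans ?_
    rw [ω.on_star]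
    exact mul_le_mul (hu g hg) (hn g hg) (ω.nrm_nonneg _) zero_le_two
  · rw [sum_const, nsmul_eq_mul, ← mul_assoc]
    exact mul_le_of_le_one_left (by positivity) (inv_card_mul_le F)

theorem on_apw_le (hX : ∀ g ∈ F, ∀ h ∈ F, ω.on (X g h) ≤ 1) :
    ∀ k, ∀ g ∈ F, ∀ h ∈ F, ω.on (apw F X k g h) ≤ 1 := by
  intro k
  induction k with
  | zero =>
    intro g hg h _
    simp only [apw]
    split_ifs
    · rw [ω.on_smul, norm_inv_card]
      have h1 : ω.on (1 : B) ≤ 1 := by
        rw [Tr.on, map_one]; exact ContinuousLinearMap.norm_id_le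
      have h2 : (1 : ℝ) ≤ F.card := by exact_mod_cast card_pos.2 ⟨g, hg⟩
      nlinarith [inv_le_one_of_one_le₀ h2, inv_nonneg.2 (Nat.cast_nonneg (α := ℝ) F.card),
        ω.on_nonneg (1 : B)]
    · rw [ω.on_zero]; exact zero_le_one
  | succ k ih =>
    intro g hg i hi
    simp only [apw]
    rw [ω.on_smul, norm_inv_card]
    refine (mul_le_mul_of_nonneg_left ((ω.on_sum _ _).trans (sum_le_sum fun h hh =>
      (?_ : ω.on (apw F X k g h * X h i) ≤ 1))) (by positivity)).trans ?_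
    · exact (ω.on_mul _ _).trans
        (mul_le_one₀ (ih g hg h hh) (ω.on_nonneg _) (hX h hh i hi))
    · rw [sum_const, nsmul_eq_mul, mul_one]
      exact inv_card_mul_le F

theorem on_apol_le (hX : ∀ g ∈ F, ∀ h ∈ F, ω.on (X g h) ≤ 1) (N : ℕ) (p : ℕ → ℝ) :
    ∀ g ∈ F, ∀ h ∈ F, ω.on (apol F X N p g h) ≤ ∑ k ∈ range N, |p k| * 8 ^ k := by
  intro g hg h hh
  refine (ω.on_sum _ _).trans (sum_le_sum fun k _ => ?_)
  rw [ω.on_smul, Complex.norm_real, Real.norm_eq_abs]
  exact mul_le_mul_of_nonneg_left ((on_apw_le ω F hX k g hg h hh).trans (one_le_pow₀ (by norm_num)))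
    (abs_nonneg _)

omit [PartialOrder B] [StarOrderedRing B] in
theorem zf_apw_zero (u : G → B) : zf F (apw F X 0) u u = avgSq F u := by
  classical
  unfold zf avgSq
  rw [Finset.smul_sum]
  refine sum_congr rfl fun g hg => ?_
  simp only [apw, mul_ite, ite_mul, mul_zero, zero_mul, Finset.sum_ite_eq, if_pos hg,
    mul_smul_comm, mul_one, smul_mul_assoc]

omit [PartialOrder B] [StarOrderedRing B] in
theorem zf_mul_avgSq (k : ℕ) (u : G → B) :
    zf F (apw F X k) u u * avgSq F u - zf F (apw F X (k + 1)) u u =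
      (((F.card : ℝ)⁻¹ : ℝ) : ℂ) • ∑ g ∈ F, ∑ h ∈ F, ∑ i ∈ F,
        (star (u g) * apw F X k g h) * (u h * star (u i) - X h i) * u i := by
  have h1 : zf F (apw F X k) u u * avgSq F u = (((F.card : ℝ)⁻¹ : ℝ) : ℂ) • ∑ g ∈ F, ∑ h ∈ F,
      ∑ i ∈ F, (star (u g) * apw F X k g h) * (u h * star (u i)) * u i := by
    unfold zf avgSq
    rw [mul_smul_comm, Finset.sum_mul]
    congr 1
    refine sum_congr rfl fun g _ => ?_
    rw [Finset.sum_mul]
    refine sum_congr rfl fun h _ => ?_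
    rw [Finset.mul_sum]
    refine sum_congr rfl fun i _ => ?_
    simp only [mul_assoc]
  have h2 : zf F (apw F X (k + 1)) u u = (((F.card : ℝ)⁻¹ : ℝ) : ℂ) • ∑ g ∈ F, ∑ h ∈ F,
      ∑ i ∈ F, (star (u g) * apw F X k g h) * X h i * u i := by
    unfold zf
    simp only [apw, mul_smul_comm, smul_mul_assoc, ← Finset.smul_sum, Finset.mul_sum, Finset.sum_mul]
    congr 1
    refine sum_congr rfl fun g _ => ?_
    rw [sum_comm]
    simp only [mul_assoc]
  rw [h1, h2, ← smul_sub]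
  simp only [← sum_sub_distrib, mul_sub, sub_mul]

theorem nrm_pow_sub_zf (hX : ∀ g ∈ F, ∀ h ∈ F, ω.on (X g h) ≤ 1) {u : G → B}
    (hu : ∀ g ∈ F, ω.on (u g) ≤ 2) :
    ∀ k, ω.nrm (avgSq F u ^ (k + 1) - zf F (apw F X k) u u) ≤ 8 ^ k * midErr ω F X u u := by
  intro k
  induction k with
  | zero =>
    rw [pow_one, zf_apw_zero, sub_self, ω.nrm_zero]
    exact mul_nonneg (by norm_num) (midErr_nonneg ω F u u)
  | succ k ih =>
    have hD := midErr_nonneg ω F (X := X) u u
    have hlast : ω.nrm (zf F (apw F X k) u u * avgSq F u - zf F (apw F X (k + 1)) u u) ≤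
        4 * midErr ω F X u u := by
      rw [zf_mul_avgSq, ω.nrm_smul, norm_inv_card]
      have ht : ∀ g ∈ F, ∀ h ∈ F, ∀ i ∈ F,
          ω.nrm ((star (u g) * apw F X k g h) * (u h * star (u i) - X h i) * u i) ≤
            2 * ω.nrm (u h * star (u i) - X h i) * 2 := by
        intro g hg h hh i hi
        refine (ω.nrm_mul_mul _ _ _).trans ?_
        refine mul_le_mul (mul_le_mul_of_nonneg_right ((ω.on_mul _ _).trans ?_) (ω.nrm_nonneg _))
          (hu i hi) (ω.on_nonneg _) (mul_nonneg zero_le_two (ω.nrm_nonneg _))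
        rw [ω.on_star]
        nlinarith [hu g hg, on_apw_le ω F hX k g hg h hh, ω.on_nonneg (u g),
          ω.on_nonneg (apw F X k g h)]
      have hs : ω.nrm (∑ g ∈ F, ∑ h ∈ F, ∑ i ∈ F,
          (star (u g) * apw F X k g h) * (u h * star (u i) - X h i) * u i) ≤
            ∑ _g ∈ F, ∑ h ∈ F, ∑ i ∈ F, 2 * ω.nrm (u h * star (u i) - X h i) * 2 :=
        (ω.nrm_sum _ _).trans (sum_le_sum fun g hg => (ω.nrm_sum _ _).trans
          (sum_le_sum fun h hh => (ω.nrm_sum _ _).trans (sum_le_sum fun i hi => ht g hg h hh i hi)))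
      refine (mul_le_mul_of_nonneg_left hs (by positivity)).trans ?_
      simp only [sum_const, nsmul_eq_mul, ← Finset.mul_sum, ← Finset.sum_mul, ← mul_assoc]
      have h1 := inv_card_mul_le F
      rw [show (F.card : ℝ)⁻¹ * F.card * 2 * (∑ h ∈ F, ∑ i ∈ F, ω.nrm (u h * star (u i) - X h i)) * 2
        = (F.card : ℝ)⁻¹ * F.card * (4 * midErr ω F X u u) by unfold midErr; ring]
      exact mul_le_of_le_one_left (by linarith) h1
    have h8 : (1 : ℝ) ≤ 8 ^ k := one_le_pow₀ (by norm_num)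
    rw [pow_succ (avgSq F u) (k + 1),
      show avgSq F u ^ (k + 1) * avgSq F u - zf F (apw F X (k + 1)) u u =
        (avgSq F u ^ (k + 1) - zf F (apw F X k) u u) * avgSq F u +
          (zf F (apw F X k) u u * avgSq F u - zf F (apw F X (k + 1)) u u) by noncomm_ring]
    refine (ω.nrm_add _ _).trans ((add_le_add ((ω.nrm_mul_right' _ _).trans
      (mul_le_mul ih (on_avgSq_le ω F hu) (ω.on_nonneg _) (by positivity))) hlast).trans ?_)
    rw [pow_succ (8 : ℝ)]
    nlinarith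

theorem nrm_poly_sub (hX : ∀ g ∈ F, ∀ h ∈ F, ω.on (X g h) ≤ 1) {u : G → B}
    (hu : ∀ g ∈ F, ω.on (u g) ≤ 2) (N : ℕ) (p : ℕ → ℝ) :
    ω.nrm (∑ k ∈ range N, (p k : ℂ) • avgSq F u ^ (k + 1) - zf F (apol F X N p) u u) ≤
      (∑ k ∈ range N, |p k| * 8 ^ k) * midErr ω F X u u := by
  rw [zf_apol, ← sum_sub_distrib, Finset.sum_mul]
  refine (ω.nrm_sum _ _).trans (sum_le_sum fun k _ => ?_)
  rw [← smul_sub, ω.nrm_smul, Complex.norm_real, Real.norm_eq_abs, mul_assoc]
  exact mul_le_mul_of_nonneg_left (nrm_pow_sub_zf ω F hX hu k) (abs_nonneg _)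

theorem norm_inv_sqrt_two : ‖(((Real.sqrt 2)⁻¹ : ℝ) : ℂ)‖ ≤ 1 := by
  rw [Complex.norm_real, Real.norm_of_nonneg (by positivity)]
  exact inv_le_one_of_one_le₀ (Real.one_le_sqrt.2 one_le_two)

theorem on_fourRow_le {u v : G → B} (hu : ∀ g ∈ F, ω.on (u g) ≤ 1) (hv : ∀ g ∈ F, ω.on (v g) ≤ 1)
    (a : Fin 4) : ∀ g ∈ F, ω.on (fourRow u v a g) ≤ 2 := by
  intro g hg
  have h1 := hu g hg
  have h2 := hv g hg
  fin_cases a
  · exact h1.trans one_le_two
  · exact h2.trans one_le_two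
  · simp only [fourRow]
    simp only [Fin.reduceFinMk, Matrix.cons_val]
    rw [ω.on_smul]
    refine le_of_le_of_eq ?_ (show (1 : ℝ) * (1 + 1) = 2 by norm_num)
    exact mul_le_mul norm_inv_sqrt_two ((ω.on_add _ _).trans (add_le_add h1 h2)) (ω.on_nonneg _)
      zero_le_one
  · simp only [fourRow]
    simp only [Fin.reduceFinMk, Matrix.cons_val]
    rw [ω.on_smul]
    refine le_of_le_of_eq ?_ (show (1 : ℝ) * (1 + 1) = 2 by norm_num)
    exact mul_le_mul norm_inv_sqrt_two ((ω.on_sub _ _).trans (add_le_add h1 h2)) (ω.on_nonneg _)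
      zero_le_one

theorem nrm_fourRow_le {u v : G → B} {R : ℝ} (hu : ∀ g ∈ F, ω.nrm (u g) ≤ R)
    (hv : ∀ g ∈ F, ω.nrm (v g) ≤ R) (a : Fin 4) : ∀ g ∈ F, ω.nrm (fourRow u v a g) ≤ 2 * R := by
  intro g hg
  have h1 := hu g hg
  have h2 := hv g hg
  have hR : 0 ≤ R := (ω.nrm_nonneg _).trans h1
  fin_cases a
  · exact h1.trans (by linarith)
  · exact h2.trans (by linarith)
  · simp only [fourRow, Fin.reduceFinMk, Matrix.cons_val]
    rw [ω.nrm_smul, show 2 * R = 1 * (R + R) by ring]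
    exact mul_le_mul norm_inv_sqrt_two ((ω.nrm_add _ _).trans (add_le_add h1 h2)) (ω.nrm_nonneg _)
      zero_le_one
  · simp only [fourRow, Fin.reduceFinMk, Matrix.cons_val]
    rw [ω.nrm_smul, show 2 * R = 1 * (R + R) by ring]
    exact mul_le_mul norm_inv_sqrt_two ((ω.nrm_sub _ _).trans (add_le_add h1 h2)) (ω.nrm_nonneg _)
      zero_le_one

theorem nrm_half_four (a b c d : B) :
    ω.nrm ((1 / 2 : ℂ) • (a + b + c + d)) ≤ ω.nrm a + ω.nrm b + ω.nrm c + ω.nrm d := by
  rw [ω.nrm_smul]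
  have h := (ω.nrm_add _ d).trans (add_le_add ((ω.nrm_add _ c).trans (add_le_add (ω.nrm_add a b) le_rfl)) le_rfl)
  have : ‖(1 / 2 : ℂ)‖ = 1 / 2 := by norm_num
  rw [this]
  linarith [ω.nrm_nonneg a, ω.nrm_nonneg b, ω.nrm_nonneg c, ω.nrm_nonneg d, ω.nrm_nonneg (a + b + c + d)]

theorem nrm_neg' (x : B) : ω.nrm (-x) = ω.nrm x := by
  rw [← neg_one_smul ℂ x, ω.nrm_smul, norm_neg, norm_one, one_mul]

omit [PartialOrder B] [StarOrderedRing B] in
theorem smul_mul_star_smul (x y : B) :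
    ((((Real.sqrt 2)⁻¹ : ℝ) : ℂ) • x) * star ((((Real.sqrt 2)⁻¹ : ℝ) : ℂ) • y) =
      (1 / 2 : ℂ) • (x * star y) := by
  rw [star_smul, smul_mul_smul_comm, Complex.star_def, Complex.conj_ofReal, ← Complex.ofReal_mul,
    inv_sqrt_two_sq]
  norm_num

theorem midErr_four {u v : G → B} (a : Fin 4) :
    midErr ω F X (fourRow u v a) (fourRow u v a) ≤ pairErr ω F X u v := by
  have n1 := midErr_nonneg ω F (X := X) u u
  have n2 := midErr_nonneg ω F (X := X) v v
  have n3 := midErr_nonneg ω F (X := 0) u v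
  have n4 := midErr_nonneg ω F (X := 0) v u
  fin_cases a
  · show midErr ω F X u u ≤ _
    unfold pairErr; linarith
  · show midErr ω F X v v ≤ _
    unfold pairErr; linarith
  all_goals
    simp only [fourRow, Fin.reduceFinMk, Matrix.cons_val]
    simp only [midErr, pairErr, ← sum_add_distrib, Pi.zero_apply, sub_zero]
    refine sum_le_sum fun h _ => sum_le_sum fun i _ => ?_
    rw [smul_mul_star_smul]
  · refine le_trans (le_of_eq ?_) (nrm_half_four ω (u h * star (u i) - X h i) (v h * star (v i) - X h i)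
      (u h * star (v i)) (v h * star (u i)))
    congr 1
    simp only [star_add, add_mul, mul_add]
    module
  · refine le_trans (le_of_eq ?_) ((nrm_half_four ω (u h * star (u i) - X h i)
      (v h * star (v i) - X h i) (-(u h * star (v i))) (-(v h * star (u i)))).trans (le_of_eq ?_))
    · congr 1
      simp only [star_sub, sub_mul, mul_sub]
      module
    · rw [nrm_neg', nrm_neg']

theorem midErr_plus_minus {u v : G → B} :
    midErr ω F 0 (fourRow u v 2) (fourRow u v 3) ≤ pairErr ω F X u v := by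
  simp only [fourRow, Fin.isValue, Matrix.cons_val]
  simp only [midErr, pairErr, ← sum_add_distrib, Pi.zero_apply, sub_zero]
  refine sum_le_sum fun h _ => sum_le_sum fun i _ => ?_
  rw [smul_mul_star_smul]
  refine le_trans (le_of_eq ?_) ((nrm_half_four ω (u h * star (u i) - X h i)
    (-(v h * star (v i) - X h i)) (-(u h * star (v i))) (v h * star (u i))).trans (le_of_eq ?_))
  · congr 1
    simp only [star_sub, add_mul, mul_sub]
    module
  · rw [nrm_neg', nrm_neg']

omit [PartialOrder B] [StarOrderedRing B] in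
theorem zf_zero (A A' : G → G → B) (u w : G → B) : zf F (mid F A 0 A') u w = 0 := by
  simp [zf, mid]

/-- Combination of eight products with cancelling main terms. -/
theorem nrm_eight {K : ℝ} (t : Fin 8 → B) (h : ∀ j, ω.nrm (t j) ≤ K) : ω.nrm (∑ j, t j) ≤ 8 * K := by
  refine (ω.nrm_sum _ _).trans ((sum_le_sum fun j _ => h j).trans (le_of_eq ?_))
  simp

/-- The defect of the forms of four rows. -/
theorem nrm_defect_zf {u v : G → B} {a : ℝ} (ha0 : 0 ≤ a) (A : G → G → B)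
    (ha : ∀ g ∈ F, ∀ h ∈ F, ω.on (A g h) ≤ a) (hu : ∀ g ∈ F, ω.on (u g) ≤ 1)
    (hv : ∀ g ∈ F, ω.on (v g) ≤ 1) (j : Fin 4) :
    ω.nrm (defect (fun b => zf F A (fourRow u v b) (fourRow u v b)) j) ≤
      8 * ((F.card : ℝ) ^ 2 * (2 * a * a * 2)) * pairErr ω F X u v := by
  set K := (F.card : ℝ) ^ 2 * (2 * a * a * 2) with hK
  set Φ := pairErr ω F X u v with hΦ
  have hK0 : 0 ≤ K := by rw [hK]; positivity
  have hΦ0 : 0 ≤ Φ := pairErr_nonneg ω F u v
  have hu2 : ∀ g ∈ F, ω.on (u g) ≤ 2 := fun g hg => (hu g hg).trans one_le_two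
  have hv2 : ∀ g ∈ F, ω.on (v g) ≤ 2 := fun g hg => (hv g hg).trans one_le_two
  have hmul : ∀ (Y : G → G → B) (p q r s : G → B), (∀ g ∈ F, ω.on (p g) ≤ 2) → (∀ g ∈ F, ω.on (s g) ≤ 2) →
      midErr ω F Y q r ≤ Φ →
      ω.nrm (zf F A p q * zf F A r s - zf F (mid F A Y A) p s) ≤ K * Φ := by
    intro Y p q r s hp hs hY
    exact (nrm_zf_mul ω F zero_le_two ha0 ha ha Y hp hs).trans (mul_le_mul_of_nonneg_left hY hK0)
  have m1 : midErr ω F X u u ≤ Φ := midErr_four ω F (u := u) (v := v) 0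
  have m2 : midErr ω F X v v ≤ Φ := midErr_four ω F (u := u) (v := v) 1
  have m3 : midErr ω F 0 u v ≤ Φ := by
    rw [hΦ]; unfold pairErr
    linarith [midErr_nonneg ω F (X := X) u u, midErr_nonneg ω F (X := X) v v,
      midErr_nonneg ω F (X := 0) v u]
  have m4 : midErr ω F 0 v u ≤ Φ := by
    rw [hΦ]; unfold pairErr
    linarith [midErr_nonneg ω F (X := X) u u, midErr_nonneg ω F (X := X) v v,
      midErr_nonneg ω F (X := 0) u v]
  have h8 : K * Φ ≤ 8 * K * Φ := by nlinarith [mul_nonneg hK0 hΦ0]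
  fin_cases j
  · show ω.nrm (zf F A u u * zf F A v v) ≤ _
    have h := hmul 0 u u v v hu2 hv2 m3
    rw [zf_zero, sub_zero] at h
    exact h.trans h8
  · show ω.nrm (zf F A (fourRow u v 2) (fourRow u v 2) * zf F A (fourRow u v 3) (fourRow u v 3)) ≤ _
    have h := hmul 0 (fourRow u v 2) (fourRow u v 2) (fourRow u v 3) (fourRow u v 3)
      (on_fourRow_le ω F hu hv 2) (on_fourRow_le ω F hu hv 3) (midErr_plus_minus ω F)
    rw [zf_zero, sub_zero] at h
    exact h.trans h8
  all_goals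
    have e2 : zf F A (fourRow u v 2) (fourRow u v 2) =
        (1 / 2 : ℂ) • (zf F A u u + zf F A u v + zf F A v u + zf F A v v) := by
      simp only [fourRow, Fin.isValue, Matrix.cons_val, zf, ← sum_add_distrib, Finset.smul_sum]
      refine sum_congr rfl fun g _ => sum_congr rfl fun h _ => ?_
      simp only [star_smul, Complex.star_def, Complex.conj_ofReal, smul_mul_assoc, mul_smul_comm,
        smul_smul, ← Complex.ofReal_mul, inv_sqrt_two_sq]
      simp only [star_add, add_mul, mul_add]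
      push_cast
      module
    have e3 : zf F A (fourRow u v 3) (fourRow u v 3) =
        (1 / 2 : ℂ) • (zf F A u u - zf F A u v - zf F A v u + zf F A v v) := by
      simp only [fourRow, Fin.isValue, Matrix.cons_val, zf, ← sum_add_distrib, ← sum_sub_distrib,
        Finset.smul_sum]
      refine sum_congr rfl fun g _ => sum_congr rfl fun h _ => ?_
      simp only [star_smul, Complex.star_def, Complex.conj_ofReal, smul_mul_assoc, mul_smul_comm,
        smul_smul, ← Complex.ofReal_mul, inv_sqrt_two_sq]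
      simp only [star_sub, sub_mul, mul_sub]
      push_cast
      module
  · show ω.nrm (zf F A u u + zf F A v v - zf F A (fourRow u v 2) (fourRow u v 2) -
      zf F A (fourRow u v 3) (fourRow u v 3)) ≤ _
    rw [e2, e3]
    rw [show zf F A u u + zf F A v v - (1 / 2 : ℂ) • (zf F A u u + zf F A u v + zf F A v u + zf F A v v) -
      (1 / 2 : ℂ) • (zf F A u u - zf F A u v - zf F A v u + zf F A v v) = 0 by module, ω.nrm_zero]
    positivity
  · show ω.nrm ((zf F A u u - zf F A v v) *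
        (zf F A (fourRow u v 2) (fourRow u v 2) - zf F A (fourRow u v 3) (fourRow u v 3)) +
      (zf F A (fourRow u v 2) (fourRow u v 2) - zf F A (fourRow u v 3) (fourRow u v 3)) *
        (zf F A u u - zf F A v v)) ≤ _
    rw [e2, e3]
    rw [show (1 / 2 : ℂ) • (zf F A u u + zf F A u v + zf F A v u + zf F A v v) -
      (1 / 2 : ℂ) • (zf F A u u - zf F A u v - zf F A v u + zf F A v v) =
        zf F A u v + zf F A v u by module]
    set W1 := zf F (mid F A X A) u v
    set W2 := zf F (mid F A X A) v u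
    set t : Fin 8 → B := ![zf F A u u * zf F A u v - W1, zf F A u u * zf F A v u,
      -(zf F A v v * zf F A u v), -(zf F A v v * zf F A v u - W2), zf F A u v * zf F A u u,
      -(zf F A u v * zf F A v v - W1), zf F A v u * zf F A u u - W2, -(zf F A v u * zf F A v v)]
    rw [show (zf F A u u - zf F A v v) * (zf F A u v + zf F A v u) +
      (zf F A u v + zf F A v u) * (zf F A u u - zf F A v v) = ∑ j, t j by
        simp only [t, Fin.sum_univ_eight, Fin.isValue, Matrix.cons_val, mul_add, add_mul, mul_sub, sub_mul]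
        abel, mul_assoc]
    refine nrm_eight ω t fun j => ?_
    fin_cases j <;> simp only [t, Fin.isValue, Fin.reduceFinMk, Matrix.cons_val, nrm_neg',
      Fin.zero_eta]
    · exact hmul X u u u v hu2 hv2 m1
    · simpa [zf_zero] using hmul 0 u u v u hu2 hu2 m3
    · simpa [zf_zero] using hmul 0 v v u v hv2 hv2 m4
    · exact hmul X v v v u hv2 hu2 m2
    · simpa [zf_zero] using hmul 0 u v u u hu2 hu2 m4
    · exact hmul X u v v v hu2 hv2 m2
    · exact hmul X v u u u hv2 hu2 m1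
    · simpa [zf_zero] using hmul 0 v u v v hv2 hv2 m3

/-- The defect is Lipschitz on bounded quadruples. -/
theorem nrm_defect_sub {C : ℝ} (hC : 1 ≤ C) (x y : Fin 4 → B) (hx : ∀ a, ω.on (x a) ≤ C)
    (hy : ∀ a, ω.on (y a) ≤ C) (j : Fin 4) :
    ω.nrm (defect x j - defect y j) ≤ 8 * C * ∑ a, ω.nrm (x a - y a) := by
  have hC0 : 0 ≤ C := zero_le_one.trans hC
  have d := fun a => ω.nrm_nonneg (x a - y a)
  rw [Fin.sum_univ_four]
  fin_cases j
  · show ω.nrm (x 0 * x 1 - y 0 * y 1) ≤ _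
    refine (ω.nrm_mul_sub _ _ _ _).trans ?_
    nlinarith [mul_le_mul_of_nonneg_left (hx 1) (d 0), mul_le_mul_of_nonneg_right (hy 0) (d 1),
      d 0, d 1, d 2, d 3]
  · show ω.nrm (x 2 * x 3 - y 2 * y 3) ≤ _
    refine (ω.nrm_mul_sub _ _ _ _).trans ?_
    nlinarith [mul_le_mul_of_nonneg_left (hx 3) (d 2), mul_le_mul_of_nonneg_right (hy 2) (d 3),
      d 0, d 1, d 2, d 3]
  · show ω.nrm (x 0 + x 1 - x 2 - x 3 - (y 0 + y 1 - y 2 - y 3)) ≤ _
    rw [show x 0 + x 1 - x 2 - x 3 - (y 0 + y 1 - y 2 - y 3) =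
      (x 0 - y 0) + (x 1 - y 1) - (x 2 - y 2) - (x 3 - y 3) by abel]
    refine (ω.nrm_sub _ _).trans ((add_le_add ((ω.nrm_sub _ _).trans
      (add_le_add (ω.nrm_add _ _) le_rfl)) le_rfl).trans ?_)
    exact le_mul_of_one_le_left (by linarith [d 0, d 1, d 2, d 3]) (by linarith)
  · show ω.nrm ((x 0 - x 1) * (x 2 - x 3) + (x 2 - x 3) * (x 0 - x 1) -
      ((y 0 - y 1) * (y 2 - y 3) + (y 2 - y 3) * (y 0 - y 1))) ≤ _
    rw [add_sub_add_comm]
    have a1 : ∀ a b, ω.on (x a - x b) ≤ 2 * C := fun a b =>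
      (ω.on_sub _ _).trans (by linarith [hx a, hx b])
    have a2 : ∀ a b, ω.on (y a - y b) ≤ 2 * C := fun a b =>
      (ω.on_sub _ _).trans (by linarith [hy a, hy b])
    have e : ∀ a b, ω.nrm ((x a - x b) - (y a - y b)) ≤ ω.nrm (x a - y a) + ω.nrm (x b - y b) :=
      fun a b => by rw [sub_sub_sub_comm]; exact ω.nrm_sub _ _
    have b1 := (ω.nrm_mul_sub (x 0 - x 1) (x 2 - x 3) (y 0 - y 1) (y 2 - y 3)).trans
      (add_le_add (mul_le_mul (e 0 1) (a1 2 3) (ω.on_nonneg _) (by linarith [d 0, d 1]))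
        (mul_le_mul (a2 0 1) (e 2 3) (ω.nrm_nonneg _) (by linarith)))
    have b2 := (ω.nrm_mul_sub (x 2 - x 3) (x 0 - x 1) (y 2 - y 3) (y 0 - y 1)).trans
      (add_le_add (mul_le_mul (e 2 3) (a1 0 1) (ω.on_nonneg _) (by linarith [d 2, d 3]))
        (mul_le_mul (a2 2 3) (e 0 1) (ω.nrm_nonneg _) (by linarith)))
    refine (ω.nrm_add _ _).trans ((add_le_add b1 b2).trans ?_)
    nlinarith [d 0, d 1, d 2, d 3]

end Vale.Agent.P095
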