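import Vale.Agent.P095.Upgrade.Defs

/-!
# P095: tools for the model: operator norms in a trace representation, sign averages, quadratic forms of rows
-/

open scoped ComplexOrder InnerProductSpace
open Complex Finset

namespace Vale.Agent.P095

variable {B : Type*} [CStarAlgebra B] [PartialOrder B] [StarOrderedRing B]

namespace Tr

variable (ω : Tr B)

/-- The operator norm in the trace representation. -/
noncomputable def on (x : B) : ℝ := ‖ω.rep x‖

theorem on_nonneg (x : B) : 0 ≤ ω.on x := norm_nonneg (ω.rep x)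

theorem on_le (x : B) : ω.on x ≤ ‖x‖ := NonUnitalStarAlgHom.norm_apply_le ω.rep x

theorem on_add (x y : B) : ω.on (x + y) ≤ ω.on x + ω.on y := by
  unfold on; rw [map_add]; exact norm_add_le _ _

theorem on_sub (x y : B) : ω.on (x - y) ≤ ω.on x + ω.on y := by
  unfold on; rw [map_sub]; exact norm_sub_le _ _

theorem on_mul (x y : B) : ω.on (x * y) ≤ ω.on x * ω.on y := by
  unfold on; rw [map_mul]; exact norm_mul_le _ _

theorem on_smul (c : ℂ) (x : B) : ω.on (c • x) = ‖c‖ * ω.on x := by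
  unfold on; rw [map_smul, norm_smul]

theorem on_star (x : B) : ω.on (star x) = ω.on x := by
  unfold on; rw [map_star]; exact ContinuousLinearMap.adjoint.norm_map (ω.rep x)

theorem on_zero : ω.on 0 = 0 := by simp [on]

theorem on_sum {ι : Type*} (s : Finset ι) (x : ι → B) :
    ω.on (∑ i ∈ s, x i) ≤ ∑ i ∈ s, ω.on (x i) := by
  unfold on; rw [map_sum]; exact norm_sum_le _ _

theorem nrm_mul_left' (a x : B) : ω.nrm (a * x) ≤ ω.on a * ω.nrm x := by
  have h := (ω.rep a).le_opNorm ((ω.f.toPreGNS x : ω.f.PreGNS) : ω.f.GNS)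
  have he : ω.rep a ((ω.f.toPreGNS x : ω.f.PreGNS) : ω.f.GNS) =
      ((ω.f.toPreGNS (a * x) : ω.f.PreGNS) : ω.f.GNS) := by
    simp [rep, PositiveLinearMap.gnsStarAlgHom]
  rw [he, UniformSpace.Completion.norm_coe, UniformSpace.Completion.norm_coe] at h
  exact h

theorem nrm_mul_right' (a x : B) : ω.nrm (x * a) ≤ ω.nrm x * ω.on a := by
  rw [← nrm_star, star_mul, mul_comm, ← on_star, ← ω.nrm_star x]
  exact ω.nrm_mul_left' _ _

theorem nrm_mul_mul (a x b : B) : ω.nrm (a * x * b) ≤ ω.on a * ω.nrm x * ω.on b :=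
  (ω.nrm_mul_right' _ _).trans (mul_le_mul_of_nonneg_right (ω.nrm_mul_left' _ _) (ω.on_nonneg _))

/-- Difference of products. -/
theorem nrm_mul_sub (a b a' b' : B) :
    ω.nrm (a * b - a' * b') ≤ ω.nrm (a - a') * ω.on b + ω.on a' * ω.nrm (b - b') := by
  rw [show a * b - a' * b' = (a - a') * b + a' * (b - b') by noncomm_ring]
  exact (ω.nrm_add _ _).trans (add_le_add (ω.nrm_mul_right' _ _) (ω.nrm_mul_left' _ _))

end Tr

/-- The square of a sign. -/
def sg (b : Bool) : ℝ := if b then 1 else -1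

theorem sg_sq (b : Bool) : sg b * sg b = 1 := by cases b <;> simp [sg]

theorem sg_not (b : Bool) : sg (!b) = -sg b := by cases b <;> simp [sg]

/-- A function odd under an involution has zero sum. -/
theorem sum_eq_zero_of_odd {Ω : Type*} [Fintype Ω] (φ : Ω → Ω) (hφ : Function.Involutive φ)
    (f : Ω → ℝ) (h : ∀ x, f (φ x) = -f x) : ∑ x, f x = 0 := by
  have h1 : ∑ x, f (φ x) = ∑ x, f x := Equiv.sum_comp hφ.toPerm f
  simp only [h, sum_neg_distrib] at h1
  linarith

/-- Flip one coordinate. -/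
def flipAt {n : ℕ} (i : Fin n) (s : Fin n → Bool) : Fin n → Bool :=
  fun b => if b = i then !(s b) else s b

theorem flipAt_involutive {n : ℕ} (i : Fin n) : Function.Involutive (flipAt i) := by
  intro s; funext b; by_cases h : b = i <;> simp [flipAt, h]

theorem sg_flipAt_self {n : ℕ} (i : Fin n) (s : Fin n → Bool) : sg (flipAt i s i) = -sg (s i) := by
  simp [flipAt, sg_not]

theorem flipAt_ne {n : ℕ} {i b : Fin n} (h : b ≠ i) (s : Fin n → Bool) : flipAt i s b = s b := by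
  simp [flipAt, h]

/-- Orthogonality of characters. -/
theorem sum_norm_sq_orth {Ω ι E : Type*} [Fintype Ω] [Fintype ι] [SeminormedAddCommGroup E]
    [InnerProductSpace ℂ E] (χ : Ω → ι → ℝ) (hsq : ∀ ω i, χ ω i * χ ω i = 1)
    (horth : ∀ i j, i ≠ j → ∑ ω, χ ω i * χ ω j = 0) (y : ι → E) :
    ∑ ω, ‖∑ i, ((χ ω i : ℝ) : ℂ) • y i‖ ^ 2 = Fintype.card Ω * ∑ i, ‖y i‖ ^ 2 := by
  classical
  have h : ∀ ω, ‖∑ i, ((χ ω i : ℝ) : ℂ) • y i‖ ^ 2 =
      ∑ i, ∑ j, (χ ω i * χ ω j) * (⟪y i, y j⟫_ℂ).re := by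
    intro ω
    rw [@norm_sq_eq_re_inner ℂ]
    simp only [sum_inner, inner_sum, inner_smul_left, inner_smul_right, Complex.conj_ofReal,
      RCLike.re_to_complex, Complex.re_sum, Complex.re_ofReal_mul]
    rw [sum_comm]
    refine sum_congr rfl fun i _ => ?_
    rw [mul_sum]
    exact sum_congr rfl fun j _ => by ring
  simp only [h]
  rw [sum_comm, mul_sum]
  refine sum_congr rfl fun i _ => ?_
  rw [sum_comm, sum_eq_single i]
  · rw [@norm_sq_eq_re_inner ℂ, ← Finset.sum_mul]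
    simp [hsq]
  · intro j _ hj
    rw [← Finset.sum_mul, horth i j (Ne.symm hj), zero_mul]
  · simp

/-- Independent signs. -/
theorem sum_sign_pair {n : ℕ} {E : Type*} [SeminormedAddCommGroup E] [InnerProductSpace ℂ E]
    (x : Fin n → Fin n → E) :
    ∑ s : Signs n, ‖∑ b, ∑ c, ((sg (s.1 b) * sg (s.2 c) : ℝ) : ℂ) • x b c‖ ^ 2 =
      Fintype.card (Signs n) * ∑ b, ∑ c, ‖x b c‖ ^ 2 := by
  have h := sum_norm_sq_orth (fun (s : Signs n) (p : Fin n × Fin n) => sg (s.1 p.1) * sg (s.2 p.2))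
    (fun s p => by rw [mul_mul_mul_comm, sg_sq, sg_sq, one_mul]) ?_ fun p => x p.1 p.2
  · simpa [Fintype.sum_prod_type (α₁ := Fin n) (α₂ := Fin n)] using h
  · intro p p' hne
    by_cases h1 : p.1 = p'.1
    · have h2 : p'.2 ≠ p.2 := fun h => hne (Prod.ext h1 h.symm)
      refine sum_eq_zero_of_odd (fun s : Signs n => (s.1, flipAt p.2 s.2))
        (fun s => Prod.ext rfl (flipAt_involutive p.2 s.2)) _ fun s => ?_
      simp only [sg_flipAt_self, flipAt_ne h2]; ring
    · refine sum_eq_zero_of_odd (fun s : Signs n => (flipAt p.1 s.1, s.2))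
        (fun s => Prod.ext (flipAt_involutive p.1 s.1) rfl) _ fun s => ?_
      simp only [sg_flipAt_self, flipAt_ne (Ne.symm h1)]; ring

/-- The off diagonal part of a quadratic form in one sign vector. -/
theorem sum_sign_sq {n : ℕ} {E : Type*} [SeminormedAddCommGroup E] [InnerProductSpace ℂ E]
    (x : Fin n → Fin n → E) :
    ∑ s : Fin n → Bool, ‖∑ b, ∑ c, ((sg (s b) * sg (s c) : ℝ) : ℂ) • x b c - ∑ b, x b b‖ ^ 2 ≤
      2 * Fintype.card (Fin n → Bool) * ∑ b, ∑ c, ‖x b c‖ ^ 2 := by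
  classical
  set P : Finset (Fin n × Fin n) := univ.filter fun p => p.1 < p.2 with hP
  set y : P → E := fun p => x p.1.1 p.1.2 + x p.1.2 p.1.1 with hy
  have key : ∀ s : Fin n → Bool,
      ∑ b, ∑ c, ((sg (s b) * sg (s c) : ℝ) : ℂ) • x b c - ∑ b, x b b =
        ∑ p : P, ((sg (s p.1.1) * sg (s p.1.2) : ℝ) : ℂ) • y p := by
    intro s
    set g : Fin n → Fin n → E := fun b c => ((sg (s b) * sg (s c) : ℝ) : ℂ) • x b c with hg
    have hsplit : ∀ b c : Fin n, g b c = (if b < c then g b c else 0) + (if c < b then g b c else 0) +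
        (if b = c then x b c else 0) := by
      intro b c
      rcases lt_trichotomy b c with h | h | h
      · simp [h, h.ne, h.not_gt]
      · subst h; simp only [hg, sg_sq, lt_irrefl, if_false, if_true, zero_add, Complex.ofReal_one, one_smul]
      · simp [h, h.ne', h.not_gt]
    have h2 : ∑ b, ∑ c, (if c < b then g b c else 0) = ∑ b, ∑ c, (if b < c then g c b else 0) :=
      sum_comm
    calc ∑ b, ∑ c, g b c - ∑ b, x b b
        = ∑ b, ∑ c, (if b < c then g b c + g c b else 0) := by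
          rw [sum_congr rfl fun b _ => sum_congr rfl fun c _ => hsplit b c]
          simp only [sum_add_distrib, sum_ite_eq, mem_univ, if_true]
          rw [h2, add_sub_cancel_right]
          simp only [← sum_add_distrib, ite_add_ite, add_zero]
      _ = ∑ p ∈ P, (g p.1 p.2 + g p.2 p.1) := by
          rw [hP, sum_filter, Fintype.sum_prod_type]
      _ = _ := by
          rw [← sum_coe_sort P]
          refine sum_congr rfl fun p _ => ?_
          simp only [hg, hy, smul_add, mul_comm (sg (s p.1.2))]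
  simp only [key]
  rw [sum_norm_sq_orth (fun (s : Fin n → Bool) (p : P) => sg (s p.1.1) * sg (s p.1.2))
    (fun s p => by rw [mul_mul_mul_comm, sg_sq, sg_sq, one_mul]) ?_ y]
  · rw [mul_comm (2 : ℝ), mul_assoc]
    refine mul_le_mul_of_nonneg_left ?_ (Nat.cast_nonneg _)
    have h1 : ∀ p : P, ‖y p‖ ^ 2 ≤ 2 * (‖x p.1.1 p.1.2‖ ^ 2 + ‖x p.1.2 p.1.1‖ ^ 2) := by
      intro p
      refine (pow_le_pow_left₀ (norm_nonneg _) (norm_add_le _ _) 2).trans ?_
      nlinarith [sq_nonneg (‖x p.1.1 p.1.2‖ - ‖x p.1.2 p.1.1‖)]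
    refine (sum_le_sum fun p _ => h1 p).trans ?_
    rw [← mul_sum]
    refine mul_le_mul_of_nonneg_left ?_ (by norm_num)
    rw [sum_coe_sort P fun p => ‖x p.1 p.2‖ ^ 2 + ‖x p.2 p.1‖ ^ 2, hP, sum_filter,
      Fintype.sum_prod_type]
    have h3 : ∀ b c : Fin n, (if b < c then ‖x b c‖ ^ 2 + ‖x c b‖ ^ 2 else 0) =
        (if b < c then ‖x b c‖ ^ 2 else 0) + (if b < c then ‖x c b‖ ^ 2 else 0) := fun b c => by
      split_ifs <;> simp
    simp only [h3, sum_add_distrib]
    rw [sum_comm (f := fun b c => if b < c then ‖x c b‖ ^ 2 else 0), ← sum_add_distrib]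
    refine sum_le_sum fun b _ => ?_
    rw [← sum_add_distrib]
    refine sum_le_sum fun c _ => ?_
    rcases lt_trichotomy b c with h | h | h <;> simp [h, h.not_gt]
  · intro p p' hne
    have hlt := (mem_filter.1 p.2).2
    have hlt' := (mem_filter.1 p'.2).2
    by_cases hb : p.1.1 = p'.1.1 ∨ p.1.1 = p'.1.2
    · have hc : p.1.2 ≠ p'.1.1 ∧ p.1.2 ≠ p'.1.2 := by
        rcases hb with hb | hb
        · refine ⟨by rw [← hb]; exact hlt.ne', fun h => hne (Subtype.ext (Prod.ext hb h))⟩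
        · refine ⟨fun h => ?_, by rw [← hb]; exact hlt.ne'⟩
          rw [hb, h] at hlt
          exact hlt.not_gt hlt'
      refine sum_eq_zero_of_odd (flipAt p.1.2) (flipAt_involutive _) _ fun s => ?_
      simp only [sg_flipAt_self, flipAt_ne hlt.ne, flipAt_ne hc.1.symm, flipAt_ne hc.2.symm]; ring
    · push Not at hb
      refine sum_eq_zero_of_odd (flipAt p.1.1) (flipAt_involutive _) _ fun s => ?_
      simp only [sg_flipAt_self, flipAt_ne hlt.ne', flipAt_ne hb.1.symm, flipAt_ne hb.2.symm]; ring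

section forms

variable {G : Type*}

/-- The quadratic form of two rows. -/
noncomputable def zf (F : Finset G) (A : G → G → B) (u w : G → B) : B :=
  ∑ g ∈ F, ∑ h ∈ F, star (u g) * A g h * w h

/-- The product of the coefficient matrices with a middle matrix. -/
noncomputable def mid (F : Finset G) (A X A' : G → G → B) (g l : G) : B :=
  ∑ h ∈ F, ∑ i ∈ F, A g h * X h i * A' i l

variable (ω : Tr B) (F : Finset G) {a : ℝ} {A A' : G → G → B}

theorem on_zf_le (ha : ∀ g ∈ F, ∀ h ∈ F, ω.on (A g h) ≤ a) {u w : G → B} {U : ℝ}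
    (hu : ∀ g ∈ F, ω.on (u g) ≤ U) (hw : ∀ g ∈ F, ω.on (w g) ≤ U) :
    ω.on (zf F A u w) ≤ (F.card : ℝ) ^ 2 * (U * a * U) := by
  refine (ω.on_sum _ _).trans ((sum_le_sum fun g hg => (ω.on_sum _ _).trans
    (sum_le_sum fun h hh => ?_)).trans (le_of_eq (?_ : ∑ g ∈ F, ∑ h ∈ F, U * a * U = _)))
  · refine (ω.on_mul _ _).trans ?_
    refine mul_le_mul ((ω.on_mul _ _).trans ?_) (hw h hh) (ω.on_nonneg _) ?_
    · rw [ω.on_star]
      exact mul_le_mul (hu g hg) (ha g hg h hh) (ω.on_nonneg _) ((ω.on_nonneg _).trans (hu g hg))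
    · exact mul_nonneg ((ω.on_nonneg _).trans (hu g hg)) ((ω.on_nonneg _).trans (ha g hg h hh))
  · simp; ring

omit [PartialOrder B] [StarOrderedRing B] in
theorem zf_mul_sub (X : G → G → B) (u v w z : G → B) :
    zf F A u v * zf F A' w z - zf F (mid F A X A') u z =
      ∑ g ∈ F, ∑ h ∈ F, ∑ i ∈ F, ∑ l ∈ F,
        (star (u g) * A g h) * (v h * star (w i) - X h i) * (A' i l * z l) := by
  have h1 : zf F A u v * zf F A' w z = ∑ g ∈ F, ∑ h ∈ F, ∑ i ∈ F, ∑ l ∈ F,
      (star (u g) * A g h) * (v h * star (w i)) * (A' i l * z l) := by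
    unfold zf
    rw [Finset.sum_mul]
    refine sum_congr rfl fun g _ => ?_
    rw [Finset.sum_mul]
    refine sum_congr rfl fun h _ => ?_
    rw [Finset.mul_sum]
    refine sum_congr rfl fun i _ => ?_
    rw [Finset.mul_sum]
    refine sum_congr rfl fun l _ => ?_
    simp only [mul_assoc]
  have h2 : zf F (mid F A X A') u z = ∑ g ∈ F, ∑ h ∈ F, ∑ i ∈ F, ∑ l ∈ F,
      (star (u g) * A g h) * X h i * (A' i l * z l) := by
    unfold zf mid
    refine sum_congr rfl fun g _ => ?_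
    calc ∑ l ∈ F, star (u g) * (∑ h ∈ F, ∑ i ∈ F, A g h * X h i * A' i l) * z l
        = ∑ l ∈ F, ∑ h ∈ F, ∑ i ∈ F, (star (u g) * A g h) * X h i * (A' i l * z l) := by
          refine sum_congr rfl fun l _ => ?_
          rw [Finset.mul_sum, Finset.sum_mul]
          refine sum_congr rfl fun h _ => ?_
          rw [Finset.mul_sum, Finset.sum_mul]
          refine sum_congr rfl fun i _ => ?_
          simp only [mul_assoc]
      _ = _ := by
          rw [sum_comm]
          exact sum_congr rfl fun h _ => sum_comm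
  rw [h1, h2]
  simp only [← sum_sub_distrib]
  simp only [mul_sub, sub_mul]

/-- Product of two forms. -/
theorem nrm_zf_mul {U : ℝ} (hU : 0 ≤ U) (ha0 : 0 ≤ a) (ha : ∀ g ∈ F, ∀ h ∈ F, ω.on (A g h) ≤ a)
    (ha' : ∀ g ∈ F, ∀ h ∈ F, ω.on (A' g h) ≤ a) (X : G → G → B) {u v w z : G → B}
    (hu : ∀ g ∈ F, ω.on (u g) ≤ U) (hz : ∀ g ∈ F, ω.on (z g) ≤ U) :
    ω.nrm (zf F A u v * zf F A' w z - zf F (mid F A X A') u z) ≤
      (F.card : ℝ) ^ 2 * (U * a * a * U) * ∑ h ∈ F, ∑ i ∈ F, ω.nrm (v h * star (w i) - X h i) := by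
  rw [zf_mul_sub F X u v w z]
  set d : G → G → ℝ := fun h i => ω.nrm (v h * star (w i) - X h i) with hd
  have hterm : ∀ g ∈ F, ∀ h ∈ F, ∀ i ∈ F, ∀ l ∈ F,
      ω.nrm ((star (u g) * A g h) * (v h * star (w i) - X h i) * (A' i l * z l)) ≤
        U * a * d h i * (a * U) := by
    intro g hg h hh i hi l hl
    refine (ω.nrm_mul_mul _ _ _).trans ?_
    have e1 : ω.on (star (u g) * A g h) ≤ U * a := by
      refine (ω.on_mul _ _).trans ?_
      rw [ω.on_star]
      exact mul_le_mul (hu g hg) (ha g hg h hh) (ω.on_nonneg _) hU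
    have e2 : ω.on (A' i l * z l) ≤ a * U :=
      (ω.on_mul _ _).trans (mul_le_mul (ha' i hi l hl) (hz l hl) (ω.on_nonneg _) ha0)
    exact mul_le_mul (mul_le_mul_of_nonneg_right e1 (ω.nrm_nonneg _)) e2 (ω.on_nonneg _)
      (mul_nonneg (mul_nonneg hU ha0) (ω.nrm_nonneg _))
  have hb : ∀ g ∈ F, ω.nrm (∑ h ∈ F, ∑ i ∈ F, ∑ l ∈ F,
      (star (u g) * A g h) * (v h * star (w i) - X h i) * (A' i l * z l)) ≤
        ∑ h ∈ F, ∑ i ∈ F, ∑ _l ∈ F, U * a * d h i * (a * U) := fun g hg =>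
    (ω.nrm_sum _ _).trans (sum_le_sum fun h hh => (ω.nrm_sum _ _).trans
      (sum_le_sum fun i hi => (ω.nrm_sum _ _).trans (sum_le_sum fun l hl => hterm g hg h hh i hi l hl)))
  refine (ω.nrm_sum _ _).trans ((sum_le_sum hb).trans (le_of_eq ?_))
  simp only [sum_const, nsmul_eq_mul, ← Finset.mul_sum, ← Finset.sum_mul]
  ring

end forms

end Vale.Agent.P095
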