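import Vale.Agent.P095.Upgrade.Defs

/-!
# P095: existence of rows of translated central matrix units, and their basic properties
-/

open scoped ComplexOrder

namespace Vale.Agent.P095

variable {G B : Type*} [Group G] [CStarAlgebra B] [PartialOrder B] [StarOrderedRing B]

open Classical in
theorem rows_goal (S : Sys G B) : RowsGoal S := by
  intro C F n hn
  set z : Fin n := ⟨0, hn⟩
  obtain ⟨E, hEn, hE⟩ := S.units (F.biUnion fun g => C.image (S.α g).symm) n
  have mulE : ∀ i j k l, S.Eqv (E i j * E k l) (if j = k then E i l else 0) := by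
    intro i j k l ω hω
    rw [(hE ω hω).1]
    split_ifs with h
    · rfl
    · rw [map_zero]
  have starE : ∀ i j, S.Eqv (star (E i j)) (E j i) := fun i j ω hω => (hE ω hω).2.1 i j
  have htr : ∀ ω ∈ S.Ω, ∀ c, (∀ i j, Commute (ω.rep c) (ω.rep (E i j))) → ∀ i,
      ω.f (c * E i i) = ((n : ℝ)⁻¹ : ℝ) * ω.f c := by
    intro ω hω c hc i
    obtain ⟨r1, -, r3, -⟩ := hE ω hω
    have h : ∀ j, ω.f (c * E j j) = ω.f (c * E i i) := by
      intro j
      have e1 : ω.rep (c * E j j) = ω.rep (c * E j i * E i j) := by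
        rw [mul_assoc, map_mul, map_mul (ω.rep) c, r1, if_pos rfl]
      have e2 : ω.rep (E i j * (c * E j i)) = ω.rep (c * E i i) := by
        rw [map_mul, map_mul, ← mul_assoc, ← (hc i j).eq, mul_assoc, ← map_mul (ω.rep) (E i j),
          r1, if_pos rfl, map_mul]
      rw [ω.apply_congr e1, ω.tracial, ω.apply_congr e2]
    have hsum : ω.f c = (n : ℂ) * ω.f (c * E i i) := by
      have e3 : ω.rep (c * ∑ j, E j j) = ω.rep c := by rw [map_mul, r3 hn, mul_one]
      rw [← ω.apply_congr e3, Finset.mul_sum, map_sum]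
      simp [h]
    rw [hsum, Complex.ofReal_inv, Complex.ofReal_natCast,
      inv_mul_cancel_left₀ (Nat.cast_ne_zero.2 hn.ne')]
  have hmem : ∀ g ∈ F, ∀ c ∈ C, ∀ ω ∈ S.Ω, ∀ i j,
      Commute (ω.rep ((S.α g).symm c)) (ω.rep (E i j)) := fun g hg c hc ω hω i j =>
    (hE ω hω).2.2.2 _ (Finset.mem_biUnion.2 ⟨g, hg, Finset.mem_image_of_mem _ hc⟩) i j
  have hcomm : ∀ g ∈ F, ∀ c ∈ C, ∀ i j, ∀ ω ∈ S.Ω,
      Commute (ω.rep c) (ω.rep (S.α g (E i j))) := by
    intro g hg c hc i j ω hω
    have h : S.Eqv ((S.α g).symm c * E i j) (E i j * (S.α g).symm c) := fun ω' hω' => by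
      rw [map_mul, map_mul]; exact (hmem g hg c hc ω' hω' i j).eq
    have := h.map g ω hω
    rwa [map_mul (S.α g), map_mul (S.α g), StarAlgEquiv.apply_symm_apply, map_mul, map_mul]
      at this
  refine ⟨{
    r := fun g b => S.α g (E z b)
    e := fun g => S.α g (E z z)
    norm_r := fun g b => by rw [Sys.norm_α]; exact hEn z b
    r_map := fun k g b => (S.α_mul k g _).symm
    orth := fun g b c => ?_
    e_idem := fun g => ?_
    e_mul := fun g b => ?_
    e_trace := fun g ω hω => ?_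
    weight := fun g hg c hc b ω hω => ?_
    comm := fun g hg c hc b ω hω => ⟨hcomm g hg c hc z b ω hω, ?_⟩ }⟩
  · have h := (((Sys.Eqv.refl (E z b)).mul (starE z c)).trans (mulE z b c z)).map g
    rw [map_mul, map_star] at h
    convert h using 1
    split_ifs <;> simp
  · rw [← map_mul]
    exact ((mulE z z z z).trans (Sys.Eqv.of_eq (if_pos rfl))).map g
  · rw [← map_mul]
    exact ((mulE z z z b).trans (Sys.Eqv.of_eq (if_pos rfl))).map g
  · obtain ⟨ω', hω', hf⟩ := S.invariant ω hω g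
    have h := htr ω' hω' 1 (fun i j => by rw [map_one]; exact Commute.one_left _) z
    rwa [one_mul, ω'.map_one', mul_one, hf] at h
  · obtain ⟨ω', hω', hf⟩ := S.invariant ω hω g
    have h := htr ω' hω' ((S.α g).symm c) (hmem g hg c hc ω' hω') b
    rw [hf, hf, map_mul, StarAlgEquiv.apply_symm_apply] at h
    have hb : S.Eqv (star (E z b) * E z b) (E b b) :=
      ((starE z b).mul (Sys.Eqv.refl _)).trans ((mulE b z z b).trans (Sys.Eqv.of_eq (if_pos rfl)))
    rw [← h, ← map_star, ← map_mul]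
    exact ((Sys.Eqv.refl c).mul (hb.map g)).apply hω
  · rw [← map_star, (starE z b).map g ω hω]
    exact hcomm g hg c hc b z ω hω

namespace Rows

variable {S : Sys G B} {C : Finset B} {F : Finset G} {n : ℕ} (P : Rows S C F n)

theorem row_map (k g : G) (v : Fin n → ℂ) : S.α k (P.row v g) = P.row v (k * g) := by
  simp [row, map_sum, map_smul, P.r_map]

theorem Y_nonneg (v : Fin n → ℂ) : 0 ≤ P.Y v :=
  smul_nonneg (by positivity) (Finset.sum_nonneg fun _ _ => star_mul_self_nonneg _)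

theorem rep_orth {ω : Tr B} (hω : ω ∈ S.Ω) (g : G) (b c : Fin n) :
    ω.rep (P.r g b) * ω.rep (star (P.r g c)) = if b = c then ω.rep (P.e g) else 0 := by
  rw [← map_mul, P.orth g b c ω hω]
  split_ifs with h
  · rfl
  · rw [map_zero]

theorem row_mul_star (v : Fin n → ℂ) (g : G) :
    S.Eqv (P.row v g * star (P.row v g)) (((∑ b, ‖v b‖ ^ 2 : ℝ) : ℂ) • P.e g) := by
  intro ω hω
  simp only [row, star_sum, star_smul, star_star, Finset.sum_mul, Finset.mul_sum, map_sum,
    smul_mul_smul_comm, map_smul, map_mul, P.rep_orth hω, smul_ite, smul_zero]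
  simp only [Finset.sum_ite_eq', Finset.mem_univ, if_true]
  rw [← Finset.sum_smul]
  congr 1
  push_cast
  exact Finset.sum_congr rfl fun b _ => Complex.conj_mul' (v b)

theorem e_row (v : Fin n → ℂ) (g : G) : S.Eqv (P.e g * P.row v g) (P.row v g) := by
  intro ω hω
  simp only [row, Finset.mul_sum, map_sum, mul_smul_comm, map_smul]
  exact Finset.sum_congr rfl fun b _ => by rw [P.e_mul g b ω hω]

theorem row_self_trace (v : Fin n → ℂ) (g : G) {ω : Tr B} (hω : ω ∈ S.Ω) :
    ω.f (star (P.row v g) * P.row v g) = (((∑ b, ‖v b‖ ^ 2) / n : ℝ) : ℂ) := by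
  rw [ω.tracial, (P.row_mul_star v g).apply hω, map_smul, P.e_trace g ω hω, smul_eq_mul]
  push_cast
  ring

theorem Y_map (k : G) (v : Fin n → ℂ) : S.α k (P.Y v) =
    (F.card : ℝ)⁻¹ • ∑ g ∈ F, star (P.row v (k * g)) * P.row v (k * g) := by
  rw [Y, Sys.α_rsmul, map_sum]
  exact congrArg _ (Finset.sum_congr rfl fun g _ => by rw [map_mul, map_star, P.row_map])

theorem Y_trace (hF : F.Nonempty) (v : Fin n → ℂ) {ω : Tr B} (hω : ω ∈ S.Ω) :
    ω.f (P.Y v) = (((∑ b, ‖v b‖ ^ 2) / n : ℝ) : ℂ) := by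
  rw [Y, ω.apply_rsmul, map_sum, Finset.sum_congr rfl fun g _ => P.row_self_trace v g hω,
    Finset.sum_const, nsmul_eq_mul, ← mul_assoc, Complex.ofReal_inv, Complex.ofReal_natCast,
    inv_mul_cancel₀ (Nat.cast_ne_zero.2 hF.card_pos.ne'), one_mul]

theorem row_comm (v : Fin n → ℂ) {g : G} (hg : g ∈ F) {c : B} (hc : c ∈ C) {ω : Tr B}
    (hω : ω ∈ S.Ω) :
    Commute (ω.rep c) (ω.rep (P.row v g)) ∧ Commute (ω.rep c) (ω.rep (star (P.row v g))) := by
  constructor
  · rw [row, map_sum]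
    exact Commute.sum_right _ _ _ fun b _ => by
      rw [map_smul]; exact (P.comm g hg c hc b ω hω).1.smul_right _
  · rw [row, star_sum, map_sum]
    exact Commute.sum_right _ _ _ fun b _ => by
      rw [star_smul, map_smul]; exact (P.comm g hg c hc b ω hω).2.smul_right _

theorem Y_comm (v : Fin n → ℂ) {c : B} (hc : c ∈ C) {ω : Tr B} (hω : ω ∈ S.Ω) :
    Commute (ω.rep c) (ω.rep (P.Y v)) := by
  rw [Y, ← Complex.coe_smul, map_smul, map_sum]
  refine (Commute.sum_right _ _ _ fun g hg => ?_).smul_right _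
  rw [map_mul]
  exact (P.row_comm v hg hc hω).2.mul_right (P.row_comm v hg hc hω).1

/-- The weight of `Y v` against elements of `C`. -/
theorem Y_weight (hF : F.Nonempty) (v : Fin n → ℂ) {c : B} (hc : c ∈ C) {ω : Tr B}
    (hω : ω ∈ S.Ω) :
    ω.f (c * P.Y v) = (((∑ b, ‖v b‖ ^ 2) / n : ℝ) : ℂ) * ω.f c := by
  have h0 : ∀ g ∈ F, ∀ b b', ω.f (c * (star (P.r g b) * P.r g b')) =
      if b = b' then ((n : ℝ)⁻¹ : ℝ) * ω.f c else 0 := by
    intro g hg b b'
    by_cases h : b = b'
    · subst h; rw [if_pos rfl]; exact P.weight g hg c hc b ω hω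
    · rw [if_neg h, ← mul_assoc, ω.tracial]
      have e : ω.rep (P.r g b' * (c * star (P.r g b))) = ω.rep 0 := by
        rw [map_mul, map_mul, ← mul_assoc, ← (P.comm g hg c hc b' ω hω).1.eq, mul_assoc,
          P.rep_orth hω, if_neg (Ne.symm h), mul_zero, map_zero]
      rw [ω.apply_congr e, map_zero]
  have h1 : ∀ g ∈ F, ω.f (c * (star (P.row v g) * P.row v g)) =
      (((∑ b, ‖v b‖ ^ 2) / n : ℝ) : ℂ) * ω.f c := by
    intro g hg
    have e1 : c * (star (P.row v g) * P.row v g) =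
        ∑ b', ∑ b, (v b * star (v b')) • (c * (star (P.r g b) * P.r g b')) := by
      simp only [row, star_sum, star_smul, star_star, Finset.sum_mul, Finset.mul_sum,
        smul_mul_assoc, mul_smul_comm]
      refine Finset.sum_congr rfl fun b' _ => ?_
      rw [Finset.smul_sum]
      exact Finset.sum_congr rfl fun b _ => by rw [smul_smul, mul_comm]
    rw [e1]
    simp only [map_sum, map_smul, h0 g hg, smul_eq_mul, mul_ite, mul_zero, Finset.sum_ite_eq',
      Finset.mem_univ, if_true]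
    push_cast
    rw [← Finset.sum_mul, div_eq_mul_inv, mul_assoc]
    congr 1
    exact Finset.sum_congr rfl fun b _ => by rw [← Complex.mul_conj' (v b)]; rfl
  rw [Y, mul_smul_comm, ω.apply_rsmul, Finset.mul_sum, map_sum, Finset.sum_congr rfl h1,
    Finset.sum_const, nsmul_eq_mul, ← mul_assoc, Complex.ofReal_inv, Complex.ofReal_natCast,
    inv_mul_cancel₀ (Nat.cast_ne_zero.2 hF.card_pos.ne'), one_mul]

end Rows

end Vale.Agent.P095
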