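import Vale.Agent.P095.Upgrade.Defs
import Vale.Agent.P095.Upgrade.Rows
import Vale.Agent.P095.Powers

/-!
# P095: the ramps and the square root of an average of small projections
-/

open scoped ComplexOrder

namespace Vale.Agent.P095

variable {B : Type*} [CStarAlgebra B] [PartialOrder B] [StarOrderedRing B]

theorem sum_hat (u : ℝ) (hu : 0 ≤ u) : ∀ m : ℕ,
    ∑ j ∈ Finset.range (m + 1), max 0 (1 - |u - j|) = min 1 (max 0 ((m : ℝ) + 1 - u)) := by
  intro m
  induction m with
  | zero =>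
    rw [Finset.sum_range_one, Nat.cast_zero, sub_zero, abs_of_nonneg hu, zero_add,
      min_eq_right (max_le zero_le_one (by linarith))]
  | succ k ih =>
    rw [Finset.sum_range_succ, ih]
    push_cast
    rcases le_total u k with h | h
    · rw [min_eq_left (le_max_of_le_right (by linarith)),
        abs_of_nonpos (by linarith : u - ((k : ℝ) + 1) ≤ 0),
        max_eq_left (by linarith : 1 - -(u - ((k : ℝ) + 1)) ≤ 0),
        min_eq_left (le_max_of_le_right (by linarith))]
      ring
    · rcases le_total u (k + 1) with h2 | h2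
      · rw [max_eq_right (by linarith : (0 : ℝ) ≤ k + 1 - u),
          min_eq_right (by linarith : (k : ℝ) + 1 - u ≤ 1),
          abs_of_nonpos (by linarith : u - ((k : ℝ) + 1) ≤ 0),
          max_eq_right (by linarith : (0 : ℝ) ≤ 1 - -(u - ((k : ℝ) + 1))),
          min_eq_left (le_max_of_le_right (by linarith))]
        ring
      · rw [max_eq_left (by linarith : (k : ℝ) + 1 - u ≤ 0), min_eq_right zero_le_one,
          abs_of_nonneg (by linarith : 0 ≤ u - ((k : ℝ) + 1)), zero_add,
          min_eq_right (max_le zero_le_one (by linarith))]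
        congr 1; ring

theorem mem_Icc_of_spectrum {a : B} (ha : 0 ≤ a) {R : ℝ} (hR : ‖a‖ ≤ R) {x : ℝ}
    (hx : x ∈ spectrum ℝ a) : x ∈ Set.Icc 0 R := by
  have := norm_apply_le_norm_cfc (fun t : ℝ => t) a hx
  rw [cfc_id' ℝ a, Real.norm_eq_abs] at this
  exact ⟨spectrum_nonneg_of_nonneg ha hx, (le_abs_self x).trans (this.trans hR)⟩

/-- A kernel non-negative on a square gives a non-negative trace. -/
theorem Tr.kernel_nonneg (ω : Tr B) {ι : Type*} [Fintype ι] (f g : ι → ℝ → ℝ)
    (hf : ∀ i, Continuous (f i)) (hg : ∀ i, Continuous (g i)) {a b : B} (ha : 0 ≤ a) (hb : 0 ≤ b)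
    (h : ∀ x y : ℝ, 0 ≤ x → 0 ≤ y → 0 ≤ ∑ i, f i x * g i y) :
    0 ≤ ∑ i, (ω.f (cfc (f i) a * cfc (g i) b)).re := by
  set R : ℝ := ‖a‖ + ‖b‖ + 1 with hR
  have hR0 : 0 < R := by positivity
  have hFc : Continuous fun x : ℝ => fun i => f i x := continuous_pi hf
  have hGc : Continuous fun x : ℝ => fun i => g i x := continuous_pi hg
  have hK : IsCompact (Set.Icc (0 : ℝ) R) := isCompact_Icc
  obtain ⟨M₁, hM₁⟩ := hK.exists_bound_of_continuousOn hFc.continuousOn
  obtain ⟨M₂, hM₂⟩ := hK.exists_bound_of_continuousOn hGc.continuousOn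
  set M := |M₁| + |M₂| with hM
  refine le_of_forall_pos_le_add fun ε hε => ?_
  set η := min 1 (ε / ((Fintype.card ι : ℝ) * (2 * M + 1) + 1)) with hη'
  have hη : 0 < η := lt_min one_pos (by positivity)
  have hη1 : η ≤ 1 := min_le_left _ _
  obtain ⟨δ₁, hδ₁, hu₁⟩ :=
    Metric.uniformContinuousOn_iff.1 (hK.uniformContinuousOn_of_continuous hFc.continuousOn) η hη
  obtain ⟨δ₂, hδ₂, hu₂⟩ :=
    Metric.uniformContinuousOn_iff.1 (hK.uniformContinuousOn_of_continuous hGc.continuousOn) η hη
  obtain ⟨m, hm⟩ := exists_nat_gt (R / min δ₁ δ₂)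
  have hm0 : (0 : ℝ) < m := lt_of_le_of_lt (by positivity) hm
  have hsep : R / m < min δ₁ δ₂ := by
    rw [div_lt_iff₀ hm0]; rw [div_lt_iff₀ (lt_min hδ₁ hδ₂)] at hm; linarith
  set x : ℕ → ℝ := fun j => R * j / m with hx'
  set hat : ℕ → ℝ → ℝ := fun j t => max 0 (1 - |(m : ℝ) * t / R - j|) with hhat
  have hhc : ∀ j, Continuous (hat j) := fun j => by rw [hhat]; fun_prop
  have hxmem : ∀ j ∈ Finset.range (m + 1), x j ∈ Set.Icc 0 R := by
    intro j hj
    have : (j : ℝ) ≤ m := by exact_mod_cast Nat.lt_succ_iff.1 (Finset.mem_range.1 hj)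
    refine ⟨by positivity, ?_⟩
    simp only [hx', div_le_iff₀ hm0]
    gcongr
  have hdist : ∀ t j, hat j t ≠ 0 → dist (x j) t < min δ₁ δ₂ := by
    intro t j hj
    have h1 : |(m : ℝ) * t / R - j| < 1 := by
      by_contra hge
      exact hj (max_eq_left (by linarith))
    refine lt_of_le_of_lt ?_ hsep
    have e : (x j : ℝ) - t = -(R / m) * ((m : ℝ) * t / R - j) := by
      simp only [hx']; field_simp; ring
    rw [Real.dist_eq, e, abs_mul, abs_neg, abs_of_pos (by positivity : 0 < R / (m : ℝ))]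
    exact mul_le_of_le_one_right (by positivity) h1.le
  have hone : ∀ t ∈ Set.Icc (0 : ℝ) R, ∑ j ∈ Finset.range (m + 1), hat j t = 1 := by
    intro t ht
    rw [sum_hat _ (by have := ht.1; positivity) m]
    have : (m : ℝ) * t / R ≤ m := by rw [div_le_iff₀ hR0]; gcongr; exact ht.2
    exact min_eq_left (le_max_of_le_right (by linarith))
  let P : (ℝ → ℝ) → ℝ → ℝ := fun u t => ∑ j ∈ Finset.range (m + 1), u (x j) * hat j t
  have hPc : ∀ u, Continuous (P u) := fun u =>
    continuous_finsetSum _ fun j _ => continuous_const.mul (hhc j)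
  have hclose : ∀ (u : ℝ → ℝ) (t : ℝ), t ∈ Set.Icc 0 R →
      (∀ p ∈ Set.Icc 0 R, dist p t < min δ₁ δ₂ → |u p - u t| ≤ η) → |u t - P u t| ≤ η := by
    intro u t ht hu
    have e : P u t - u t = ∑ j ∈ Finset.range (m + 1), (u (x j) - u t) * hat j t := by
      simp only [P, sub_mul, Finset.sum_sub_distrib, ← Finset.mul_sum, hone t ht, mul_one]
    rw [abs_sub_comm, e]
    refine (Finset.abs_sum_le_sum_abs _ _).trans ?_
    calc _ ≤ ∑ j ∈ Finset.range (m + 1), η * hat j t := Finset.sum_le_sum fun j hj => by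
          have hh : 0 ≤ hat j t := le_max_left _ _
          rw [abs_mul, abs_of_nonneg hh]
          rcases eq_or_ne (hat j t) 0 with h0 | h0
          · simp [h0]
          · exact mul_le_mul_of_nonneg_right (hu _ (hxmem j hj) (hdist t j h0)) hh
      _ = η := by rw [← Finset.mul_sum, hone t ht, mul_one]
  have hA : ∀ (u : ι → ℝ → ℝ) (δ : ℝ) (N : ℝ) (c : B), 0 ≤ c → ‖c‖ ≤ R → min δ₁ δ₂ ≤ δ →
      (∀ i, Continuous (u i)) →
      (∀ p ∈ Set.Icc (0 : ℝ) R, ∀ q ∈ Set.Icc (0 : ℝ) R, dist p q < δ →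
        dist (fun i => u i p) (fun i => u i q) < η) →
      (∀ p ∈ Set.Icc (0 : ℝ) R, ‖fun i => u i p‖ ≤ N) → ∀ i,
      ‖cfc (u i) c‖ ≤ |N| ∧ ‖cfc (u i) c - cfc (P (u i)) c‖ ≤ η := by
    intro u δ N c hc hcR hδ huc hu hN i
    refine ⟨norm_cfc_le (abs_nonneg _) fun t ht => ?_, ?_⟩
    · exact ((norm_le_pi_norm (fun k => u k t) i).trans
        (hN t (mem_Icc_of_spectrum hc hcR ht))).trans (le_abs_self _)
    · rw [← cfc_sub _ _ c (huc i).continuousOn (hPc _).continuousOn]
      refine norm_cfc_le hη.le fun t ht => ?_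
      rw [Real.norm_eq_abs]
      refine hclose _ t (mem_Icc_of_spectrum hc hcR ht) fun p hp hd => ?_
      rw [← Real.dist_eq]
      exact (dist_le_pi_dist (fun k => u k p) (fun k => u k t) i).trans
        (hu p hp t (mem_Icc_of_spectrum hc hcR ht) (lt_of_lt_of_le hd hδ)).le
  have ha' : ‖a‖ ≤ R := by rw [hR]; linarith [norm_nonneg b]
  have hb' : ‖b‖ ≤ R := by rw [hR]; linarith [norm_nonneg a]
  have hpair : ∀ i, |(ω.f (cfc (P (f i)) a * cfc (P (g i)) b)).re -
      (ω.f (cfc (f i) a * cfc (g i) b)).re| ≤ η * (2 * M + 1) := by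
    intro i
    obtain ⟨p1, p2⟩ := hA f δ₁ M₁ a ha ha' (min_le_left _ _) hf hu₁ hM₁ i
    obtain ⟨q1, q2⟩ := hA g δ₂ M₂ b hb hb' (min_le_right _ _) hg hu₂ hM₂ i
    rw [← Complex.sub_re, ← map_sub]
    refine (ω.abs_re_apply_le _).trans ((ω.nrm_le_norm _).trans ?_)
    have e : cfc (P (f i)) a * cfc (P (g i)) b - cfc (f i) a * cfc (g i) b =
        -(cfc (f i) a - cfc (P (f i)) a) * cfc (P (g i)) b -
          cfc (f i) a * (cfc (g i) b - cfc (P (g i)) b) := by noncomm_ring
    have hP : ‖cfc (P (g i)) b‖ ≤ |M₂| + η := by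
      have := norm_sub_norm_le (cfc (P (g i)) b) (cfc (g i) b)
      rw [norm_sub_rev] at this
      linarith
    rw [e]
    refine (norm_sub_le _ _).trans ?_
    refine (add_le_add (norm_mul_le _ _) (norm_mul_le _ _)).trans ?_
    rw [norm_neg]
    refine (add_le_add (mul_le_mul p2 hP (norm_nonneg _) hη.le)
      (mul_le_mul p1 q2 (norm_nonneg _) (abs_nonneg _))).trans ?_
    nlinarith [abs_nonneg M₁, abs_nonneg M₂]
  have hpos : 0 ≤ ∑ i, (ω.f (cfc (P (f i)) a * cfc (P (g i)) b)).re := by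
    have e : ∀ (u : ℝ → ℝ) (c : B), cfc (P u) c =
        ∑ j ∈ Finset.range (m + 1), u (x j) • cfc (hat j) c := fun u c => by
      rw [← Finset.sum_congr rfl fun j _ =>
          cfc_const_mul (u (x j)) (hat j) c (hhc j).continuousOn,
        ← cfc_sum (fun j t => u (x j) * hat j t) c _
          fun j _ => (continuous_const.mul (hhc j)).continuousOn]
      exact cfc_congr fun t _ => by simp [P, Finset.sum_apply]
    calc (0 : ℝ) ≤ ∑ j ∈ Finset.range (m + 1), ∑ k ∈ Finset.range (m + 1),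
          (∑ i, f i (x j) * g i (x k)) * (ω.f (cfc (hat j) a * cfc (hat k) b)).re :=
        Finset.sum_nonneg fun j hj => Finset.sum_nonneg fun k hk =>
          mul_nonneg (h _ _ (hxmem j hj).1 (hxmem k hk).1)
            (ω.re_mul_nonneg (cfc_nonneg fun t _ => le_max_left _ _)
              (cfc_nonneg fun t _ => le_max_left _ _))
      _ = _ := by
        simp only [e, Finset.sum_mul, Finset.mul_sum, smul_mul_assoc, mul_smul_comm,
          map_sum, Tr.apply_rsmul, Complex.re_sum, Complex.re_ofReal_mul]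
        rw [Finset.sum_comm]
        conv_rhs => rw [Finset.sum_comm]
        refine Finset.sum_congr rfl fun j _ => ?_
        rw [Finset.sum_comm]
        refine Finset.sum_congr rfl fun k _ => Finset.sum_congr rfl fun i _ => ?_
        ring
  have hsum : ∑ i, (ω.f (cfc (P (f i)) a * cfc (P (g i)) b)).re ≤
      ∑ i, ((ω.f (cfc (f i) a * cfc (g i) b)).re + η * (2 * M + 1)) :=
    Finset.sum_le_sum fun i _ => by have := (abs_le.1 (hpair i)).2; linarith
  rw [Finset.sum_add_distrib, Finset.sum_const, Finset.card_univ, nsmul_eq_mul] at hsum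
  have : (Fintype.card ι : ℝ) * (η * (2 * M + 1)) ≤ ε := by
    have h1 : η ≤ ε / ((Fintype.card ι : ℝ) * (2 * M + 1) + 1) := min_le_right _ _
    rw [le_div_iff₀ (by positivity)] at h1
    nlinarith
  linarith

theorem Tr.nrm_cfc_sub_sq (ω : Tr B) {a b : B} {u : ℝ → ℝ} (hu : Continuous u) :
    ω.nrm (cfc u a - cfc u b) ^ 2 = (ω.f (cfc (fun t => u t * u t) a)).re +
      (ω.f (cfc (fun t => u t * u t) b)).re - 2 * (ω.f (cfc u a * cfc u b)).re := by
  rw [ω.nrm_sq_self ((cfc_predicate u a).sub (cfc_predicate u b)),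
    cfc_mul u u a hu.continuousOn hu.continuousOn, cfc_mul u u b hu.continuousOn hu.continuousOn]
  simp only [mul_sub, sub_mul, map_sub, Complex.sub_re]
  rw [ω.tracial (cfc u b) (cfc u a)]
  ring

theorem continuous_ramp (T l : ℕ) : Continuous (ramp T l) := by unfold ramp; fun_prop

theorem sum_ramp (T : ℕ) (x : ℝ) : ∀ k : ℕ,
    ∑ l ∈ Finset.range k, ramp T l x = min (k : ℝ) (max 0 (T * x)) := by
  intro k
  induction k with
  | zero => simp
  | succ k ih =>
    rw [Finset.sum_range_succ, ih, ramp]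
    push_cast
    rcases le_total (T * x) 0 with h | h
    · rw [max_eq_left h, min_eq_right (Nat.cast_nonneg k),
        max_eq_left (by linarith [(Nat.cast_nonneg k : (0 : ℝ) ≤ k)]),
        min_eq_right zero_le_one, min_eq_right (by positivity), add_zero]
    · rw [max_eq_right h]
      rcases le_total (T * x) k with h2 | h2
      · rw [min_eq_right h2, max_eq_left (by linarith), min_eq_right zero_le_one,
          min_eq_right (by linarith), add_zero]
      · rw [min_eq_left h2, max_eq_right (by linarith)]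
        rcases le_total (T * x) (k + 1) with h3 | h3
        · rw [min_eq_right (by linarith), min_eq_right h3]; ring
        · rw [min_eq_left (by linarith), min_eq_left h3]

theorem sum_ramp_sub_sq (T : ℕ) {x y : ℝ} (hyx : y ≤ x) :
    ∑ l ∈ Finset.range T, (ramp T l x - ramp T l y) ^ 2 ≤ T * (x - y) := by
  have h1 : ∑ l ∈ Finset.range T, (ramp T l x - ramp T l y) ^ 2 ≤
      ∑ l ∈ Finset.range T, (ramp T l x - ramp T l y) := Finset.sum_le_sum fun l _ => by
    have a0 : ramp T l y ≤ ramp T l x := by unfold ramp; gcongr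
    have a1 : ramp T l x ≤ 1 := min_le_left _ _
    have a2 : 0 ≤ ramp T l y := le_min zero_le_one (le_max_left _ _)
    nlinarith
  rw [Finset.sum_sub_distrib, sum_ramp, sum_ramp] at h1
  refine h1.trans ?_
  have hT : (T : ℝ) * y ≤ T * x := mul_le_mul_of_nonneg_left hyx (Nat.cast_nonneg T)
  have h2 : max 0 (T * x) - max 0 (T * y) ≤ T * x - T * y := by
    rcases max_cases (0 : ℝ) (T * x) with h | h <;> rcases max_cases (0 : ℝ) (T * y) with h' | h' <;>
      linarith
  rcases min_cases (T : ℝ) (max 0 (T * x)) with h | h <;>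
    rcases min_cases (T : ℝ) (max 0 (T * y)) with h' | h' <;> linarith

theorem ramp_goal : RampGoal B := by
  intro ω T a b L μ _ ha hb hμ hL
  have hL0 : 0 ≤ L := by simpa using hL 0 (by simp)
  have hps : ω.nrm (CFC.sqrt a - CFC.sqrt b) ^ 2 ≤ L :=
    powers_stormer ω (CFC.sqrt_nonneg b) (CFC.sqrt_nonneg a) fun s hs => by
      rw [CFC.sqrt_mul_sqrt_self a ha, CFC.sqrt_mul_sqrt_self b hb]; exact hL s hs
  have es : ∀ c : B, 0 ≤ c → CFC.sqrt c = cfc Real.sqrt c := fun c hc => by
    rw [CFC.sqrt_eq_real_sqrt c hc, cfcₙ_eq_cfc]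
  rw [es a ha, es b hb] at hps
  set α : ℝ := T / μ
  set β : ℝ := T * (μ / 2 - 1 / (2 * μ)) with hβ
  have key := ω.kernel_nonneg
    (Sum.elim ![fun t => α * t + β * t, fun _ => 1, fun t => -(2 * β) * Real.sqrt t]
      fun p : Fin T × Fin 3 =>
      ![fun t => -(ramp T p.1 t * ramp T p.1 t), fun _ => 1, fun t => 2 * ramp T p.1 t] p.2)
    (Sum.elim ![fun _ => 1, fun t => α * t + β * t, Real.sqrt]
      fun p : Fin T × Fin 3 =>
      ![fun _ => 1, fun t => -(ramp T p.1 t * ramp T p.1 t), fun t => ramp T p.1 t] p.2)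
    (by rintro (i | ⟨l, i⟩) <;> fin_cases i <;> simp <;>
      first | fun_prop | (have := continuous_ramp T l; fun_prop))
    (by rintro (i | ⟨l, i⟩) <;> fin_cases i <;> simp <;>
      first | fun_prop | (have := continuous_ramp T l; fun_prop))
    ha hb (fun x y hx hy => ?_)
  · simp only [Fintype.sum_sum_type, Fintype.sum_prod_type, Fin.sum_univ_three, Sum.elim_inl,
      Sum.elim_inr, Matrix.cons_val_zero, Matrix.cons_val_one, Matrix.cons_val_two, Matrix.tail_cons, Matrix.head_cons] at key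
    have hc : ∀ l : ℕ, Continuous (ramp T l) := continuous_ramp T
    have lin : ∀ c : B, 0 ≤ c → cfc (fun t : ℝ => α * t + β * t) c = (α + β) • c := fun c hc => by
      simp only [← add_mul]
      rw [cfc_const_mul (α + β) _ c (by fun_prop), cfc_id' ℝ c]
    have sq : ∀ c : B, 0 ≤ c → cfc (fun t : ℝ => Real.sqrt t * Real.sqrt t) c = c := fun c hc => by
      conv_rhs => rw [← cfc_id' ℝ c]
      exact cfc_congr fun t ht => Real.mul_self_sqrt (spectrum_nonneg_of_nonneg hc ht)
    have eD : ∀ l : ℕ, ω.nrm (cfc (ramp T l) a - cfc (ramp T l) b) ^ 2 = _ := fun l =>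
      ω.nrm_cfc_sub_sq (hc l)
    have eS := ω.nrm_cfc_sub_sq (a := a) (b := b) Real.continuous_sqrt
    rw [sq a ha, sq b hb] at eS
    simp only [cfc_const (1 : ℝ) a, cfc_const (1 : ℝ) b, map_one, mul_one, one_mul, lin a ha,
      lin b hb, cfc_neg, cfc_const_mul _ _ _ (hc _).continuousOn,
      cfc_const_mul _ _ _ Real.continuous_sqrt.continuousOn, map_neg, Complex.neg_re,
      smul_mul_assoc, Tr.apply_rsmul, Complex.re_ofReal_mul] at key
    rw [← Fin.sum_univ_eq_sum_range (fun l => ω.nrm (cfc (ramp T l) a - cfc (ramp T l) b) ^ 2)]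
    simp only [eD, Finset.sum_sub_distrib, Finset.sum_add_distrib, ← Finset.mul_sum,
      Finset.sum_neg_distrib] at key ⊢
    have hS0 : 0 ≤ ω.nrm (cfc Real.sqrt a - cfc Real.sqrt b) ^ 2 := sq_nonneg _
    have hτ : 0 ≤ (ω.f a).re + (ω.f b).re := add_nonneg (ω.nonneg ha) (ω.nonneg hb)
    have h1 : β * ω.nrm (cfc Real.sqrt a - cfc Real.sqrt b) ^ 2 ≤ T * (μ / 2) * L :=
      (mul_le_mul_of_nonneg_right (show β ≤ T * (μ / 2) from mul_le_mul_of_nonneg_left
        (sub_le_self _ (by positivity)) (Nat.cast_nonneg T)) hS0).trans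
        (mul_le_mul_of_nonneg_left hps (by positivity))
    have h2 : T * (μ / 2) * L ≤ T * (μ * L) := by
      have : 0 ≤ (T : ℝ) * μ * L := by positivity
      linarith
    have h3 : α * ((ω.f a).re + (ω.f b).re) ≤
        T * (2 / μ * ((ω.f a).re + (ω.f b).re)) := by
      have : 0 ≤ (T : ℝ) / μ * ((ω.f a).re + (ω.f b).re) := mul_nonneg (by positivity) hτ
      rw [show (T : ℝ) * (2 / μ * ((ω.f a).re + (ω.f b).re)) =
        2 * (T / μ * ((ω.f a).re + (ω.f b).re)) by ring]
      linarith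
    rw [eS] at h1
    linarith
  · simp only [Fintype.sum_sum_type, Fintype.sum_prod_type, Fin.sum_univ_three, Sum.elim_inl,
      Sum.elim_inr, Matrix.cons_val_zero, Matrix.cons_val_one, Matrix.cons_val_two]
    simp only [Matrix.tail_cons, Matrix.head_cons, mul_one, one_mul]
    have e : ∀ l : Fin T, -(ramp T l x * ramp T l x) + -(ramp T l y * ramp T l y) +
        2 * ramp T l x * ramp T l y = -((ramp T l x - ramp T l y) ^ 2) := fun l => by ring
    simp only [e, Finset.sum_neg_distrib]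
    rw [Fin.sum_univ_eq_sum_range (fun l => (ramp T l x - ramp T l y) ^ 2)]
    set p := Real.sqrt x
    set q := Real.sqrt y
    have hp : p * p = x := Real.mul_self_sqrt hx
    have hq : q * q = y := Real.mul_self_sqrt hy
    have main : T * |x - y| ≤ α * x + β * x + (α * y + β * y) + -(2 * β) * p * q := by
      have amgm : |x - y| ≤ μ / 2 * (p - q) ^ 2 + 1 / (2 * μ) * (p + q) ^ 2 := by
        rw [← hp, ← hq, show p * p - q * q = (p - q) * (p + q) by ring, abs_mul,
          ← sq_abs (p - q), ← sq_abs (p + q)]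
        have := sq_nonneg (μ * |p - q| - |p + q|)
        field_simp
        nlinarith
      refine (mul_le_mul_of_nonneg_left amgm (Nat.cast_nonneg T)).trans (le_of_eq ?_)
      rw [← hp, ← hq, hβ]
      simp only [α]
      field_simp
      ring
    rcases le_total y x with hyx | hxy
    · have := sum_ramp_sub_sq T hyx
      rw [abs_of_nonneg (sub_nonneg.2 hyx)] at main
      linarith
    · have h' := sum_ramp_sub_sq T hxy
      have e' : ∀ l, (ramp T l y - ramp T l x) ^ 2 = (ramp T l x - ramp T l y) ^ 2 := fun l => by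
        ring
      simp only [e'] at h'
      rw [abs_of_nonpos (sub_nonpos.2 hxy), neg_sub] at main
      linarith

theorem sum_ramp_idem (T : ℕ) (x : ℝ) : ∀ k : ℕ,
    ∑ l ∈ Finset.range k, (ramp T l x - ramp T l x ^ 2) ≤ min 1 (max 0 (T * x)) ∧
      ((k : ℝ) ≤ T * x → ∑ l ∈ Finset.range k, (ramp T l x - ramp T l x ^ 2) = 0) := by
  intro k
  induction k with
  | zero => simp
  | succ k ih =>
    rw [Finset.sum_range_succ]
    push_cast
    rcases le_total (T * x) k with h | h
    · have e : ramp T k x = 0 := by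
        rw [ramp, max_eq_left (by linarith), min_eq_right zero_le_one]
      rw [e]
      exact ⟨by simpa using ih.1, fun h' => by linarith⟩
    · rw [ih.2 h, zero_add]
      refine ⟨?_, fun h' => by
        rw [ramp, max_eq_right (by linarith), min_eq_left (by linarith)]; ring⟩
      have h0 : 0 ≤ ramp T k x := le_min zero_le_one (le_max_left _ _)
      have h1 : ramp T k x ≤ min 1 (max 0 (T * x)) :=
        min_le_min_left _ (max_le_max_left _ (by linarith [(Nat.cast_nonneg k : (0 : ℝ) ≤ k)]))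
      nlinarith

theorem ramp_idem_goal : RampIdemGoal B := by
  intro ω T a _ ha
  have hc : ∀ l, Continuous fun x : ℝ => ramp T l x - ramp T l x ^ 2 := fun l => by
    have := continuous_ramp T l; fun_prop
  rw [← Complex.re_sum, ← map_sum, ← cfc_sum (fun l x => ramp T l x - ramp T l x ^ 2) a _
    fun l _ => (hc l).continuousOn]
  rw [← Complex.re_ofReal_mul, ← ω.apply_rsmul, ← cfc_const_mul _ _ a
    Real.continuous_sqrt.continuousOn]
  refine ω.re_mono (cfc_mono (fun x hx => ?_)
    (by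
      rw [Finset.sum_fn]
      exact (continuous_finsetSum _ fun l _ => hc l).continuousOn) (by fun_prop))
  rw [Finset.sum_apply]
  refine ((sum_ramp_idem T x T).1).trans ?_
  have hx0 := spectrum_nonneg_of_nonneg ha hx
  rw [max_eq_right (by positivity : 0 ≤ (T : ℝ) * x), ← Real.sqrt_mul (Nat.cast_nonneg T)]
  rcases le_total ((T : ℝ) * x) 1 with h | h
  · rw [min_eq_right h]
    exact Real.le_sqrt_of_sq_le (by nlinarith [show 0 ≤ (T : ℝ) * x by positivity])
  · rw [min_eq_left h]
    exact Real.le_sqrt_of_sq_le (by linarith)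

variable {G : Type*} [Group G] {S : Sys G B} {C : Finset B} {F : Finset G} {n : ℕ}

/-- The projection onto a row is a multiple of an idempotent. -/
theorem Rows.proj_sq (P : Rows S C F n) (v : Fin n → ℂ) (g : G) :
    S.Eqv (star (P.row v g) * P.row v g * (star (P.row v g) * P.row v g))
      ((∑ b, ‖v b‖ ^ 2) • (star (P.row v g) * P.row v g)) := by
  set r := P.row v g
  set σ : ℝ := ∑ b, ‖v b‖ ^ 2
  have h1 : S.Eqv (star r * (r * star r) * r) (star r * ((σ : ℂ) • P.e g) * r) :=
    ((Sys.Eqv.refl (star r)).mul (P.row_mul_star v g)).mul (Sys.Eqv.refl r)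
  have h2 : S.Eqv (star r * (P.e g * r)) (star r * r) := (Sys.Eqv.refl (star r)).mul (P.e_row v g)
  have e1 : star r * r * (star r * r) = star r * (r * star r) * r := by simp only [mul_assoc]
  have e2 : star r * ((σ : ℂ) • P.e g) * r = (σ : ℂ) • (star r * (P.e g * r)) := by
    rw [mul_smul_comm, smul_mul_assoc, mul_assoc]
  rw [e1, ← Complex.coe_smul]
  refine h1.trans fun ω hω => ?_
  rw [e2, map_smul, map_smul, h2 ω hω]

theorem Rows.root_term (P : Rows S C F n) {v : Fin n → ℂ} {g : G} (hg : g ∈ F) {W : B}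
    (hW0 : 0 ≤ W) (hWYW : W * P.Y v * W ≤ 1) {M : ℝ} (hM : 0 ≤ M) (hn : 0 < n)
    (hv : (∑ b, ‖v b‖ ^ 2) ≤ M ^ 2) {ω : Tr B} (hω : ω ∈ S.Ω) :
    (ω.f (star (P.row v g) * P.row v g * W)).re ≤ M * Real.sqrt F.card / n := by
  set σ : ℝ := ∑ b, ‖v b‖ ^ 2
  have hσ0 : 0 ≤ σ := Finset.sum_nonneg fun b _ => sq_nonneg _
  have hN : (0 : ℝ) < F.card := Nat.cast_pos.2 (Finset.card_pos.2 ⟨g, hg⟩)
  set q := star (P.row v g) * P.row v g
  have hq : 0 ≤ q := star_mul_self_nonneg _
  have hqs : star q = q := hq.isSelfAdjoint.star_eq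
  have hqq : S.Eqv (q * q) (σ • q) := P.proj_sq v g
  have hqt : (ω.f q).re = σ / n := by rw [P.row_self_trace v g hω, Complex.ofReal_re]
  have re_r : ∀ (r : ℝ) (x : B), (ω.f (r • x)).re = r * (ω.f x).re := fun r x => by
    rw [ω.apply_rsmul, Complex.re_ofReal_mul]
  have mq : ∀ x : B, (ω.f (q * q * x)).re = σ * (ω.f (q * x)).re := fun x => by
    rw [(hqq.mul (Sys.Eqv.refl x)).apply hω, smul_mul_assoc, re_r]
  set t := (ω.f (q * W)).re
  rcases hσ0.eq_or_lt with hz | hpos
  · have h := ω.norm_apply_mul_nonneg W hq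
    rw [ω.tracial, hqt, ← hz, zero_div, mul_zero] at h
    exact ((Complex.re_le_norm _).trans h).trans (by positivity)
  · set X := q * (W * q) with hX
    have hX0 : 0 ≤ X := by
      have := star_left_conjugate_nonneg hW0 q; rwa [hqs, mul_assoc] at this
    have t1 : (ω.f X).re = σ * t := by
      rw [hX, ← mul_assoc, ω.tracial, ← mul_assoc, mq]
    have t2 : (ω.f (star q * X)).re = σ * (σ * t) := by
      rw [hqs, hX, ← mul_assoc q q, mq, ← hX, t1]
    have t3 : ω.nrm q ^ 2 = σ * (σ / n) := by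
      rw [ω.nrm_sq_self hq.isSelfAdjoint, hqq.apply hω, re_r, hqt]
    have hqY : q ≤ (F.card : ℝ) • P.Y v := by
      rw [Rows.Y, smul_smul, mul_inv_cancel₀ hN.ne', one_smul]
      exact Finset.single_le_sum (f := fun g => star (P.row v g) * P.row v g)
        (fun h _ => star_mul_self_nonneg _) hg
    have h5 : q * (W * q * W) * q ≤ (F.card : ℝ) • (q * q) := by
      have h1 := star_left_conjugate_le_conjugate hqY W
      rw [hW0.isSelfAdjoint.star_eq, mul_smul_comm, smul_mul_assoc] at h1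
      have h2 := h1.trans (smul_le_smul_of_nonneg_left hWYW hN.le)
      have h3 := star_left_conjugate_le_conjugate h2 q
      rwa [hqs, mul_smul_comm, smul_mul_assoc, mul_one] at h3
    have t4 : ω.nrm X ^ 2 ≤ σ * (F.card * (σ * (σ / n))) := by
      have h := ((Sys.Eqv.refl (q * W)).mul hqq).mul (Sys.Eqv.refl (W * q))
      have e : X * X = q * W * (q * q) * (W * q) := by simp only [hX, mul_assoc]
      have e' : q * W * (σ • q) * (W * q) = σ • (q * (W * q * W) * q) := by
        simp only [mul_smul_comm, smul_mul_assoc, mul_assoc]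
      rw [ω.nrm_sq_self hX0.isSelfAdjoint, e, h.apply hω, e', re_r]
      refine mul_le_mul_of_nonneg_left ((ω.re_mono h5).trans (le_of_eq ?_)) hσ0
      rw [re_r, hqq.apply hω, re_r, hqt]
    have t5 : σ * (σ * t) ≤ ω.nrm q * ω.nrm X := by
      rw [← t2]; exact (Complex.re_le_norm _).trans (ω.norm_apply_star_mul_le _ _)
    have ht0 : 0 ≤ t := ω.re_mul_nonneg hq hW0
    have t6 : (σ * (σ * t)) ^ 2 ≤ σ * (σ / n) * (σ * (F.card * (σ * (σ / n)))) := by
      refine (pow_le_pow_left₀ (by positivity) t5 2).trans ?_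
      rw [mul_pow, t3]
      exact mul_le_mul_of_nonneg_left t4 (by positivity)
    have t7 : t ^ 2 ≤ σ * F.card / (n : ℝ) ^ 2 := by
      refine le_of_mul_le_mul_left ?_ (pow_pos hpos 4)
      calc σ ^ 4 * t ^ 2 = (σ * (σ * t)) ^ 2 := by ring
        _ ≤ _ := t6
        _ = _ := by ring
    refine (sq_le_sq₀ ht0 (by positivity)).1 (t7.trans ?_)
    rw [div_pow, mul_pow, Real.sq_sqrt hN.le]
    gcongr

theorem root_goal (S : Sys G B) : RootGoal S := by
  intro C F n P v M hF hn hv hM ω hω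
  have hN : (0 : ℝ) < F.card := Nat.cast_pos.2 hF.card_pos
  have hY0 := P.Y_nonneg v
  refine le_of_forall_pos_le_add fun d hd => ?_
  have cW : Continuous fun y : ℝ => (Real.sqrt (max y 0) + d)⁻¹ :=
    Continuous.inv₀ (by fun_prop) fun y => by positivity
  set W := cfc (fun y : ℝ => (Real.sqrt (max y 0) + d)⁻¹) (P.Y v) with hW
  have hW0 : 0 ≤ W := cfc_nonneg fun y _ => by positivity
  have hWYW : W * P.Y v * W ≤ 1 := by
    rw [hW]; nth_rw 2 [← cfc_id' ℝ (P.Y v)]
    rw [← cfc_mul _ _ (P.Y v) cW.continuousOn (by fun_prop),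
      ← cfc_mul (fun y : ℝ => (Real.sqrt (max y 0) + d)⁻¹ * y) _ (P.Y v)
        (cW.mul continuous_id).continuousOn cW.continuousOn]
    refine cfc_le_one _ _ fun y hy => ?_
    have hy0 := spectrum_nonneg_of_nonneg hY0 hy
    simp only [max_eq_left hy0]
    have hp : 0 < Real.sqrt y + d := by positivity
    rw [mul_comm _ y, mul_assoc, ← mul_inv, mul_inv_le_iff₀ (by positivity), one_mul]
    nlinarith [Real.mul_self_sqrt hy0, Real.sqrt_nonneg y]
  have hsplit : cfc Real.sqrt (P.Y v) ≤ P.Y v * W + algebraMap ℝ B d := by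
    rw [hW]; nth_rw 2 [← cfc_id' ℝ (P.Y v)]
    have c2 : Continuous fun y : ℝ => y * (Real.sqrt (max y 0) + d)⁻¹ := continuous_id.mul cW
    rw [← cfc_mul _ _ (P.Y v) (by fun_prop) cW.continuousOn,
      ← cfc_add_const d (fun y : ℝ => y * (Real.sqrt (max y 0) + d)⁻¹) (P.Y v) c2.continuousOn]
    refine cfc_mono (fun y hy => ?_) (by fun_prop) (c2.add continuous_const).continuousOn
    have hy0 := spectrum_nonneg_of_nonneg hY0 hy
    simp only [max_eq_left hy0]
    rw [← sub_le_iff_le_add, ← div_eq_mul_inv, le_div_iff₀ (by positivity)]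
    nlinarith [Real.mul_self_sqrt hy0]
  refine (ω.re_mono hsplit).trans ?_
  rw [map_add, Complex.add_re, Algebra.algebraMap_eq_smul_one, ω.apply_rsmul, ω.map_one', mul_one,
    Complex.ofReal_re]
  refine add_le_add ?_ le_rfl
  rw [Rows.Y, smul_mul_assoc, Finset.sum_mul, ω.apply_rsmul, map_sum, Complex.re_ofReal_mul,
    Complex.re_sum, inv_mul_le_iff₀ hN]
  exact (Finset.sum_le_sum fun g hg => P.root_term hg hW0 hWYW hM hn hv hω).trans_eq (by rw [Finset.sum_const, nsmul_eq_mul])

end Vale.Agent.P095
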