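import Vale.Agent.P095.Upgrade.Rows
import Vale.Agent.P095.Upgrade.Ramps
import Vale.Agent.P095.Upgrade.Model
import Vale.Agent.P095.Shift

/-!
# P095: weighted samples of four elements modelling `M₂`
-/

open scoped ComplexOrder
open Finset

namespace Vale.Agent.P095

variable {G B : Type*} [Group G] [DecidableEq G] [CStarAlgebra B] [PartialOrder B]
  [StarOrderedRing B]

/-- `ramp T l x = x * rampQuot T l x` for non-negative `x`. -/
noncomputable def rampQuot (T l : ℕ) (x : ℝ) : ℝ :=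
  (if l = 0 then 1 else ramp T l x) / max x (T : ℝ)⁻¹

theorem continuous_rampQuot {T : ℕ} (hT : 0 < T) (l : ℕ) : Continuous (rampQuot T l) := by
  have h : ∀ x : ℝ, max x (T : ℝ)⁻¹ ≠ 0 := fun x =>
    (lt_max_of_lt_right (by positivity)).ne'
  unfold rampQuot
  split_ifs
  · exact continuous_const.div (by fun_prop) h
  · exact (continuous_ramp T l).div (by fun_prop) h

theorem mul_rampQuot {T : ℕ} (hT : 0 < T) (l : ℕ) {x : ℝ} (hx : 0 ≤ x) :
    x * rampQuot T l x = ramp T l x := by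
  have hT' : (0 : ℝ) < T := by exact_mod_cast hT
  unfold rampQuot
  rcases Nat.eq_zero_or_pos l with rfl | hl
  · rw [if_pos rfl, ramp, Nat.cast_zero, sub_zero, max_eq_right (by positivity : 0 ≤ (T : ℝ) * x)]
    rcases le_total x (T : ℝ)⁻¹ with h | h
    · have h1 : (T : ℝ) * x ≤ 1 :=
        (mul_le_mul_of_nonneg_left h hT'.le).trans_eq (mul_inv_cancel₀ hT'.ne')
      rw [max_eq_right h, min_eq_right h1, one_div, inv_inv, mul_comm]
    · have h1 : 1 ≤ (T : ℝ) * x :=
        (mul_inv_cancel₀ hT'.ne').symm.trans_le (mul_le_mul_of_nonneg_left h hT'.le)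
      have hx0 : x ≠ 0 := (lt_of_lt_of_le (inv_pos.2 hT') h).ne'
      rw [max_eq_left h, min_eq_left h1, mul_one_div, div_self hx0]
  · rw [if_neg hl.ne']
    rcases le_total x (T : ℝ)⁻¹ with h | h
    · have h1 : (T : ℝ) * x ≤ 1 :=
        (mul_le_mul_of_nonneg_left h hT'.le).trans_eq (mul_inv_cancel₀ hT'.ne')
      have hl' : (1 : ℝ) ≤ l := by exact_mod_cast hl
      have h0 : ramp T l x = 0 := by
        rw [ramp, max_eq_left (by linarith), min_eq_right zero_le_one]
      rw [h0]; simp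
    · have hx0 : x ≠ 0 := (lt_of_lt_of_le (inv_pos.2 hT') h).ne'
      rw [max_eq_left h, mul_div_cancel₀ _ hx0]

theorem sum_norm_sq_signVec {n : ℕ} (hn : 0 < n) (s : Fin n → Bool) :
    ∑ b, ‖signVec s b‖ ^ 2 = 1 := by
  have h : ∀ b, ‖signVec s b‖ ^ 2 = (n : ℝ)⁻¹ := fun b => by
    simp only [signVec]
    split_ifs <;> simp [Real.sq_sqrt (Nat.cast_nonneg n)]
  rw [sum_congr rfl fun b _ => h b, sum_const, card_univ, Fintype.card_fin, nsmul_eq_mul,
    mul_inv_cancel₀ (by exact_mod_cast hn.ne')]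

theorem sum_norm_sq_fourVec {n : ℕ} (hn : 0 < n) (s : Signs n) (a : Fin 4) :
    ∑ b, ‖fourVec s a b‖ ^ 2 ≤ 2 ∧ (a = 0 ∨ a = 1 → ∑ b, ‖fourVec s a b‖ ^ 2 = 1) := by
  have h1 := sum_norm_sq_signVec hn s.1
  have h2 := sum_norm_sq_signVec hn s.2
  have key : ∀ x y : ℂ, ‖(((Real.sqrt 2)⁻¹ : ℝ) : ℂ) * (x + y)‖ ^ 2 ≤ ‖x‖ ^ 2 + ‖y‖ ^ 2 := by
    intro x y
    rw [norm_mul, mul_pow, Complex.norm_real, Real.norm_of_nonneg (by positivity), inv_pow,
      Real.sq_sqrt zero_le_two]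
    nlinarith [norm_add_le x y, norm_nonneg (x + y), sq_nonneg (‖x‖ - ‖y‖)]
  fin_cases a
  · exact ⟨(h1.trans_le one_le_two), fun _ => h1⟩
  · exact ⟨(h2.trans_le one_le_two), fun _ => h2⟩
  · refine ⟨?_, by simp⟩
    refine (sum_le_sum fun b _ => key (signVec s.1 b) (signVec s.2 b)).trans ?_
    rw [sum_add_distrib, h1, h2]; norm_num
  · refine ⟨?_, by simp⟩
    refine (sum_le_sum fun b _ => (?_ : _ ≤ ‖signVec s.1 b‖ ^ 2 + ‖signVec s.2 b‖ ^ 2)).trans ?_
    · have h := key (signVec s.1 b) (-signVec s.2 b)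
      rw [norm_neg, ← sub_eq_add_neg] at h
      exact h
    · rw [sum_add_distrib, h1, h2]; norm_num

namespace Rows

variable {S : Sys G B} {C : Finset B} {F : Finset G} {n : ℕ} (P : Rows S C F n)

/-- The sampled element. -/
noncomputable def samp (T : ℕ) (v : Fin n → ℂ) (l : ℕ) : B := cfc (ramp T l) (P.Y v)

omit [DecidableEq G] in
theorem samp_bounds (T : ℕ) (v : Fin n → ℂ) (l : ℕ) :
    0 ≤ P.samp T v l ∧ ‖P.samp T v l‖ ≤ 1 := by
  have h : ∀ x : ℝ, 0 ≤ ramp T l x ∧ ramp T l x ≤ 1 := fun x =>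
    ⟨le_min zero_le_one (le_max_left _ _), min_le_left _ _⟩
  exact ⟨cfc_nonneg fun x _ => (h x).1, norm_cfc_le zero_le_one fun x _ => by
    rw [Real.norm_of_nonneg (h x).1]; exact (h x).2⟩

omit [DecidableEq G] in
theorem sum_samp (T : ℕ) (v : Fin n → ℂ) :
    ∑ l ∈ range T, P.samp T v l = cfc (fun x => ∑ l ∈ range T, ramp T l x) (P.Y v) := by
  rw [← Finset.sum_fn, cfc_sum _ _ _ fun l _ => (continuous_ramp T l).continuousOn]
  rfl

omit [DecidableEq G] in
theorem sum_samp_trace (hF : F.Nonempty) (T : ℕ) (v : Fin n → ℂ) {ω : Tr B} (hω : ω ∈ S.Ω) :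
    ∑ l ∈ range T, (ω.f (P.samp T v l)).re ≤ T * ((∑ b, ‖v b‖ ^ 2) / n) := by
  have hY := P.Y_nonneg v
  rw [← Complex.re_sum, ← map_sum, P.sum_samp]
  have h : cfc (fun x => ∑ l ∈ range T, ramp T l x) (P.Y v) ≤ (T : ℝ) • P.Y v := by
    conv_rhs => arg 2; rw [← cfc_id' ℝ (P.Y v)]
    rw [← cfc_smul (T : ℝ) (fun x : ℝ => x) (P.Y v)]
    have hc : Continuous fun x => ∑ l ∈ range T, ramp T l x :=
      continuous_finsetSum _ fun l _ => continuous_ramp T l
    refine cfc_mono (fun x hx => ?_) hc.continuousOn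
    have hx0 := spectrum_nonneg_of_nonneg hY hx
    rw [sum_ramp, smul_eq_mul]
    exact (min_le_right _ _).trans_eq (max_eq_right (by positivity))
  refine (ω.re_mono h).trans_eq ?_
  rw [ω.apply_rsmul, P.Y_trace hF v hω, ← Complex.ofReal_mul, Complex.ofReal_re]

omit [DecidableEq G] in
theorem sum_samp_weight (hn : 0 < n) (hF : F.Nonempty) (T : ℕ) (s : Fin n → Bool) {c : B}
    (hc : c ∈ C) {ω : Tr B} (hω : ω ∈ S.Ω) :
    ∑ l ∈ range T, ω.f (c * P.samp T (signVec s) l) = ((T / n : ℝ) : ℂ) * ω.f c := by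
  set Y := P.Y (signVec s)
  have hY : 0 ≤ Y := P.Y_nonneg _
  have hon : ω.on Y ≤ 1 := by
    show ω.on (((F.card : ℝ)⁻¹) • _) ≤ 1
    rw [← Complex.coe_smul, ω.on_smul, Complex.norm_real, Real.norm_of_nonneg (by positivity)]
    refine (mul_le_mul_of_nonneg_left ((ω.on_sum _ _).trans (sum_le_sum fun g _ =>
      (?_ : ω.on (star (P.row (signVec s) g) * P.row (signVec s) g) ≤ 1))) (by positivity)).trans ?_
    · refine (ω.on_mul _ _).trans ?_
      rw [ω.on_star]
      exact mul_le_one₀ (P.on_sv_le hω hn s g) (ω.on_nonneg _) (P.on_sv_le hω hn s g)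
    · rw [sum_const, nsmul_eq_mul, mul_one, inv_mul_cancel₀ (Nat.cast_ne_zero.2 hF.card_pos.ne')]
  have hc1 : Continuous fun x => ∑ l ∈ range T, ramp T l x :=
    continuous_finsetSum _ fun l _ => continuous_ramp T l
  have e : ω.rep (∑ l ∈ range T, P.samp T (signVec s) l) = ω.rep ((T : ℝ) • Y) := by
    rw [← sub_eq_zero, ← map_sub, P.sum_samp]
    have e1 : cfc (fun x => ∑ l ∈ range T, ramp T l x) Y - (T : ℝ) • Y =
        cfc (fun x => ∑ l ∈ range T, ramp T l x - T * max x 0) Y := by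
      conv_lhs => arg 2; arg 2; rw [← cfc_id' ℝ Y]
      rw [← cfc_smul (T : ℝ) (fun x : ℝ => x) Y,
        ← cfc_sub _ (fun x => (T : ℝ) • x) Y hc1.continuousOn]
      exact cfc_congr fun x hx => by
        rw [max_eq_left (spectrum_nonneg_of_nonneg hY hx), smul_eq_mul]
    rw [e1, ← norm_eq_zero]
    refine le_antisymm (on_cfc_le ω (IsSelfAdjoint.of_nonneg hY) hon
      (hc1.sub (by fun_prop)) le_rfl fun x hx => ?_) (norm_nonneg _)
    have hx1 : x ≤ 1 := (le_abs_self x).trans hx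
    rw [sum_ramp, min_eq_right (max_le (Nat.cast_nonneg T)
      (mul_le_of_le_one_right (Nat.cast_nonneg T) hx1)), max_comm,
      mul_max_of_nonneg _ _ (Nat.cast_nonneg T), mul_zero, sub_self, abs_zero]
  have e2 : ω.rep (c * ∑ l ∈ range T, P.samp T (signVec s) l) = ω.rep (c * ((T : ℝ) • Y)) := by
    rw [map_mul, map_mul, e]
  rw [← map_sum, ← mul_sum, ω.apply_congr e2, mul_smul_comm, ω.apply_rsmul,
    P.Y_weight hF (signVec s) hc hω, sum_norm_sq_signVec hn s]
  push_cast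
  ring

omit [DecidableEq G] in
theorem sum_samp_idem (hn : 0 < n) (hF : F.Nonempty) {T : ℕ} (hT : 0 < T) (hi : RampIdemGoal B)
    (hroot : RootGoal S) (v : Fin n → ℂ) (hv : ∑ b, ‖v b‖ ^ 2 ≤ 2) {ω : Tr B} (hω : ω ∈ S.Ω) :
    ∑ l ∈ range T, (ω.f (P.samp T v l - P.samp T v l * P.samp T v l)).re ≤
      Real.sqrt T * (2 * Real.sqrt F.card / n) := by
  have h1 := hi ω T (P.Y v) hT (P.Y_nonneg v)
  have e : ∀ l, cfc (fun x => ramp T l x - ramp T l x ^ 2) (P.Y v) =
      P.samp T v l - P.samp T v l * P.samp T v l := fun l => by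
    rw [samp, ← cfc_mul (ramp T l) (ramp T l) _ (continuous_ramp T l).continuousOn
      (continuous_ramp T l).continuousOn, ← cfc_sub (ramp T l) (fun x => ramp T l x * ramp T l x) _
      (continuous_ramp T l).continuousOn
      ((continuous_ramp T l).fun_mul (continuous_ramp T l)).continuousOn]
    simp only [pow_two]
  simp only [e] at h1
  exact h1.trans (mul_le_mul_of_nonneg_left
    (hroot C F n P v 2 hF hn (hv.trans (by norm_num)) zero_le_two ω hω) (Real.sqrt_nonneg _))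

/-- The projections onto a vector are moved little by a Følner element. -/
theorem Y_almost_fixed (hF : F.Nonempty) (v : Fin n → ℂ) (hv : ∑ b, ‖v b‖ ^ 2 ≤ 2) {k : G} {δ : ℝ}
    (hk : (((F.image (k * ·)) \ F).card + (F \ (F.image (k * ·))).card : ℝ) ≤ δ * F.card)
    {ω : Tr B} (hω : ω ∈ S.Ω) {s : B} (hs : ‖s‖ ≤ 1) :
    (ω.f (s * (P.Y v - S.α k (P.Y v)))).re ≤ δ * (2 / n) := by
  set F' := F.image (k * ·)
  set p : G → B := fun g => star (P.row v g) * P.row v g
  have e : P.Y v - S.α k (P.Y v) = (F.card : ℝ)⁻¹ • (∑ g ∈ F \ F', p g - ∑ g ∈ F' \ F, p g) := by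
    rw [P.Y_map, sum_sdiff_sub_sum_sdiff, smul_sub,
      sum_image fun a _ b _ h => mul_left_cancel h]
    rfl
  have hp : ∀ g, ‖ω.f (s * p g)‖ ≤ 2 / n := fun g => by
    refine (ω.norm_apply_mul_nonneg s (star_mul_self_nonneg _)).trans ?_
    refine (mul_le_of_le_one_left (ω.nonneg (star_mul_self_nonneg _)) hs).trans ?_
    rw [P.row_self_trace v g hω, Complex.ofReal_re]
    exact div_le_div_of_nonneg_right hv (Nat.cast_nonneg n)
  have hsum : ∀ A : Finset G, ‖∑ g ∈ A, ω.f (s * p g)‖ ≤ A.card * (2 / n) := fun A =>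
    (norm_sum_le _ _).trans ((sum_le_sum fun g _ => hp g).trans_eq (by simp))
  have hFc : (0 : ℝ) < F.card := by exact_mod_cast hF.card_pos
  refine (Complex.re_le_norm _).trans ?_
  rw [e, mul_smul_comm, ω.apply_rsmul, mul_sub, map_sub, mul_sum, mul_sum, map_sum, map_sum,
    norm_mul, Complex.norm_real, Real.norm_of_nonneg (by positivity)]
  refine (mul_le_mul_of_nonneg_left ((norm_sub_le _ _).trans (add_le_add (hsum _) (hsum _)))
    (by positivity)).trans ?_
  rw [inv_mul_le_iff₀ hFc, ← add_mul, add_comm]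
  calc _ ≤ δ * F.card * (2 / (n : ℝ)) := mul_le_mul_of_nonneg_right hk (by positivity)
    _ = _ := by ring

omit [DecidableEq G] in
theorem α_samp (T : ℕ) (v : Fin n → ℂ) (l : ℕ) (k : G) :
    S.α k (P.samp T v l) = cfc (ramp T l) (S.α k (P.Y v)) := by
  have hc : Continuous (S.α k) := AddMonoidHomClass.continuous_of_bound (S.α k) 1 fun x => by
    rw [one_mul, Sys.norm_α]
  have hY : IsSelfAdjoint (P.Y v) := IsSelfAdjoint.of_nonneg (P.Y_nonneg v)
  exact StarAlgHomClass.map_cfc ((S.α k : B →⋆ₐ[ℂ] B).restrictScalars ℝ) (ramp T l) (P.Y v)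
    (continuous_ramp T l).continuousOn hc hY (hY.map _)

theorem sum_samp_fixed (hF : F.Nonempty) {T : ℕ} (hT : 0 < T) (hr : RampGoal B)
    (v : Fin n → ℂ) (hv : ∑ b, ‖v b‖ ^ 2 ≤ 2) {k : G} {δ μ : ℝ} (hμ : 0 < μ)
    (hk : (((F.image (k * ·)) \ F).card + (F \ (F.image (k * ·))).card : ℝ) ≤ δ * F.card)
    {ω : Tr B} (hω : ω ∈ S.Ω) :
    ∑ l ∈ range T, ω.nrm (S.α k (P.samp T v l) - P.samp T v l) ^ 2 ≤
      T * ((μ * (δ * 2) + 8 / μ) / n) := by
  have ha := P.Y_nonneg v
  have h := hr ω T (P.Y v) (S.α k (P.Y v)) (δ * (2 / n)) μ hT ha (Sys.α_nonneg k ha) hμ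
    fun s hs => P.Y_almost_fixed hF v hv hk hω hs
  have e : ∀ l, ω.nrm (S.α k (P.samp T v l) - P.samp T v l) =
      ω.nrm (cfc (ramp T l) (P.Y v) - cfc (ramp T l) (S.α k (P.Y v))) := fun l => by
    rw [P.α_samp, samp, ← neg_sub, show ∀ z : B, -z = (-1 : ℂ) • z from fun z => by simp,
      ω.nrm_smul, norm_neg, norm_one, one_mul]
  simp only [e]
  refine h.trans (mul_le_mul_of_nonneg_left ?_ (Nat.cast_nonneg T))
  obtain ⟨ω', hω', he⟩ := S.invariant ω hω k
  rw [← he, P.Y_trace hF v hω, P.Y_trace hF v hω', Complex.ofReal_re]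
  have hb : (∑ b, ‖v b‖ ^ 2) / (n : ℝ) ≤ 2 / n := div_le_div_of_nonneg_right hv (Nat.cast_nonneg n)
  calc μ * (δ * (2 / n)) + 2 / μ * ((∑ b, ‖v b‖ ^ 2) / n + (∑ b, ‖v b‖ ^ 2) / n)
      ≤ μ * (δ * (2 / n)) + 2 / μ * (2 / n + 2 / n) :=
        add_le_add le_rfl (mul_le_mul_of_nonneg_left (add_le_add hb hb) (by positivity))
    _ = _ := by ring

end Rows

theorem sample_goal (hG : Foelner G) (S : Sys G B) (hm : ModelGoal S) (hr : RampGoal B)
    (hi : RampIdemGoal B) (hroot : RootGoal S) : SampleGoal S := by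
  intro K ε N₀ hε
  obtain ⟨F, hF, hK⟩ := hG K (ε ^ 2 / 256) (by positivity)
  obtain ⟨T, hT⟩ := exists_nat_gt (4 * (F.card : ℝ) / ε ^ 2)
  have hT0 : 0 < T := by
    rcases Nat.eq_zero_or_pos T with rfl | h
    · rw [Nat.cast_zero] at hT
      exact absurd hT (not_lt.2 (by positivity))
    · exact h
  choose N hN using fun l : ℕ => hm F (rampQuot T l) (continuous_rampQuot hT0 l) ε hε
  set n := max (max N₀ 1) ((range T).sup N)
  have hn0 : N₀ ≤ n := le_max_of_le_left (le_max_left _ _)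
  have hn : 0 < n := le_max_of_le_left (le_max_right N₀ 1)
  have hnN : ∀ l ∈ range T, N l ≤ n := fun l hl => le_max_of_le_right (le_sup hl)
  have : NeZero T := ⟨hT0.ne'⟩
  set M := Fintype.card (Signs n × Fin T)
  refine ⟨n, M, hn, hn0, Fintype.card_pos, fun C => ?_⟩
  obtain ⟨P⟩ := rows_goal S C F n hn
  set e : Signs n × Fin T ≃ Fin M := Fintype.equivFin _
  have hsum : ∀ φ : Signs n → ℕ → ℝ,
      ∑ i, φ (e.symm i).1 (e.symm i).2 = ∑ s, ∑ l ∈ range T, φ s l := fun φ => by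
    rw [e.symm.sum_comp fun x => φ x.1 x.2, Fintype.sum_prod_type]
    exact sum_congr rfl fun s _ => Fin.sum_univ_eq_sum_range (φ s) T
  have hMc : (M : ℝ) = Fintype.card (Signs n) * T := by
    simp only [M, Fintype.card_prod, Fintype.card_fin, Nat.cast_mul]
  refine ⟨fun i a => P.samp T (fourVec (e.symm i).1 a) (e.symm i).2,
    fun i a => P.samp_bounds _ _ _, fun ω hω => ⟨fun c hc i a => ?_, fun a => ?_, fun a => ?_,
      fun j => ?_, fun k hk a => ?_, fun c hc a ha => ?_⟩⟩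
  · exact commute_rep_cfc ω (IsSelfAdjoint.of_nonneg (P.Y_nonneg _)) c _ (continuous_ramp T _)
      (P.Y_comm _ hc hω)
  · rw [hsum fun s l => (ω.f (P.samp T (fourVec s a) l)).re, hMc]
    refine (sum_le_sum fun s _ => (P.sum_samp_trace hF T _ hω).trans (mul_le_mul_of_nonneg_left
      (div_le_div_of_nonneg_right ((sum_norm_sq_fourVec hn s a).1.trans (by norm_num : (2 : ℝ) ≤ 4))
        (Nat.cast_nonneg n)) (Nat.cast_nonneg T))).trans_eq ?_
    rw [sum_const, card_univ, nsmul_eq_mul]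
    ring
  · rw [hsum fun s l => (ω.f (P.samp T (fourVec s a) l -
      P.samp T (fourVec s a) l * P.samp T (fourVec s a) l)).re, hMc]
    refine (sum_le_sum fun s _ => (P.sum_samp_idem hn hF hT0 hi hroot _
      (sum_norm_sq_fourVec hn s a).1 hω).trans (?_ : _ ≤ ε * T / n)).trans_eq ?_
    · have hT' : (0 : ℝ) ≤ T := Nat.cast_nonneg T
      have h4 : 4 * (F.card : ℝ) ≤ ε ^ 2 * T := by
        rw [div_lt_iff₀ (by positivity)] at hT; linarith
      have h5 : 2 * Real.sqrt F.card ≤ ε * Real.sqrt T := by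
        refine (sq_le_sq₀ (by positivity) (by positivity)).1 ?_
        rw [mul_pow, mul_pow, Real.sq_sqrt (Nat.cast_nonneg _), Real.sq_sqrt hT']
        linarith
      calc Real.sqrt T * (2 * Real.sqrt F.card / n)
          ≤ Real.sqrt T * (ε * Real.sqrt T / n) := by gcongr
        _ = ε * (Real.sqrt T * Real.sqrt T) / n := by ring
        _ = _ := by rw [Real.mul_self_sqrt hT']
    · rw [sum_const, card_univ, nsmul_eq_mul]; ring
  · rw [hsum fun s l => ω.nrm (defect (fun a => P.samp T (fourVec s a) l) j) ^ 2, sum_comm, hMc]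
    refine (sum_le_sum fun l hl => (?_ : _ ≤ ε * Fintype.card (Signs n) / n)).trans_eq ?_
    · have h := hN l n (hnN l hl) C P ω hω j
      refine le_trans (le_of_eq (sum_congr rfl fun s _ => ?_)) h
      congr 3
      funext a
      exact cfc_congr fun x hx =>
        (mul_rampQuot hT0 l (spectrum_nonneg_of_nonneg (P.Y_nonneg _) hx)).symm
    · rw [sum_const, card_range, nsmul_eq_mul]; ring
  · rw [hsum fun s l => ω.nrm (S.α k (P.samp T (fourVec s a) l) - P.samp T (fourVec s a) l) ^ 2,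
      hMc]
    refine (sum_le_sum fun s _ => (P.sum_samp_fixed hF hT0 hr _ (sum_norm_sq_fourVec hn s a).1
      (show 0 < 32 / ε by positivity) (hK k hk) hω).trans (?_ : _ ≤ ε * T / n)).trans_eq ?_
    · rw [show 32 / ε * (ε ^ 2 / 256 * 2) + 8 / (32 / ε) = ε / 2 by field_simp; ring]
      rw [show (T : ℝ) * (ε / 2 / n) = ε * T / n / 2 by ring]
      linarith [show 0 ≤ ε * T / (n : ℝ) by positivity]
    · rw [sum_const, card_univ, nsmul_eq_mul]; ring
  · have h : ∀ s : Signs n, ∑ l ∈ range T, ω.f (c * P.samp T (fourVec s a) l) =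
        ((T / n : ℝ) : ℂ) * ω.f c := fun s => by
      rcases ha with rfl | rfl
      · exact P.sum_samp_weight hn hF T s.1 hc hω
      · exact P.sum_samp_weight hn hF T s.2 hc hω
    have h' : ∑ i, ω.f (c * P.samp T (fourVec (e.symm i).1 a) (e.symm i).2) =
        ((M / n : ℝ) : ℂ) * ω.f c := by
      rw [e.symm.sum_comp fun x : Signs n × Fin T => ω.f (c * P.samp T (fourVec x.1 a) x.2),
        Fintype.sum_prod_type, sum_congr rfl fun s _ =>
          (Fin.sum_univ_eq_sum_range (fun l => ω.f (c * P.samp T (fourVec s a) l)) T).trans (h s),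
        sum_const, card_univ, nsmul_eq_mul, hMc]
      push_cast
      ring
    rw [h', sub_self, norm_zero]
    positivity

end Vale.Agent.P095
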