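import Vale.Agent.P095.Upgrade.Defs

/-!
# P095: tracial 1-norm and linearisation of exponentials of almost projections
-/

open scoped ComplexOrder
open Complex

namespace Vale.Agent.P095

variable {B : Type*} [CStarAlgebra B] [PartialOrder B] [StarOrderedRing B]

namespace Tr.L1

variable {ω : Tr B} {x y a : B} {L L' : ℝ}

theorem nonneg (h : ω.L1 x L) : 0 ≤ L := by
  have h1 : (1 : ℝ) ≤ ‖(1 : B)‖ := ω.nrm_one.symm.le.trans (ω.nrm_le_norm 1)
  have h2 := (norm_nonneg _).trans (h 1)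
  nlinarith

theorem mono (h : ω.L1 x L) (hL : L ≤ L') : ω.L1 x L' :=
  fun s => (h s).trans (mul_le_mul_of_nonneg_left hL (norm_nonneg _))

theorem congr (h : ω.L1 x L) (e : ω.rep y = ω.rep x) : ω.L1 y L := fun s => by
  rw [ω.apply_congr (x := s * y) (y := s * x) (by rw [map_mul, map_mul, e])]
  exact h s

theorem zero (hL : 0 ≤ L) : ω.L1 0 L := fun s => by simp; positivity

theorem add (h : ω.L1 x L) (h' : ω.L1 y L') : ω.L1 (x + y) (L + L') := fun s => by
  rw [mul_add, map_add, mul_add]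
  exact (norm_add_le _ _).trans (add_le_add (h s) (h' s))

theorem neg (h : ω.L1 x L) : ω.L1 (-x) L := fun s => by
  rw [mul_neg, map_neg, norm_neg]; exact h s

theorem sub (h : ω.L1 x L) (h' : ω.L1 y L') : ω.L1 (x - y) (L + L') := by
  rw [sub_eq_add_neg]; exact h.add h'.neg

theorem smul (h : ω.L1 x L) (c : ℂ) : ω.L1 (c • x) (‖c‖ * L) := fun s => by
  rw [mul_smul_comm, map_smul, norm_smul, mul_left_comm]
  exact mul_le_mul_of_nonneg_left (h s) (norm_nonneg _)

theorem mul_left (h : ω.L1 x L) {A : ℝ} (ha : ‖a‖ ≤ A) : ω.L1 (a * x) (A * L) := fun s => by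
  rw [← mul_assoc]
  refine (h _).trans ?_
  calc ‖s * a‖ * L ≤ ‖s‖ * ‖a‖ * L := mul_le_mul_of_nonneg_right (norm_mul_le _ _) h.nonneg
    _ ≤ ‖s‖ * A * L :=
        mul_le_mul_of_nonneg_right (mul_le_mul_of_nonneg_left ha (norm_nonneg _)) h.nonneg
    _ = ‖s‖ * (A * L) := mul_assoc _ _ _

theorem mul_right (h : ω.L1 x L) {A : ℝ} (ha : ‖a‖ ≤ A) : ω.L1 (x * a) (A * L) := fun s => by
  rw [← mul_assoc, ω.tracial, ← mul_assoc]
  refine (h _).trans ?_
  calc ‖a * s‖ * L ≤ ‖a‖ * ‖s‖ * L := mul_le_mul_of_nonneg_right (norm_mul_le _ _) h.nonneg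
    _ ≤ A * ‖s‖ * L :=
        mul_le_mul_of_nonneg_right (mul_le_mul_of_nonneg_right ha (norm_nonneg _)) h.nonneg
    _ = ‖s‖ * (A * L) := by ring

theorem star (h : ω.L1 x L) : ω.L1 (star x) L := fun s => by
  have : ω.f (s * Star.star x) = Star.star (ω.f (Star.star s * x)) := by
    rw [← map_star, star_mul, star_star, ω.tracial]
  rw [this, norm_star, ← norm_star s]
  exact h _

theorem of_nonneg (hx : 0 ≤ x) : ω.L1 x (ω.f x).re := fun s => ω.norm_apply_mul_nonneg s hx

theorem nrm_sq_le (h : ω.L1 x L) {A : ℝ} (hx : ‖x‖ ≤ A) : ω.nrm x ^ 2 ≤ A * L := by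
  rw [ω.nrm_sq_re]
  refine ((Complex.re_le_norm _).trans (h _)).trans ?_
  rw [norm_star]
  exact mul_le_mul_of_nonneg_right hx h.nonneg

end Tr.L1

theorem spectrum_mem_Icc {r : B} (hr : 0 ≤ r) (hr1 : ‖r‖ ≤ 1) {x : ℝ} (hx : x ∈ spectrum ℝ r) :
    x ∈ Set.Icc 0 1 := by
  refine ⟨spectrum_nonneg_of_nonneg hr hx, ?_⟩
  have h := norm_apply_le_norm_cfc (fun y : ℝ => y) r hx (by fun_prop) hr.isSelfAdjoint
  rw [cfc_id' ℝ r hr.isSelfAdjoint, Real.norm_eq_abs] at h
  exact (le_abs_self x).trans (h.trans hr1)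

theorem cfc_bump {r : B} (hr : 0 ≤ r) : cfc (fun x : ℝ => x - x * x) r = r - r * r := by
  have h := hr.isSelfAdjoint
  rw [cfc_sub (fun x : ℝ => x) (fun x => x * x) r, cfc_mul (fun x : ℝ => x) (fun x => x) r,
    cfc_id' ℝ r]

/-- A function dominated by `x ↦ C (x - x²)` has small 1-norm at an almost projection. -/
theorem L1_cfc_bump (ω : Tr B) {r : B} (hr : 0 ≤ r) (hr1 : ‖r‖ ≤ 1) {f : ℝ → ℝ}
    (hf : Continuous f) {C e : ℝ} (hC : 0 ≤ C) (he : ω.L1 (r - r * r) e)
    (hb : ∀ x ∈ Set.Icc (0 : ℝ) 1, |f x| ≤ C * (x - x * x)) : ω.L1 (cfc f r) (3 * C * e) := by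
  have h1 : (ω.f (r - r * r)).re ≤ e := by
    have h := (Complex.re_le_norm _).trans (he 1)
    rw [one_mul] at h
    exact h.trans (mul_le_of_le_one_left he.nonneg
      (by nontriviality B; exact CStarRing.norm_one.le))
  have hq0 : 0 ≤ r - r * r := by
    rw [← cfc_bump hr]
    exact cfc_nonneg fun x hx => by
      obtain ⟨h0, h1⟩ := spectrum_mem_Icc hr hr1 hx; nlinarith
  set p := cfc (fun x => C * (x - x * x) + f x) r with hp
  have hp0 : 0 ≤ p := cfc_nonneg fun x hx => by
    have := hb x (spectrum_mem_Icc hr hr1 hx)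
    linarith [abs_le.1 this]
  have hp2 : p ≤ ((2 * C : ℝ) : ℂ) • (r - r * r) := by
    rw [Complex.coe_smul, ← cfc_bump hr, ← cfc_const_mul (2 * C) (fun x : ℝ => x - x * x) r]
    exact cfc_mono fun x hx => by
      have := hb x (spectrum_mem_Icc hr hr1 hx)
      linarith [abs_le.1 this]
  have e1 : cfc f r = p - ((C : ℝ) : ℂ) • (r - r * r) := by
    rw [hp, Complex.coe_smul, ← cfc_bump hr, ← cfc_const_mul C (fun x : ℝ => x - x * x) r,
      ← cfc_sub _ _ r]
    exact cfc_congr fun x _ => by simp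
  have h2 : (ω.f p).re ≤ 2 * C * e := by
    refine (ω.re_mono hp2).trans ?_
    rw [map_smul, smul_eq_mul, Complex.re_ofReal_mul]
    exact mul_le_mul_of_nonneg_left h1 (by positivity)
  rw [e1]
  refine ((Tr.L1.of_nonneg hp0).mono h2 |>.sub (he.smul _)).mono ?_
  rw [Complex.norm_real, Real.norm_of_nonneg hC]
  linarith

theorem norm_wave_sub_linear (t : ℝ) {x : ℝ} (hx : x ∈ Set.Icc (0 : ℝ) 1) :
    ‖wave t x - 1 - (wave t 1 - 1) * x‖ ≤ 4 * |t| * (x - x * x) := by
  have hw : ∀ y : ℝ, ‖wave t y - 1‖ ≤ |t| * |y| := by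
    intro y
    have h := Real.norm_exp_I_mul_ofReal_sub_one_le (x := t * y)
    rw [Real.norm_eq_abs, abs_mul, Complex.ofReal_mul, ← mul_assoc] at h
    exact h
  obtain ⟨h0, h1⟩ := hx
  rcases le_total x (1 / 2) with hh | hh
  · refine (norm_sub_le _ _).trans ?_
    rw [norm_mul, Complex.norm_real, Real.norm_of_nonneg h0]
    have a := hw x
    have b := mul_le_mul_of_nonneg_right (hw 1) h0
    rw [abs_of_nonneg h0] at a
    rw [abs_one, mul_one] at b
    nlinarith [mul_nonneg (mul_nonneg (abs_nonneg t) h0) (sub_nonneg.2 hh)]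
  · have e : wave t x - 1 - (wave t 1 - 1) * x
        = wave t 1 * (wave t (x - 1) - 1) + (wave t 1 - 1) * ((1 - x : ℝ) : ℂ) := by
      have : wave t x = wave t 1 * wave t (x - 1) := by
        rw [wave, wave, wave, ← Complex.exp_add]; push_cast; ring_nf
      rw [this]; push_cast; ring
    rw [e]
    refine (norm_add_le _ _).trans ?_
    rw [norm_mul, norm_mul, norm_wave, one_mul, Complex.norm_real,
      Real.norm_of_nonneg (sub_nonneg.2 h1)]
    have a := hw (x - 1)
    have b := mul_le_mul_of_nonneg_right (hw 1) (sub_nonneg.2 h1)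
    rw [abs_of_nonpos (sub_nonpos.2 h1)] at a
    rw [abs_one, mul_one] at b
    nlinarith [mul_nonneg (mul_nonneg (abs_nonneg t) (sub_nonneg.2 h1)) (sub_nonneg.2 hh)]

/-- An exponential of an almost projection is almost linear. -/
theorem L1_wave_linear (ω : Tr B) {r : B} (hr : 0 ≤ r) (hr1 : ‖r‖ ≤ 1) {e : ℝ}
    (he : ω.L1 (r - r * r) e) (t : ℝ) :
    ω.L1 (fc (wave t) r - (1 + (wave t 1 - 1) • r)) (24 * |t| * e) := by
  have hsa := hr.isSelfAdjoint
  set g : ℝ → ℂ := fun x => wave t x - 1 - (wave t 1 - 1) * x with hg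
  have hgc : Continuous g := by
    have := continuous_wave t; fun_prop
  have e1 : fc g r = fc (wave t) r - (1 + (wave t 1 - 1) • r) := by
    have hw := continuous_wave t
    rw [hg, fc_sub (g := fun x => wave t x - 1) (by fun_prop) (by fun_prop),
      fc_sub hw (by fun_prop), fc_const hsa, map_one, fc_const_mul _ (by fun_prop), fc_id hsa,
      sub_sub]
  have e2 : fc g r = cfc (fun x => (g x).re) r + I • cfc (fun x => (g x).im) r := by
    rw [← fc_real hsa, ← fc_real hsa, ← fc_const_mul _ (by fun_prop),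
      ← fc_add (by fun_prop) (by fun_prop)]
    congr 1
    funext x
    rw [mul_comm]; exact (Complex.re_add_im _).symm
  rw [← e1, e2]
  have hC : (0 : ℝ) ≤ 4 * |t| := by positivity
  have u1 := L1_cfc_bump ω hr hr1 (f := fun x => (g x).re) (by fun_prop) hC he
    fun x hx => (Complex.abs_re_le_norm _).trans (norm_wave_sub_linear t hx)
  have u2 := L1_cfc_bump ω hr hr1 (f := fun x => (g x).im) (by fun_prop) hC he
    fun x hx => (Complex.abs_im_le_norm _).trans (norm_wave_sub_linear t hx)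
  refine (u1.add (u2.smul I)).mono ?_
  rw [Complex.norm_I]; linarith

/-- An exponential of an almost projection. -/
noncomputable def W (t : ℝ) (r : B) : B := fc (wave t) r

omit [PartialOrder B] [StarOrderedRing B] in
theorem W_unitary {r : B} (hr : IsSelfAdjoint r) (t : ℝ) :
    star (W t r) * W t r = 1 ∧ W t r * star (W t r) = 1 := by
  have hs : Continuous fun x => star (wave t x) := continuous_star.comp (continuous_wave t)
  have key : ∀ x, star (wave t x) * wave t x = 1 := fun x => by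
    change (starRingEnd ℂ) (wave t x) * wave t x = 1
    rw [Complex.conj_mul', norm_wave]; simp
  unfold W
  rw [star_fc]
  constructor
  · rw [← fc_mul hs (continuous_wave t)]; simp only [key]; rw [fc_const hr, map_one]
  · rw [← fc_mul (continuous_wave t) hs]
    simp only [mul_comm (wave t _), key]
    rw [fc_const hr, map_one]

theorem rep_W_commute (ω : Tr B) {r : B} (hr : IsSelfAdjoint r) (t : ℝ) {c : B}
    (h : Commute (ω.rep c) (ω.rep r)) : Commute (ω.rep c) (ω.rep (W t r)) := by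
  rw [W, fc_map ω.rep (map_continuous ω.rep) (continuous_wave t) hr]
  exact ((h.symm).cfc (by rw [(hr.map ω.rep).star_eq]; exact h.symm) _).symm

theorem wave_pi_one : wave Real.pi 1 = -1 := by
  rw [wave, Complex.ofReal_one, mul_one, mul_comm, Complex.exp_pi_mul_I]

theorem wave_half_pi_one : wave (Real.pi / 2) 1 = I := by
  rw [wave, Complex.ofReal_one, mul_one, mul_comm]
  push_cast
  rw [Complex.exp_pi_div_two_mul_I]

theorem wave_neg_half_pi_one : wave (-(Real.pi / 2)) 1 = -I := by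
  rw [wave, Complex.ofReal_one, mul_one, mul_comm]
  push_cast
  rw [neg_mul, Complex.exp_neg, Complex.exp_pi_div_two_mul_I, Complex.inv_I]

end Vale.Agent.P095
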